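import Crest.Agent.R236.Defs

/-!
Auxiliary facts for `Body.lean`: simultaneous diagonalisation and the simplex of maximal volume.
-/

set_option autoImplicit false

open scoped MatrixOrder
open Matrix

namespace Crest.Agent.R236

variable {n : ℕ}

/-- simultaneous diagonalisation of a positive definite and a symmetric matrix -/
lemma ba_simul {A B : Matrix (Fin n) (Fin n) ℝ} (hA : A.PosDef) (hB : B.IsHermitian) :
    ∃ (P : Matrix (Fin n) (Fin n) ℝ) (d : Fin n → ℝ), IsUnit P ∧ A = star P * P ∧
      B = star P * diagonal d * P := by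
  obtain ⟨S, hS, rfl⟩ :=
    CStarAlgebra.isStrictlyPositive_iff_eq_star_mul_self.mp hA.isStrictlyPositive
  obtain ⟨S, rfl⟩ := hS
  set R : Matrix (Fin n) (Fin n) ℝ := Units.val S⁻¹ with hR
  have hRS : R * (S : Matrix (Fin n) (Fin n) ℝ) = 1 := by rw [hR]; exact S.inv_mul
  have hM : (star R * B * R).IsHermitian := isHermitian_conjTranspose_mul_mul R hB
  set U : Matrix (Fin n) (Fin n) ℝ := (hM.eigenvectorUnitary : Matrix (Fin n) (Fin n) ℝ) with hU
  have hUU : U * star U = 1 := Unitary.mul_star_self_of_mem hM.eigenvectorUnitary.2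
  have hsp : star R * B * R = U * diagonal hM.eigenvalues * star U := by
    have := hM.spectral_theorem
    rw [Unitary.conjStarAlgAut_apply] at this
    simpa using this
  refine ⟨star U * S, hM.eigenvalues, ?_, ?_, ?_⟩
  · exact (IsUnit.of_mul_eq_one_right U hUU).mul S.isUnit
  · rw [star_mul, star_star, mul_assoc, ← mul_assoc U, hUU, one_mul]
  · rw [star_mul, star_star]
    calc B = star (R * S) * B * (R * S) := by rw [hRS]; simp
      _ = star (S : Matrix (Fin n) (Fin n) ℝ) * (star R * B * R) * S := by
        rw [star_mul]; simp only [mul_assoc]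
      _ = star (S : Matrix (Fin n) (Fin n) ℝ) * (U * diagonal hM.eigenvalues * star U) * S :=
        congrArg (fun X => star (S : Matrix (Fin n) (Fin n) ℝ) * X * S) hsp
      _ = _ := by simp only [mul_assoc]

lemma ba_le_of_det_le {A B : Matrix (Fin n) (Fin n) ℝ} (hA : A.PosDef) (hB : B.IsHermitian)
    {C : ℝ} (hAB : (B - A).PosSemidef) (hd : B.det ≤ C * A.det) : (C • A - B).PosSemidef := by
  have hdA := hA.det_pos
  obtain ⟨P, d, hP, rfl, rfl⟩ := ba_simul hA hB
  have h1 : star P * diagonal d * P - star P * P = star P * diagonal (fun i => d i - 1) * P := by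
    rw [← diagonal_sub, diagonal_one, mul_sub, sub_mul, mul_one]
  rw [h1, hP.posSemidef_star_left_conjugate_iff, posSemidef_diagonal_iff] at hAB
  have hd1 : ∀ i, 1 ≤ d i := fun i => by simpa using hAB i
  have h2 : ∏ i, d i ≤ C := by
    have : (star P * diagonal d * P).det = (∏ i, d i) * (star P * P).det := by
      simp only [det_mul, det_diagonal]; ring
    rw [this] at hd
    exact le_of_mul_le_mul_right hd hdA
  have h3 : ∀ i, d i ≤ C := fun i => by
    refine le_trans ?_ h2
    rw [← Finset.mul_prod_erase Finset.univ d (Finset.mem_univ i)]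
    refine le_mul_of_one_le_right (zero_le_one.trans (hd1 i)) ?_
    calc (1 : ℝ) = ∏ _j ∈ Finset.univ.erase i, (1 : ℝ) := by simp
      _ ≤ _ := Finset.prod_le_prod (fun _ _ => zero_le_one) fun j _ => hd1 j
  have h4 : C • (star P * P) - star P * diagonal d * P =
      star P * diagonal (fun i => C - d i) * P := by
    have : (diagonal fun _ : Fin n => C) = C • (1 : Matrix (Fin n) (Fin n) ℝ) := by
      rw [smul_one_eq_diagonal]
    rw [← diagonal_sub, this, mul_sub, sub_mul, Matrix.mul_smul, mul_one, Matrix.smul_mul]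
  rw [h4, hP.posSemidef_star_left_conjugate_iff, posSemidef_diagonal_iff]
  exact fun i => by simpa using h3 i

lemma ba_eq_of_det_le {A B : Matrix (Fin n) (Fin n) ℝ} (hA : A.PosDef)
    (hAB : (B - A).PosSemidef) (hd : B.det ≤ A.det) : A = B := by
  have hB : B.IsHermitian := by
    have := hAB.isHermitian.add hA.isHermitian
    rwa [sub_add_cancel] at this
  have h := ba_le_of_det_le (C := 1) hA hB hAB (by rwa [one_mul])
  rw [one_smul] at h
  exact le_antisymm (Matrix.le_iff.2 hAB) (Matrix.le_iff.2 h)

/-- a family of `n` points of `D` spanning with `v₀` a simplex of maximal volume -/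
lemma ba_exists_max {D : Set (E n)} (hD : IsCompact D) (hi : (interior D).Nonempty) :
    ∃ v₀ ∈ D, ∃ v : Fin n → E n, (∀ i, v i ∈ D) ∧
      (∀ q : Fin n → ℝ, ∑ j, q j • (v j - v₀) = 0 → q = 0) ∧
      ∀ z ∈ D, ∀ q : Fin n → ℝ, ∑ j, q j • (v j - v₀) = z - v₀ → ∀ i, |q i| ≤ 1 := by
  obtain ⟨v₀, hv₀⟩ := hi
  obtain ⟨r, hr, hball⟩ := Metric.mem_nhds_iff.1 (mem_interior_iff_mem_nhds.1 hv₀)
  let M : (Fin n → E n) → Matrix (Fin n) (Fin n) ℝ := fun v => Matrix.of fun i j => (v i - v₀) j
  have hcont : Continuous fun v => |(M v).det| := by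
    refine Continuous.abs (Continuous.matrix_det ?_)
    refine continuous_pi fun i => continuous_pi fun j => ?_
    simp only [M, of_apply]
    fun_prop
  have hK : IsCompact (Set.univ.pi fun _ : Fin n => D) := isCompact_univ_pi fun _ => hD
  let w : Fin n → E n := fun i => v₀ + (r / 2) • eb i
  have hw : w ∈ Set.univ.pi fun _ : Fin n => D := by
    intro i _
    apply hball
    rw [Metric.mem_ball, dist_eq_norm]
    simp only [w, add_sub_cancel_left, norm_smul, PiLp.norm_single, norm_one, mul_one,
      Real.norm_eq_abs]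
    rw [abs_of_pos (by linarith)]
    linarith
  have hMw : M w = (r / 2) • (1 : Matrix (Fin n) (Fin n) ℝ) := by
    ext i j
    simp [M, w, one_apply, eq_comm]
  obtain ⟨v, hv, hmax⟩ := hK.exists_isMaxOn ⟨w, hw⟩ hcont.continuousOn
  have hpos : 0 < |(M v).det| := by
    refine lt_of_lt_of_le ?_ (hmax hw)
    show 0 < |(M w).det|
    rw [hMw, det_smul, det_one, mul_one]
    exact abs_pos.2 (pow_ne_zero _ (by linarith))
  have key : ∀ (y : E n) (q : Fin n → ℝ), ∑ j, q j • (v j - v₀) = y - v₀ → ∀ i,
      (M (Function.update v i y)).det = q i * (M v).det := by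
    intro y q hq i
    rw [← smul_eq_mul, ← det_updateRow_sum (M v) i q]
    congr 1
    ext k l
    by_cases hk : k = i
    · subst hk
      have := congrArg (fun x : E n => x l) hq
      simp only [M, of_apply, Function.update_self, updateRow_self, Finset.sum_apply,
        Pi.smul_apply, smul_eq_mul]
      rw [← this]
      simp
    · simp [M, Function.update_of_ne hk, updateRow_ne hk]
  have hbound : ∀ z ∈ D, ∀ q : Fin n → ℝ, ∑ j, q j • (v j - v₀) = z - v₀ → ∀ i, |q i| ≤ 1 := by
    intro z hz q hq i
    have hmem : Function.update v i z ∈ Set.univ.pi fun _ : Fin n => D := by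
      intro k _
      by_cases hk : k = i
      · subst hk; simpa using hz
      · rw [Function.update_of_ne hk]; exact hv k trivial
    have h1 : |(M (Function.update v i z)).det| ≤ |(M v).det| := hmax hmem
    rw [key z q hq i, abs_mul] at h1
    exact le_of_mul_le_mul_right (by rwa [one_mul]) hpos
  refine ⟨v₀, interior_subset hv₀, v, fun i => hv i trivial, fun q hq => ?_, hbound⟩
  funext i
  have h1 := key v₀ q (by rw [hq, sub_self]) i
  have h2 : (M (Function.update v i v₀)).det = 0 :=
    det_eq_zero_of_row_eq_zero i fun j => by simp [M]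
  rw [h2] at h1
  exact (mul_eq_zero.1 h1.symm).resolve_right (abs_pos.1 hpos)

/-- the simplex lies in a convex set containing its vertices -/
lemma ba_simplex_mem {D : Set (E n)} (hc : Convex ℝ D) {v₀ : E n} (h₀ : v₀ ∈ D)
    {v : Fin n → E n} (hv : ∀ i, v i ∈ D) {a : Fin n → ℝ} (ha : ∀ i, 0 ≤ a i)
    (hs : ∑ i, a i ≤ 1) : v₀ + ∑ i, a i • (v i - v₀) ∈ D := by
  have h := hc.sum_mem (t := (Finset.univ : Finset (Option (Fin n))))
    (w := fun o => o.elim (1 - ∑ i, a i) a) (z := fun o => o.elim v₀ v)
    (fun o _ => by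
      cases o with
      | none => simpa using hs
      | some i => exact ha i)
    (by simp [Fintype.sum_option])
    (fun o _ => by
      cases o with
      | none => exact h₀
      | some i => exact hv i)
  convert h using 1
  simp only [Fintype.sum_option, Option.elim, smul_sub, Finset.sum_sub_distrib, sub_smul,
    one_smul, Finset.sum_smul]
  abel

end Crest.Agent.R236
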