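import Crest.Agent.R236.Defs
import Crest.Agent.R236.BodyAux

/-!
Convex bodies: normalisation, volumes, slabs, some integrals.
-/

set_option autoImplicit false

open scoped ContDiff RealInnerProductSpace Topology
open MeasureTheory Set Filter
open Crest.GeometryTopology.CoordMetric Crest.GeometryTopology.AffineMaximal

noncomputable section

namespace Crest.Agent.R236

variable {n : ℕ}

lemma omg_pos (n : ℕ) : 0 < omg n :=
  ENNReal.toReal_pos (Metric.measure_closedBall_pos volume _ one_pos).ne'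
    measure_closedBall_lt_top.ne

lemma cdet_ne_zero (T : E n ≃L[ℝ] E n) : cdet T ≠ 0 :=
  (LinearEquiv.isUnit_det' T.toLinearEquiv).ne_zero

lemma inner_adj (T : E n ≃L[ℝ] E n) (p q : E n) : ⟪adj T p, q⟫ = ⟪p, T q⟫ :=
  ContinuousLinearMap.adjoint_inner_left (T : E n →L[ℝ] E n) q p

lemma cdet_symm (T : E n ≃L[ℝ] E n) : cdet T.symm = (cdet T)⁻¹ :=
  ContinuousLinearEquiv.det_coe_symm T

lemma det_adj (T : E n ≃L[ℝ] E n) : (adj T).det = cdet T := by
  have h := LinearMap.toMatrix_adjoint (EuclideanSpace.basisFun (Fin n) ℝ)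
    (EuclideanSpace.basisFun (Fin n) ℝ) ((T : E n →L[ℝ] E n) : E n →ₗ[ℝ] E n)
  have h2 := congrArg Matrix.det h
  rw [Matrix.det_conjTranspose, LinearMap.det_toMatrix, LinearMap.det_toMatrix] at h2
  exact h2

lemma adj_symm_adj (T : E n ≃L[ℝ] E n) (p : E n) : adj T.symm (adj T p) = p := by
  refine ext_inner_right ℝ fun q => ?_
  rw [inner_adj, inner_adj, T.apply_symm_apply]

lemma adj_adj_symm (T : E n ≃L[ℝ] E n) (p : E n) : adj T (adj T.symm p) = p := by
  refine ext_inner_right ℝ fun q => ?_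
  rw [inner_adj, inner_adj, T.symm_apply_apply]

/-- a non-zero multiple of the adjoint as a continuous linear equivalence -/
def adjE (T : E n ≃L[ℝ] E n) (c : ℝ) (hc : c ≠ 0) : E n ≃L[ℝ] E n :=
  ContinuousLinearEquiv.equivOfInverse (c • adj T) (c⁻¹ • adj T.symm)
    (fun p => by simp [adj_symm_adj, smul_smul, hc])
    (fun p => by simp [adj_adj_symm, smul_smul, hc])

lemma adjE_apply (T : E n ≃L[ℝ] E n) (c : ℝ) (hc : c ≠ 0) (p : E n) :
    adjE T c hc p = c • adj T p := rfl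

lemma cdet_adjE (T : E n ≃L[ℝ] E n) (c : ℝ) (hc : c ≠ 0) :
    cdet (adjE T c hc) = c ^ n * cdet T := by
  rw [← det_adj T]
  show LinearMap.det (c • ((adj T : E n →L[ℝ] E n) : E n →ₗ[ℝ] E n)) = _
  rw [LinearMap.det_smul, finrank_euclideanSpace_fin]

/-- normalisation of a convex body (simplex of maximal volume) -/
theorem exists_ctr (n : ℕ) : ∃ c : ℝ, 0 < c ∧ c ≤ 1 ∧ ∀ D : Set (E n), IsCompact D → Convex ℝ D →
    (interior D).Nonempty → ∃ (o : E n) (T : E n ≃L[ℝ] E n), IsCtr c D o T := by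
  have hn : (0 : ℝ) ≤ n := Nat.cast_nonneg n
  obtain ⟨δ, hδ0, hδ⟩ : ∃ δ : ℝ, 0 < δ ∧ 2 * ((n : ℝ) + 1) * δ = 1 :=
    ⟨1 / (2 * ((n : ℝ) + 1)), by positivity, by field_simp⟩
  have hδ1 : δ ≤ 1 := by nlinarith
  refine ⟨δ ^ 2, by positivity, by nlinarith, fun D hD hc hi => ?_⟩
  obtain ⟨v₀, h₀, v, hv, hinj, hb⟩ := ba_exists_max hD hi
  let T₀ : E n →ₗ[ℝ] E n :=
    (EuclideanSpace.basisFun (Fin n) ℝ).toBasis.constr ℝ fun j => δ⁻¹ • (v j - v₀)
  have hT₀ : ∀ q, T₀ q = ∑ j, (q j * δ⁻¹) • (v j - v₀) := by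
    intro q
    simp only [T₀, Module.Basis.constr_apply_fintype, smul_smul]
    simp
  have hT₀inj : Function.Injective T₀ := by
    rw [← LinearMap.ker_eq_bot, LinearMap.ker_eq_bot']
    intro q hq
    rw [hT₀] at hq
    have := hinj _ hq
    ext i
    have h1 := congrFun this i
    simpa [hδ0.ne'] using h1
  let T : E n ≃L[ℝ] E n := (LinearEquiv.ofInjectiveEndo T₀ hT₀inj).toContinuousLinearEquiv
  have hT : ∀ q, T q = ∑ j, (q j * δ⁻¹) • (v j - v₀) := hT₀
  let e : E n := WithLp.toLp 2 fun _ => δ ^ 2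
  refine ⟨v₀ + T e, T, ⟨fun q hq => ?_, fun z hz => ?_⟩⟩
  · have hq' : ∀ i, |q i| ≤ δ ^ 2 := fun i => (PiLp.norm_apply_le q i).trans hq
    rw [add_assoc, ← map_add, hT]
    refine ba_simplex_mem hc h₀ hv (fun i => ?_) ?_
    · have := (abs_le.1 (hq' i)).1
      refine mul_nonneg ?_ (by positivity)
      simp only [e, PiLp.add_apply]
      linarith
    · calc ∑ i, (e + q) i * δ⁻¹ ≤ ∑ _i : Fin n, 2 * δ := by
            refine Finset.sum_le_sum fun i _ => ?_
            have := (abs_le.1 (hq' i)).2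
            rw [mul_inv_le_iff₀ hδ0]
            simp only [e, PiLp.add_apply]
            nlinarith
        _ ≤ 1 := by
            simp only [Finset.sum_const, Finset.card_univ, Fintype.card_fin, nsmul_eq_mul]
            nlinarith
  · have h1 : T.symm (z - (v₀ + T e)) = T.symm (z - v₀) - e := by
      rw [← sub_sub, map_sub, T.symm_apply_apply]
    have h2 := hb z hz _ ((hT _).symm.trans (T.apply_symm_apply (z - v₀)))
    have h3 : ∀ i, |(T.symm (z - v₀) - e) i| ≤ 2 * δ := by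
      intro i
      have h4 := h2 i
      rw [abs_mul, abs_of_pos (inv_pos.2 hδ0), mul_inv_le_iff₀ hδ0, one_mul] at h4
      obtain ⟨h5, h6⟩ := abs_le.1 h4
      simp only [e, PiLp.sub_apply]
      rw [abs_le]
      constructor <;> nlinarith
    rw [h1, EuclideanSpace.norm_eq, Real.sqrt_le_one]
    calc ∑ i, ‖(T.symm (z - v₀) - e) i‖ ^ 2 ≤ ∑ _i : Fin n, (2 * δ) ^ 2 := by
          refine Finset.sum_le_sum fun i _ => ?_
          exact pow_le_pow_left₀ (norm_nonneg _) (h3 i) 2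
      _ ≤ 1 := by
          simp only [Finset.sum_const, Finset.card_univ, Fintype.card_fin, nsmul_eq_mul]
          have h7 : (n : ℝ) * (2 * δ) ≤ 1 := by nlinarith
          have h8 : 2 * δ ≤ 1 := by nlinarith
          nlinarith

lemma volume_closedBall_eq {r : ℝ} (hr : 0 ≤ r) :
    volume (Metric.closedBall (0 : E n) r) = ENNReal.ofReal (r ^ n * omg n) := by
  rw [Measure.addHaar_closedBall' volume _ hr, finrank_euclideanSpace_fin,
    ENNReal.ofReal_mul (by positivity), omg, ENNReal.ofReal_toReal measure_closedBall_lt_top.ne]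

lemma volume_image_aff (o : E n) (f : E n →ₗ[ℝ] E n) (S : Set (E n)) :
    volume ((fun q => o + f q) '' S) = ENNReal.ofReal |LinearMap.det f| * volume S := by
  rw [← Measure.addHaar_image_linearMap volume f S, ← image_image (fun x => o + x) f,
    image_add_left, measure_preimage_add]

lemma volume_ell (o : E n) (T : E n ≃L[ℝ] E n) {r : ℝ} (hr : 0 ≤ r) :
    volume ((fun q => o + T q) '' Metric.closedBall (0 : E n) r) =
      ENNReal.ofReal (r ^ n * |cdet T| * omg n) := by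
  have h := volume_image_aff o ((T : E n →L[ℝ] E n) : E n →ₗ[ℝ] E n) (Metric.closedBall 0 r)
  rw [volume_closedBall_eq hr, ← ENNReal.ofReal_mul (abs_nonneg _)] at h
  refine h.trans ?_
  congr 1
  unfold cdet ContinuousLinearMap.det
  ring

lemma volume_le_of_outer {D : Set (E n)} {o : E n} {T : E n ≃L[ℝ] E n} {r : ℝ} (hr : 0 ≤ r)
    (h : ∀ z ∈ D, ‖T.symm (z - o)‖ ≤ r) :
    volume D ≤ ENNReal.ofReal (r ^ n * |cdet T| * omg n) := by
  rw [← volume_ell o T hr]
  refine measure_mono fun z hz => ⟨T.symm (z - o), ?_, by simp⟩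
  simpa using h z hz

lemma le_volume_of_inner {D : Set (E n)} {o : E n} {T : E n ≃L[ℝ] E n} {r : ℝ} (hr : 0 ≤ r)
    (h : ∀ q : E n, ‖q‖ ≤ r → o + T q ∈ D) :
    ENNReal.ofReal (r ^ n * |cdet T| * omg n) ≤ volume D := by
  rw [← volume_ell o T hr]
  refine measure_mono ?_
  rintro _ ⟨q, hq, rfl⟩
  exact h q (by simpa using hq)

lemma volume_le_of_adj {D : Set (E n)} {o : E n} {T : E n ≃L[ℝ] E n} {r : ℝ} (hr : 0 ≤ r)
    (h : ∀ z ∈ D, ‖adj T (z - o)‖ ≤ r) :
    volume D ≤ ENNReal.ofReal (r ^ n / |cdet T| * omg n) := by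
  have h1 := volume_le_of_outer (D := D) (o := o) (T := (adjE T 1 one_ne_zero).symm) hr
    fun z hz => by
      rw [ContinuousLinearEquiv.symm_symm, adjE_apply, one_smul]
      exact h z hz
  rwa [cdet_symm, cdet_adjE, one_pow, one_mul, abs_inv, ← div_eq_mul_inv] at h1

/-- homothety with centre in the set -/
lemma volume_le_of_shrink {D D' : Set (E n)} {o : E n} {s : ℝ} (hs : 0 < s)
    (h : ∀ z ∈ D, o + s • (z - o) ∈ D') : ENNReal.ofReal (s ^ n) * volume D ≤ volume D' := by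
  have h1 := Measure.addHaar_image_homothety (volume : Measure (E n)) o s D
  rw [finrank_euclideanSpace_fin, abs_of_pos (pow_pos hs n)] at h1
  rw [← h1]
  refine measure_mono ?_
  rintro _ ⟨z, hz, rfl⟩
  rw [AffineMap.homothety_apply, vsub_eq_sub, vadd_eq_add, add_comm]
  exact h z hz

/-- volume of a slab -/
theorem volume_slab (n : ℕ) : ∃ C : ℝ, 0 < C ∧ ∀ D : Set (E n), IsCompact D → Convex ℝ D →
    (interior D).Nonempty → ∀ x₀ ∈ D, ∀ x₁ ∈ D, ∀ (L : E n →L[ℝ] ℝ) (a b : ℝ), a ≤ b →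
      L x₀ < L x₁ → volume {x | x ∈ D ∧ a ≤ L x ∧ L x ≤ b} ≤
        ENNReal.ofReal (C * (b - a) / (L x₁ - L x₀)) * volume D := by
  obtain ⟨c, hc0, hc1, hctr⟩ := exists_ctr n
  have hC1 : 1 ≤ (6 / c) ^ n := one_le_pow₀ (by rw [le_div_iff₀ hc0]; linarith)
  refine ⟨(6 / c) ^ n, by positivity, fun D hD hcv hi x₀ hx₀ x₁ hx₁ L a b hab hL => ?_⟩
  obtain ⟨o, T, hT⟩ := hctr D hD hcv hi
  obtain ⟨d, hd⟩ : ∃ d, d = L x₁ - L x₀ := ⟨_, rfl⟩
  have hd0 : 0 < d := by linarith
  rw [← hd]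
  obtain ⟨w, hw⟩ : ∃ w, w = (b - a) / d := ⟨_, rfl⟩
  have hw0 : 0 ≤ w := hw ▸ div_nonneg (by linarith) hd0.le
  have hwd : b - a = w * d := by rw [hw]; field_simp
  rw [mul_div_assoc, ← hw]
  by_cases hw1 : 1 ≤ w
  · calc volume {x | x ∈ D ∧ a ≤ L x ∧ L x ≤ b} ≤ 1 * volume D := by
          rw [one_mul]; exact measure_mono fun x hx => hx.1
      _ ≤ _ := by
          gcongr
          rw [ENNReal.one_le_ofReal]
          nlinarith
  push Not at hw1
  rcases eq_empty_or_nonempty {x | x ∈ D ∧ a ≤ L x ∧ L x ≤ b} with h0 | ⟨y, hyD, hya, hyb⟩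
  · rw [h0, measure_empty]; exact zero_le
  have hdiff : ∀ z ∈ D, ∀ z' ∈ D, ‖T.symm (z - z')‖ ≤ 2 := by
    intro z hz z' hz'
    have : T.symm (z - z') = T.symm (z - o) - T.symm (z' - o) := by
      rw [← map_sub]; congr 1; abel
    rw [this]
    exact (norm_sub_le _ _).trans (by linarith [hT.outer z hz, hT.outer z' hz'])
  let R : E n →ₗ[ℝ] E n :=
    LinearMap.transvection (L : E n →ₗ[ℝ] ℝ) (((w - 1) / d) • (x₁ - x₀))
  have hLu : L (x₁ - x₀) = d := by rw [map_sub, hd]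
  have hR : LinearMap.det R = w := by
    rw [LinearMap.transvection.det]
    simp only [ContinuousLinearMap.coe_coe, map_smul, hLu, smul_eq_mul]
    field_simp
    ring
  have hsub : {x | x ∈ D ∧ a ≤ L x ∧ L x ≤ b} ⊆
      (fun p => y + R p) '' {p | ‖T.symm (p - 0)‖ ≤ 6} := by
    rintro x ⟨hxD, hxa, hxb⟩
    obtain ⟨s, hs1, hs⟩ : ∃ s : ℝ, |s| ≤ 1 ∧ L (x - y) = s * (w * d) := by
      rw [← hwd, map_sub]
      rcases eq_or_lt_of_le hab with h1 | h1
      · exact ⟨0, by simp, by linarith⟩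
      · refine ⟨(L x - L y) / (b - a), ?_, by field_simp [(sub_pos.2 h1).ne']⟩
        rw [abs_div, abs_of_pos (sub_pos.2 h1), div_le_one (sub_pos.2 h1), abs_le]
        constructor <;> linarith
    refine ⟨(x - y) + (s * (1 - w)) • (x₁ - x₀), ?_, ?_⟩
    · have h1 := hdiff x hxD y hyD
      have h2 := hdiff x₁ hx₁ x₀ hx₀
      have h3 : |s * (1 - w)| ≤ 1 := by
        rw [abs_mul, abs_of_nonneg (by linarith : 0 ≤ 1 - w)]
        nlinarith [abs_nonneg s]
      rw [mem_ofPred_eq, sub_zero, map_add, map_smul]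
      refine (norm_add_le _ _).trans ?_
      rw [norm_smul, Real.norm_eq_abs]
      nlinarith [norm_nonneg (T.symm (x₁ - x₀)), abs_nonneg (s * (1 - w))]
    · have : (s * (w * d) + s * (1 - w) * d) * ((w - 1) / d) = -(s * (1 - w)) := by
        field_simp
        ring
      have hL' : L (x - y + (s * (1 - w)) • (x₁ - x₀)) = s * (w * d) + s * (1 - w) * d := by
        rw [map_add, map_smul, hLu, hs, smul_eq_mul]
      show y + (x - y + (s * (1 - w)) • (x₁ - x₀) +
        L (x - y + (s * (1 - w)) • (x₁ - x₀)) • ((w - 1) / d) • (x₁ - x₀)) = x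
      rw [hL', smul_smul, this, neg_smul]
      abel
  have hvol := volume_le_of_outer (D := {p | ‖T.symm (p - 0)‖ ≤ 6}) (o := 0) (T := T)
    (by norm_num : (0 : ℝ) ≤ 6) fun z hz => hz
  have hin := le_volume_of_inner hc0.le hT.inner
  calc volume {x | x ∈ D ∧ a ≤ L x ∧ L x ≤ b}
      ≤ ENNReal.ofReal w * volume {p : E n | ‖T.symm (p - 0)‖ ≤ 6} := by
        refine (measure_mono hsub).trans ?_
        rw [volume_image_aff, hR, abs_of_nonneg hw0]
    _ ≤ ENNReal.ofReal w * ENNReal.ofReal (6 ^ n * |cdet T| * omg n) := by gcongr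
    _ = ENNReal.ofReal ((6 / c) ^ n * w) * ENNReal.ofReal (c ^ n * |cdet T| * omg n) := by
        rw [← ENNReal.ofReal_mul hw0, ← ENNReal.ofReal_mul (by positivity)]
        congr 1
        rw [div_pow]
        field_simp
    _ ≤ _ := by gcongr

/-- linear change of variables -/
lemma lintegral_aff (o : E n) (T : E n ≃L[ℝ] E n) (g : E n → ENNReal) (S : Set (E n))
    (hS : MeasurableSet S) :
    ∫⁻ x in S, g x = ENNReal.ofReal |cdet T| * ∫⁻ x in {x | o + T x ∈ S}, g (o + T x) := by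
  have hm : MeasurableSet {x | o + T x ∈ S} :=
    (continuous_const.add T.continuous).measurable hS
  have h := lintegral_image_eq_lintegral_abs_det_fderiv_mul volume hm
    (f := fun x => o + T x) (f' := fun _ => (T : E n →L[ℝ] E n))
    (fun x _ => (T.hasFDerivAt.const_add o).hasFDerivWithinAt)
    (fun x _ y _ hxy => T.injective (add_left_cancel hxy)) g
  have him : (fun x => o + T x) '' {x | o + T x ∈ S} = S := by
    ext z
    constructor
    · rintro ⟨x, hx, rfl⟩; exact hx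
    · intro hz; exact ⟨T.symm (z - o), by simpa using hz, by simp⟩
  rw [him, lintegral_const_mul' _ _ ENNReal.ofReal_ne_top] at h
  exact h

theorem lintegral_adj_le {r : ℝ} (hr : (n : ℝ) < r) : ∃ C : ℝ, 0 < C ∧
    ∀ (T : E n ≃L[ℝ] E n) (o : E n) (c : ℝ), 0 < c →
      ∫⁻ p, ENNReal.ofReal ((1 + c * ‖adj T (p - o)‖) ^ (-r)) ≤
        ENNReal.ofReal (C / (c ^ n * |cdet T|)) := by
  have hfin := finite_integral_one_add_norm (E := E n) (μ := volume) (r := r)
    (by rwa [finrank_euclideanSpace_fin])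
  set I := ∫⁻ x : E n, ENNReal.ofReal ((1 + ‖x‖) ^ (-r)) with hI
  refine ⟨I.toReal + 1, by positivity, fun T o c hc => ?_⟩
  have h := lintegral_aff o (adjE T c hc.ne').symm
    (fun p => ENNReal.ofReal ((1 + c * ‖adj T (p - o)‖) ^ (-r))) univ MeasurableSet.univ
  have hq : ∀ q : E n, c * ‖adj T (o + (adjE T c hc.ne').symm q - o)‖ = ‖q‖ := by
    intro q
    conv_rhs => rw [← (adjE T c hc.ne').apply_symm_apply q, adjE_apply, norm_smul,
      Real.norm_eq_abs, abs_of_pos hc]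
    rw [add_sub_cancel_left]
  simp only [mem_univ, ofPred_true, Measure.restrict_univ, hq] at h
  rw [h, ← hI, cdet_symm, cdet_adjE, abs_inv, abs_mul, abs_of_pos (pow_pos hc n),
    div_eq_inv_mul, ENNReal.ofReal_mul (by positivity)]
  gcongr
  calc I = ENNReal.ofReal I.toReal := (ENNReal.ofReal_toReal hfin.ne).symm
    _ ≤ _ := ENNReal.ofReal_le_ofReal (by linarith)

/-- `A ≤ B` and `det B ≤ C det A` give `B ≤ C A` -/
lemma le_of_det_le {A B : Matrix (Fin n) (Fin n) ℝ} (hA : A.PosDef) (hB : B.PosDef) {C : ℝ}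
    (hAB : (B - A).PosSemidef) (hd : B.det ≤ C * A.det) : (C • A - B).PosSemidef :=
  ba_le_of_det_le hA hB.isHermitian hAB hd

/-- `A ≤ B` and `det B ≤ det A` give `A = B` -/
lemma eq_of_det_le {A B : Matrix (Fin n) (Fin n) ℝ} (hA : A.PosDef)
    (hAB : (B - A).PosSemidef) (hd : B.det ≤ A.det) : A = B :=
  ba_eq_of_det_le hA hAB hd

end Crest.Agent.R236

end
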