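import Crest.Agent.R236.Defs

/-!
Linear algebra for `CalcA`: quadratic forms of positive semidefinite matrices.
-/

set_option autoImplicit false

open Matrix
open scoped MatrixOrder

noncomputable section

namespace Crest.Agent.R236

variable {n : ℕ}

/-- the bilinear form of a matrix -/
def caQ (B : Matrix (Fin n) (Fin n) ℝ) (a b : Fin n → ℝ) : ℝ := ∑ i, ∑ j, B i j * a i * b j

lemma caQ_eq_dot (B : Matrix (Fin n) (Fin n) ℝ) (a b : Fin n → ℝ) :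
    caQ B a b = a ⬝ᵥ (B *ᵥ b) := by
  simp only [caQ, dotProduct, mulVec, Finset.mul_sum]
  exact Finset.sum_congr rfl fun i _ => Finset.sum_congr rfl fun j _ => by ring

lemma ca_exists_sqrt {B : Matrix (Fin n) (Fin n) ℝ} (hB : B.PosSemidef) :
    ∃ C : Matrix (Fin n) (Fin n) ℝ, B = Cᵀ * C := by
  obtain ⟨C, hC⟩ := CStarAlgebra.nonneg_iff_eq_star_mul_self.mp hB.nonneg
  rw [star_eq_conjTranspose, conjTranspose_eq_transpose_of_trivial] at hC
  exact ⟨C, hC⟩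

lemma caQ_sqrt (C : Matrix (Fin n) (Fin n) ℝ) (a b : Fin n → ℝ) :
    caQ (Cᵀ * C) a b = ∑ k, (C *ᵥ a) k * (C *ᵥ b) k := by
  rw [caQ_eq_dot, ← mulVec_mulVec, dotProduct_mulVec, vecMul_transpose]
  rfl

lemma caQ_comm {B : Matrix (Fin n) (Fin n) ℝ} (hB : B.PosSemidef) (a b : Fin n → ℝ) :
    caQ B a b = caQ B b a := by
  obtain ⟨C, rfl⟩ := ca_exists_sqrt hB
  simp only [caQ_sqrt, mul_comm]

lemma caQ_nonneg {B : Matrix (Fin n) (Fin n) ℝ} (hB : B.PosSemidef) (a : Fin n → ℝ) :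
    0 ≤ caQ B a a := by
  obtain ⟨C, rfl⟩ := ca_exists_sqrt hB
  rw [caQ_sqrt]
  exact Finset.sum_nonneg fun k _ => mul_self_nonneg _

lemma caQ_sq_le {B : Matrix (Fin n) (Fin n) ℝ} (hB : B.PosSemidef) (a b : Fin n → ℝ) :
    caQ B a b ^ 2 ≤ caQ B a a * caQ B b b := by
  obtain ⟨C, rfl⟩ := ca_exists_sqrt hB
  simp only [caQ_sqrt, ← sq]
  exact Finset.sum_mul_sq_le_sq_mul_sq _ _ _

lemma caQ_gram3 {B : Matrix (Fin n) (Fin n) ℝ} (hB : B.PosSemidef) (p q r : Fin n → ℝ)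
    {c₁ c₂ c₃ c₄ c₅ c₆ : ℝ}
    (h : ∀ a b c : ℝ, 0 ≤ c₁ * a ^ 2 + c₂ * (a * b) + c₃ * (a * c) + c₄ * b ^ 2 + c₅ * (b * c)
      + c₆ * c ^ 2) :
    0 ≤ c₁ * caQ B p p + c₂ * caQ B p q + c₃ * caQ B p r + c₄ * caQ B q q
      + c₅ * caQ B q r + c₆ * caQ B r r := by
  obtain ⟨C, rfl⟩ := ca_exists_sqrt hB
  simp only [caQ_sqrt, Finset.mul_sum, ← Finset.sum_add_distrib]
  refine Finset.sum_nonneg fun k _ => ?_
  have := h ((C *ᵥ p) k) ((C *ᵥ q) k) ((C *ᵥ r) k)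
  simpa only [sq] using this

lemma caQ_le_trace {B : Matrix (Fin n) (Fin n) ℝ} (hB : B.PosSemidef) (a : Fin n → ℝ) :
    caQ B a a ≤ B.trace * ∑ i, a i ^ 2 := by
  obtain ⟨C, rfl⟩ := ca_exists_sqrt hB
  have h1 : (Cᵀ * C).trace = ∑ k, ∑ i, C k i ^ 2 := by
    rw [trace_mul_comm]
    simp only [trace, diag, mul_apply, transpose_apply, sq]
  rw [caQ_sqrt, h1, Finset.sum_mul]
  refine Finset.sum_le_sum fun k _ => ?_
  rw [← sq]
  exact Finset.sum_mul_sq_le_sq_mul_sq Finset.univ (C k) a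

lemma caQ_dual {A : Matrix (Fin n) (Fin n) ℝ} (hA : A.PosDef) (p v : Fin n → ℝ) :
    (∑ i, v i * p i) ^ 2 ≤ caQ A⁻¹ p p * caQ A v v := by
  have hu : IsUnit A.det := (isUnit_iff_isUnit_det A).1 hA.isUnit
  have h0 : A⁻¹ *ᵥ (A *ᵥ v) = v := by rw [mulVec_mulVec, nonsing_inv_mul _ hu, one_mulVec]
  have h1 : caQ A⁻¹ p (A *ᵥ v) = ∑ i, v i * p i := by
    rw [caQ_eq_dot, h0, dotProduct_comm]
    rfl
  have h2 : caQ A⁻¹ (A *ᵥ v) (A *ᵥ v) = caQ A v v := by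
    rw [caQ_eq_dot, h0, caQ_eq_dot, dotProduct_comm]
  rw [← h1, ← h2]
  exact caQ_sq_le hA.inv.posSemidef _ _

lemma ca_sum_nonneg {B H : Matrix (Fin n) (Fin n) ℝ} (hB : B.PosSemidef)
    (hH : ∀ v, 0 ≤ caQ H v v) : 0 ≤ ∑ i, ∑ j, B i j * H i j := by
  obtain ⟨C, rfl⟩ := ca_exists_sqrt hB
  have : ∑ i, ∑ j, (Cᵀ * C) i j * H i j = ∑ k, caQ H (C k) (C k) := by
    simp only [caQ, mul_apply, transpose_apply, Finset.sum_mul]
    rw [Finset.sum_comm (s := Finset.univ) (t := Finset.univ)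
      (f := fun k i => ∑ j, H i j * C k i * C k j)]
    refine Finset.sum_congr rfl fun i _ => ?_
    rw [Finset.sum_comm]
    exact Finset.sum_congr rfl fun k _ => Finset.sum_congr rfl fun j _ => by ring
  rw [this]
  exact Finset.sum_nonneg fun k _ => hH _

lemma ca_amgm (z : Fin n → ℝ) (hz : ∀ i, 0 ≤ z i) : (∏ i, z i) * (n : ℝ) ^ n ≤ (∑ i, z i) ^ n := by
  rcases Nat.eq_zero_or_pos n with rfl | hn
  · simp
  have hn' : (0 : ℝ) < n := by exact_mod_cast hn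
  have h1 := Real.geom_mean_le_arith_mean_weighted Finset.univ (fun _ => (n : ℝ)⁻¹) z
    (fun _ _ => by positivity) (by simp [hn'.ne']) (fun i _ => hz i)
  rw [Real.finsetProd_rpow _ _ (fun i _ => hz i), ← Finset.mul_sum] at h1
  have hp : 0 ≤ ∏ i, z i := Finset.prod_nonneg fun i _ => hz i
  have h2 := pow_le_pow_left₀ (Real.rpow_nonneg hp _) h1 n
  rw [Real.rpow_inv_natCast_pow hp hn.ne', mul_pow, inv_pow, ← div_eq_inv_mul,
    le_div_iff₀ (by positivity)] at h2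
  exact h2

lemma ca_amgm_trace {A B : Matrix (Fin n) (Fin n) ℝ} (hA : A.PosDef) (hB : B.PosDef) :
    B.det * (n : ℝ) ^ n ≤ A.det * (A⁻¹ * B).trace ^ n := by
  obtain ⟨C, hC⟩ := ca_exists_sqrt hA.inv.posSemidef
  have hN : (C * B * Cᵀ).PosSemidef := by
    have := hB.posSemidef.mul_mul_conjTranspose_same C
    rwa [conjTranspose_eq_transpose_of_trivial] at this
  have htr : (A⁻¹ * B).trace = (C * B * Cᵀ).trace := by
    rw [hC, trace_mul_comm (C * B), mul_assoc]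
  have hdet : (C * B * Cᵀ).det = A⁻¹.det * B.det := by
    rw [hC]; simp only [det_mul, det_transpose]; ring
  have h1 : (C * B * Cᵀ).det = ∏ i, hN.1.eigenvalues i := by
    simpa using hN.1.det_eq_prod_eigenvalues
  have h2 : (C * B * Cᵀ).trace = ∑ i, hN.1.eigenvalues i := by
    simpa using hN.1.trace_eq_sum_eigenvalues
  have h3 := ca_amgm _ hN.eigenvalues_nonneg
  rw [← h1, ← h2, ← htr, hdet, det_nonsing_inv, Ring.inverse_eq_inv'] at h3
  have hpos := hA.det_pos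
  calc B.det * (n : ℝ) ^ n = A.det * ((A.det)⁻¹ * B.det * (n : ℝ) ^ n) := by field_simp
    _ ≤ _ := by gcongr

end Crest.Agent.R236

end
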