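import Crest.Agent.R236.Defs
import Crest.Agent.R236.CalcAAux

/-!
Algebra of `gamB`, chain and product rules for `Lop`, smoothness.
-/

set_option autoImplicit false

open scoped ContDiff RealInnerProductSpace Topology
open MeasureTheory Set Filter
open Crest.GeometryTopology.CoordMetric Crest.GeometryTopology.AffineMaximal

noncomputable section

namespace Crest.Agent.R236

variable {n : ℕ}

variable {Ω : Set (E n)} {u f g : E n → ℝ} {x : E n}

/-! ### `gamB` is a bilinear form -/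

@[simp] lemma gamB_add_left (p p' q : E n →L[ℝ] ℝ) :
    gamB u x (p + p') q = gamB u x p q + gamB u x p' q := by
  simp only [gamB, add_apply, mul_add, add_mul, Finset.sum_add_distrib]
@[simp] lemma gamB_add_right (p q q' : E n →L[ℝ] ℝ) :
    gamB u x p (q + q') = gamB u x p q + gamB u x p q' := by
  simp only [gamB, add_apply, mul_add, Finset.sum_add_distrib]
@[simp] lemma gamB_sub_left (p p' q : E n →L[ℝ] ℝ) :
    gamB u x (p - p') q = gamB u x p q - gamB u x p' q := by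
  simp only [gamB, sub_apply, mul_sub, sub_mul, Finset.sum_sub_distrib]
@[simp] lemma gamB_sub_right (p q q' : E n →L[ℝ] ℝ) :
    gamB u x p (q - q') = gamB u x p q - gamB u x p q' := by
  simp only [gamB, sub_apply, mul_sub, Finset.sum_sub_distrib]
@[simp] lemma gamB_smul_left (c : ℝ) (p q : E n →L[ℝ] ℝ) :
    gamB u x (c • p) q = c * gamB u x p q := by
  simp only [gamB, smul_apply, smul_eq_mul, Finset.mul_sum]
  exact Finset.sum_congr rfl fun i _ => Finset.sum_congr rfl fun j _ => by ring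
@[simp] lemma gamB_smul_right (c : ℝ) (p q : E n →L[ℝ] ℝ) :
    gamB u x p (c • q) = c * gamB u x p q := by
  simp only [gamB, smul_apply, smul_eq_mul, Finset.mul_sum]
  exact Finset.sum_congr rfl fun i _ => Finset.sum_congr rfl fun j _ => by ring
@[simp] lemma gamB_neg_left (p q : E n →L[ℝ] ℝ) : gamB u x (-p) q = -gamB u x p q := by
  simp only [gamB, neg_apply, mul_neg, neg_mul, Finset.sum_neg_distrib]
@[simp] lemma gamB_neg_right (p q : E n →L[ℝ] ℝ) : gamB u x p (-q) = -gamB u x p q := by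
  simp only [gamB, neg_apply, mul_neg, Finset.sum_neg_distrib]
@[simp] lemma gamB_zero_left (q : E n →L[ℝ] ℝ) : gamB u x 0 q = 0 := by simp [gamB]
@[simp] lemma gamB_zero_right (p : E n →L[ℝ] ℝ) : gamB u x p 0 = 0 := by simp [gamB]
lemma gamB_sum_left {ι : Type*} (s : Finset ι) (p : ι → E n →L[ℝ] ℝ) (q : E n →L[ℝ] ℝ) :
    gamB u x (∑ i ∈ s, p i) q = ∑ i ∈ s, gamB u x (p i) q := by
  classical
  induction s using Finset.induction_on with
  | empty => simp
  | insert a s ha ih => simp [Finset.sum_insert ha, ih]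
lemma gamB_sum_right {ι : Type*} (s : Finset ι) (p : E n →L[ℝ] ℝ) (q : ι → E n →L[ℝ] ℝ) :
    gamB u x p (∑ i ∈ s, q i) = ∑ i ∈ s, gamB u x p (q i) := by
  classical
  induction s using Finset.induction_on with
  | empty => simp
  | insert a s ha ih => simp [Finset.sum_insert ha, ih]

lemma gamB_comm (hA : (hessianMat u x).PosDef) (p q : E n →L[ℝ] ℝ) :
    gamB u x p q = gamB u x q p :=
  caQ_comm hA.inv.posSemidef (fun i => p (eb i)) (fun i => q (eb i))

lemma gamB_nonneg (hA : (hessianMat u x).PosDef) (p : E n →L[ℝ] ℝ) : 0 ≤ gamB u x p p :=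
  caQ_nonneg hA.inv.posSemidef (fun i => p (eb i))

/-- Cauchy-Schwarz -/
lemma gamB_sq_le (hA : (hessianMat u x).PosDef) (p q : E n →L[ℝ] ℝ) :
    gamB u x p q ^ 2 ≤ gamB u x p p * gamB u x q q :=
  caQ_sq_le hA.inv.posSemidef (fun i => p (eb i)) (fun i => q (eb i))

/-- a nonnegative quadratic form in three real variables stays nonnegative on Gram matrices -/
lemma gamB_gram3 (hA : (hessianMat u x).PosDef) (p q r : E n →L[ℝ] ℝ) {c₁ c₂ c₃ c₄ c₅ c₆ : ℝ}
    (h : ∀ a b c : ℝ, 0 ≤ c₁ * a ^ 2 + c₂ * (a * b) + c₃ * (a * c) + c₄ * b ^ 2 + c₅ * (b * c)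
      + c₆ * c ^ 2) :
    0 ≤ c₁ * gamB u x p p + c₂ * gamB u x p q + c₃ * gamB u x p r + c₄ * gamB u x q q
      + c₅ * gamB u x q r + c₆ * gamB u x r r :=
  caQ_gram3 hA.inv.posSemidef (fun i => p (eb i)) (fun i => q (eb i)) (fun i => r (eb i)) h

/-! ### the Hessian form -/

lemma ca_eq_sum (v : E n) : v = ∑ i, v i • eb i := by
  ext k
  simp [Pi.single_apply]

lemma ca_hess (f : E n → ℝ) (x : E n) (i j : Fin n) :
    hessianMat f x i j = dv (eb i) (dv (eb j) f) x := rfl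

lemma ca_ev_diff (hf : ContDiffAt ℝ 2 f x) : ∀ᶠ y in 𝓝 x, DifferentiableAt ℝ f y :=
  (hf.eventually (by simp)).mono fun _ hy => hy.differentiableAt (by simp)

lemma ca_diff_fderiv (hf : ContDiffAt ℝ 2 f x) : DifferentiableAt ℝ (fderiv ℝ f) x :=
  (hf.fderiv_right (m := 1) (by norm_num)).differentiableAt one_ne_zero

lemma ca_dv_diff (hf : ContDiffAt ℝ 2 f x) (w : E n) : DifferentiableAt ℝ (dv w f) x :=
  (ca_diff_fderiv hf).clm_apply (differentiableAt_const w)

lemma ca_dv_dv (hf : ContDiffAt ℝ 2 f x) (v w : E n) :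
    dv v (dv w f) x = fderiv ℝ (fderiv ℝ f) x v w := by
  have h := ((ca_diff_fderiv hf).hasFDerivAt.clm_apply (hasFDerivAt_const w x)).fderiv
  change fderiv ℝ (fun y => fderiv ℝ f y w) x v = _
  rw [h]
  simp

lemma ca_dv_congr (h : f =ᶠ[𝓝 x] g) (v : E n) : dv v f x = dv v g x := by
  simp only [dv, h.fderiv_eq]

lemma ca_dv_add (hf : DifferentiableAt ℝ f x) (hg : DifferentiableAt ℝ g x) (v : E n) :
    dv v (fun y => f y + g y) x = dv v f x + dv v g x := by
  simp only [dv, fderiv_fun_add hf hg, add_apply]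

lemma ca_dv_mul (hf : DifferentiableAt ℝ f x) (hg : DifferentiableAt ℝ g x) (v : E n) :
    dv v (fun y => f y * g y) x = f x * dv v g x + g x * dv v f x := by
  simp only [dv, fderiv_fun_mul hf hg, add_apply, smul_apply, smul_eq_mul]

lemma ca_dv_comp {ψ : ℝ → ℝ} (hψ : DifferentiableAt ℝ ψ (f x)) (hf : DifferentiableAt ℝ f x)
    (v : E n) : dv v (fun y => ψ (f y)) x = deriv ψ (f x) * dv v f x := by
  have h := (hψ.hasDerivAt.comp_hasFDerivAt x hf.hasFDerivAt).fderiv
  change fderiv ℝ (ψ ∘ f) x v = _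
  rw [h]
  rfl

lemma clm_apply_eq_sum (p : E n →L[ℝ] ℝ) (v : E n) : p v = ∑ i, v i * p (eb i) := by
  conv_lhs => rw [ca_eq_sum v]
  simp only [map_sum, map_smul, smul_eq_mul]

lemma hq_eq_dv (hu : ContDiffAt ℝ 2 u x) (v w : E n) : hq u x v w = dv v (dv w u) x := by
  rw [ca_dv_dv hu]
  conv_rhs => rw [ca_eq_sum v, ca_eq_sum w]
  simp only [hq, ca_hess, ca_dv_dv hu, map_sum, map_smul, smul_eq_mul, sum_apply, smul_apply,
    Finset.mul_sum]
  rw [Finset.sum_comm]
  exact Finset.sum_congr rfl fun i _ => Finset.sum_congr rfl fun j _ => by ring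

lemma hessianMat_symm (hf : ContDiffAt ℝ 2 f x) (i j : Fin n) :
    hessianMat f x i j = hessianMat f x j i := by
  rw [ca_hess, ca_hess, ca_dv_dv hf, ca_dv_dv hf]
  exact (hf.isSymmSndFDerivAt (by simp)).eq _ _

lemma hq_comm (hu : ContDiffAt ℝ 2 u x) (v w : E n) : hq u x v w = hq u x w v := by
  rw [hq_eq_dv hu, hq_eq_dv hu, ca_dv_dv hu, ca_dv_dv hu]
  exact (hu.isSymmSndFDerivAt (by simp)).eq _ _

lemma hq_pos (hA : (hessianMat u x).PosDef) {v : E n} (hv : v ≠ 0) : 0 < hq u x v v := by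
  have h := hA.dotProduct_mulVec_pos (x := v.ofLp) (fun h => hv (by ext i; exact congrFun h i))
  exact h.trans_eq (caQ_eq_dot (hessianMat u x) v.ofLp v.ofLp).symm

lemma hq_nonneg (hA : (hessianMat u x).PosDef) (v : E n) : 0 ≤ hq u x v v :=
  caQ_nonneg hA.posSemidef v.ofLp

/-- Cauchy-Schwarz -/
lemma hq_sq_le (hA : (hessianMat u x).PosDef) (v w : E n) :
    hq u x v w ^ 2 ≤ hq u x v v * hq u x w w :=
  caQ_sq_le hA.posSemidef v.ofLp w.ofLp

/-- duality between `hq` and `gamB` -/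
lemma clm_sq_le (hA : (hessianMat u x).PosDef) (p : E n →L[ℝ] ℝ) (v : E n) :
    p v ^ 2 ≤ gamB u x p p * hq u x v v := by
  rw [clm_apply_eq_sum p v]
  exact caQ_dual hA (fun i => p (eb i)) v.ofLp

/-- `hq u x v v ≤ tr A ‖v‖²` -/
lemma hq_le_trace (hA : (hessianMat u x).PosDef) (v : E n) :
    hq u x v v ≤ (hessianMat u x).trace * ‖v‖ ^ 2 := by
  rw [EuclideanSpace.real_norm_sq_eq]
  exact caQ_le_trace hA.posSemidef v.ofLp

/-- `gamB u x p p ≤ tr A⁻¹ ‖p‖²` -/
lemma gamB_le_trace (hA : (hessianMat u x).PosDef) (p : E n →L[ℝ] ℝ) :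
    gamB u x p p ≤ ((hessianMat u x)⁻¹).trace * ‖p‖ ^ 2 := by
  refine (caQ_le_trace hA.inv.posSemidef (fun i => p (eb i))).trans
    (mul_le_mul_of_nonneg_left ?_ hA.inv.posSemidef.trace_nonneg)
  set w : E n := WithLp.toLp 2 (fun i => p (eb i)) with hw
  have h1 : ‖w‖ ^ 2 = ∑ i, p (eb i) ^ 2 := EuclideanSpace.real_norm_sq_eq w
  have h2 : p w = ‖w‖ ^ 2 := by
    rw [h1, clm_apply_eq_sum p w]
    exact Finset.sum_congr rfl fun i _ => (sq _).symm
  have h3 : p w ≤ ‖p‖ * ‖w‖ := (le_abs_self _).trans (p.le_opNorm w)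
  rw [← h1]
  nlinarith [sq_nonneg (‖p‖ - ‖w‖)]

/-- AM-GM: `n (det B / det A)^{1/n} ≤ tr (A⁻¹ B)` -/
lemma amgm_trace {A B : Matrix (Fin n) (Fin n) ℝ} (hA : A.PosDef) (hB : B.PosDef) :
    B.det * (n : ℝ) ^ n ≤ A.det * (A⁻¹ * B).trace ^ n := ca_amgm_trace hA hB

/-! ### rules for `Lop` -/

lemma hessianMat_congr (h : f =ᶠ[𝓝 x] g) : hessianMat f x = hessianMat g x := by
  ext i j
  rw [ca_hess, ca_hess]
  exact ca_dv_congr (h.eventuallyEq_nhds.mono fun y hy => ca_dv_congr hy _) _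

lemma Lop_congr (h : f =ᶠ[𝓝 x] g) : Lop u f x = Lop u g x := by
  simp only [Lop, hessianMat_congr h]

lemma Gam_congr_left (h : f =ᶠ[𝓝 x] g) (k : E n → ℝ) : Gam u f k x = Gam u g k x := by
  simp only [Gam, h.fderiv_eq]

lemma Gam_congr_right (h : f =ᶠ[𝓝 x] g) (k : E n → ℝ) : Gam u k f x = Gam u k g x := by
  simp only [Gam, h.fderiv_eq]

lemma Gam_eq {p q : E n →L[ℝ] ℝ} (hf : HasFDerivAt f p x) (hg : HasFDerivAt g q x) :
    Gam u f g x = gamB u x p q := by
  rw [Gam, hf.fderiv, hg.fderiv]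

@[simp] lemma Lop_const (c : ℝ) : Lop u (fun _ => c) x = 0 := by
  have h : ∀ j : Fin n, dv (eb j) (fun _ : E n => c) = fun _ => 0 := fun j => by
    ext y; simp [dv]
  simp [Lop, ca_hess, h, dv]

@[simp] lemma Lop_clm (L : E n →L[ℝ] ℝ) : Lop u (fun y => L y) x = 0 := by
  have h : ∀ j : Fin n, dv (eb j) (fun y : E n => L y) = fun _ => L (eb j) := fun j => by
    ext y; simp only [dv]; rw [L.fderiv]
  simp [Lop, ca_hess, h, dv]

lemma ca_hess_add (hf : ContDiffAt ℝ 2 f x) (hg : ContDiffAt ℝ 2 g x) (i j : Fin n) :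
    hessianMat (fun y => f y + g y) x i j = hessianMat f x i j + hessianMat g x i j := by
  rw [ca_hess, ca_hess, ca_hess, ← ca_dv_add (ca_dv_diff hf _) (ca_dv_diff hg _)]
  refine ca_dv_congr ?_ _
  filter_upwards [ca_ev_diff hf, ca_ev_diff hg] with y h1 h2 using ca_dv_add h1 h2 _

lemma ca_hess_mul (hf : ContDiffAt ℝ 2 f x) (hg : ContDiffAt ℝ 2 g x) (i j : Fin n) :
    hessianMat (fun y => f y * g y) x i j = f x * hessianMat g x i j + g x * hessianMat f x i j
      + (dv (eb i) f x * dv (eb j) g x + dv (eb i) g x * dv (eb j) f x) := by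
  have hf1 : DifferentiableAt ℝ f x := hf.differentiableAt (by simp)
  have hg1 : DifferentiableAt ℝ g x := hg.differentiableAt (by simp)
  have h : dv (eb j) (fun y => f y * g y) =ᶠ[𝓝 x]
      fun y => f y * dv (eb j) g y + g y * dv (eb j) f y := by
    filter_upwards [ca_ev_diff hf, ca_ev_diff hg] with y h1 h2 using ca_dv_mul h1 h2 _
  rw [ca_hess, ca_hess, ca_hess, ca_dv_congr h,
    ca_dv_add (hf1.fun_mul (ca_dv_diff hg _)) (hg1.fun_mul (ca_dv_diff hf _)),
    ca_dv_mul hf1 (ca_dv_diff hg _), ca_dv_mul hg1 (ca_dv_diff hf _)]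
  ring

lemma ca_hess_comp {ψ : ℝ → ℝ} (hψ : ContDiffAt ℝ 2 ψ (f x)) (hf : ContDiffAt ℝ 2 f x)
    (i j : Fin n) :
    hessianMat (fun y => ψ (f y)) x i j = deriv ψ (f x) * hessianMat f x i j
      + deriv (deriv ψ) (f x) * (dv (eb i) f x * dv (eb j) f x) := by
  have hf1 : DifferentiableAt ℝ f x := hf.differentiableAt (by simp)
  have h1 : ∀ᶠ t in 𝓝 (f x), DifferentiableAt ℝ ψ t :=
    (hψ.eventually (by simp)).mono fun _ hy => hy.differentiableAt (by simp)
  have h2 : DifferentiableAt ℝ (deriv ψ) (f x) :=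
    ((hψ.fderiv_right (m := 1) (by norm_num)).differentiableAt one_ne_zero).clm_apply
      (differentiableAt_const 1)
  have h : dv (eb j) (fun y => ψ (f y)) =ᶠ[𝓝 x] fun y => deriv ψ (f y) * dv (eb j) f y := by
    filter_upwards [ca_ev_diff hf, hf1.continuousAt.eventually h1] with y h3 h4
      using ca_dv_comp h4 h3 _
  rw [ca_hess, ca_hess, ca_dv_congr h, ca_dv_mul (h2.fun_comp' x hf1) (ca_dv_diff hf _),
    ca_dv_comp h2 hf1]
  ring

lemma ca_hess_neg (i j : Fin n) : hessianMat (fun y => -f y) x i j = -hessianMat f x i j := by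
  have h : ∀ (k : E n → ℝ) (v : E n), dv v (fun y => -k y) = fun y => -dv v k y := by
    intro k v; ext y; simp [dv, fderiv_fun_neg]
  rw [ca_hess, ca_hess, h, h]

lemma ca_Lop_neg : Lop u (fun y => -f y) x = -Lop u f x := by
  simp only [Lop, ca_hess_neg, mul_neg, Finset.sum_neg_distrib]

lemma Lop_add (hf : ContDiffAt ℝ 2 f x) (hg : ContDiffAt ℝ 2 g x) :
    Lop u (fun y => f y + g y) x = Lop u f x + Lop u g x := by
  simp only [Lop, ca_hess_add hf hg, mul_add, Finset.sum_add_distrib]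

lemma Lop_sub (hf : ContDiffAt ℝ 2 f x) (hg : ContDiffAt ℝ 2 g x) :
    Lop u (fun y => f y - g y) x = Lop u f x - Lop u g x := by
  simp only [sub_eq_add_neg]
  rw [Lop_add hf hg.neg, ca_Lop_neg]

lemma Lop_const_mul (c : ℝ) (hf : ContDiffAt ℝ 2 f x) :
    Lop u (fun y => c * f y) x = c * Lop u f x := by
  have h0 : ∀ i j, hessianMat (fun _ : E n => c) x i j = 0 := fun i j => by
    have h : dv (eb j) (fun _ : E n => c) = fun _ => 0 := by ext y; simp [dv]
    simp [ca_hess, h, dv]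
  have h1 : ∀ v, dv v (fun _ : E n => c) x = 0 := fun v => by simp [dv]
  simp only [Lop, ca_hess_mul contDiffAt_const hf, h0, h1, Finset.mul_sum]
  exact Finset.sum_congr rfl fun i _ => Finset.sum_congr rfl fun j _ => by ring

lemma Lop_neg : Lop u (fun y => -f y) x = -Lop u f x := ca_Lop_neg

lemma Lop_sum {ι : Type*} (s : Finset ι) {F : ι → E n → ℝ} (hF : ∀ i ∈ s, ContDiffAt ℝ 2 (F i) x) :
    Lop u (fun y => ∑ i ∈ s, F i y) x = ∑ i ∈ s, Lop u (F i) x := by
  classical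
  induction s using Finset.induction_on with
  | empty => simp
  | insert a s ha ih =>
    have h2 : ∀ i ∈ s, ContDiffAt ℝ 2 (F i) x := fun i hi => hF i (Finset.mem_insert_of_mem hi)
    simp only [Finset.sum_insert ha]
    rw [Lop_add (hF a (Finset.mem_insert_self _ _)) (ContDiffAt.sum h2), ih h2]

lemma Lop_mul (hA : (hessianMat u x).PosDef) (hf : ContDiffAt ℝ 2 f x) (hg : ContDiffAt ℝ 2 g x) :
    Lop u (fun y => f y * g y) x = f x * Lop u g x + g x * Lop u f x + 2 * Gam u f g x := by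
  have h1 : Gam u g f x = Gam u f g x := gamB_comm hA _ _
  rw [two_mul]
  nth_rewrite 2 [← h1]
  simp only [Lop, Gam, gamB, ca_hess_mul hf hg, dv, Finset.mul_sum, ← Finset.sum_add_distrib]
  exact Finset.sum_congr rfl fun i _ => Finset.sum_congr rfl fun j _ => by ring

lemma Lop_comp {ψ : ℝ → ℝ} (hψ : ContDiffAt ℝ 2 ψ (f x)) (hf : ContDiffAt ℝ 2 f x) :
    Lop u (fun y => ψ (f y)) x =
      deriv ψ (f x) * Lop u f x + deriv (deriv ψ) (f x) * Gam u f f x := by
  simp only [Lop, Gam, gamB, ca_hess_comp hψ hf, dv, Finset.mul_sum, ← Finset.sum_add_distrib]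
  exact Finset.sum_congr rfl fun i _ => Finset.sum_congr rfl fun j _ => by ring

lemma Lop_log (hf : ContDiffAt ℝ 2 f x) (h0 : f x ≠ 0) :
    Lop u (fun y => Real.log (f y)) x = Lop u f x / f x - Gam u f f x / f x ^ 2 := by
  have h1 : deriv Real.log = fun t => t⁻¹ := funext Real.deriv_log
  rw [Lop_comp (ψ := Real.log) (Real.contDiffAt_log.2 h0) hf, h1, deriv_inv]
  field_simp
  ring

lemma Lop_exp (hf : ContDiffAt ℝ 2 f x) :
    Lop u (fun y => Real.exp (f y)) x = Real.exp (f x) * (Lop u f x + Gam u f f x) := by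
  rw [Lop_comp (ψ := Real.exp) Real.contDiff_exp.contDiffAt hf, Real.deriv_exp, Real.deriv_exp]
  ring

lemma ca_Lop_eq_trace :
    Lop u f x = ((hessianMat u x)⁻¹ * (hessianMat f x).transpose).trace := by
  simp only [Lop, Matrix.trace, Matrix.diag, Matrix.mul_apply, Matrix.transpose_apply]

lemma Lop_self (hA : (hessianMat u x).PosDef) : Lop u u x = n := by
  have hu : IsUnit (hessianMat u x).det := (Matrix.isUnit_iff_isUnit_det _).1 hA.isUnit
  have hs : (hessianMat u x).transpose = hessianMat u x := hA.isHermitian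
  rw [ca_Lop_eq_trace, hs, Matrix.nonsing_inv_mul _ hu, Matrix.trace_one, Fintype.card_fin]

lemma Lop_eq_trace : Lop u f x = ((hessianMat u x)⁻¹ * (hessianMat f x).transpose).trace :=
  ca_Lop_eq_trace

lemma ca_hq_nonneg (hf : ContDiffAt ℝ 2 f x) (h : IsLocalMin f x) (v : E n) :
    0 ≤ hq f x v v := by
  by_contra hneg
  push Not at hneg
  have hl : ∀ t : ℝ, HasDerivAt (fun s : ℝ => x + s • v) v t := fun t => by
    simpa using ((hasDerivAt_id t).smul_const v).const_add x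
  have hc : Tendsto (fun s : ℝ => x + s • v) (𝓝 0) (𝓝 x) := by
    simpa using (hl 0).continuousAt.tendsto
  have h0 : x + (0 : ℝ) • v = x := by simp
  have h1 : deriv (fun s : ℝ => f (x + s • v)) =ᶠ[𝓝 0] fun s => dv v f (x + s • v) := by
    filter_upwards [hc.eventually (ca_ev_diff hf)] with t ht
    exact (ht.hasFDerivAt.comp_hasDerivAt t (hl t)).deriv
  have h2 : deriv (deriv (fun s : ℝ => f (x + s • v))) 0 = hq f x v v := by
    rw [h1.deriv_eq, hq_eq_dv hf]
    have h3 : HasFDerivAt (dv v f) (fderiv ℝ (dv v f) x) (x + (0 : ℝ) • v) := by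
      rw [h0]; exact (ca_dv_diff hf v).hasFDerivAt
    exact (h3.comp_hasDerivAt 0 (hl 0)).deriv
  have hmin : IsLocalMin (fun s : ℝ => f (x + s • v)) 0 := by
    have := hc.eventually h
    simpa only [IsLocalMin, IsMinFilter, h0] using this
  have hcont : ContinuousAt (fun s : ℝ => f (x + s • v)) 0 :=
    ContinuousAt.comp (by rw [h0]; exact hf.continuousAt) (hl 0).continuousAt
  have hmax := isLocalMax_of_deriv_deriv_neg (h2 ▸ hneg) hmin.deriv_eq_zero hcont
  have h4 : (fun s : ℝ => f (x + s • v)) =ᶠ[𝓝 0] fun _ => f (x + (0 : ℝ) • v) := by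
    filter_upwards [hmin, hmax] with t h5 h6 using le_antisymm h6 h5
  have h5 := h4.deriv.deriv_eq
  rw [h2] at h5
  simp only [deriv_const'] at h5
  exact hneg.ne h5

/-- second order condition at an interior minimum -/
lemma Lop_nonneg_of_isLocalMin (hA : (hessianMat u x).PosDef) (hf : ContDiffAt ℝ 2 f x)
    (h : IsLocalMin f x) : 0 ≤ Lop u f x :=
  ca_sum_nonneg hA.inv.posSemidef fun v => ca_hq_nonneg hf h (WithLp.toLp 2 v)

/-! ### smoothness -/

lemma two_of_top (hf : ContDiffAt ℝ ∞ f x) : ContDiffAt ℝ 2 f x :=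
  hf.of_le (WithTop.coe_le_coe.2 (le_top : (2 : ℕ∞) ≤ ⊤))

lemma one_of_top (hf : ContDiffAt ℝ ∞ f x) : ContDiffAt ℝ 1 f x :=
  hf.of_le (by exact_mod_cast le_top)

lemma diff_of_top (hf : ContDiffAt ℝ ∞ f x) : DifferentiableAt ℝ f x :=
  hf.differentiableAt (by simp)

lemma contDiffAt_dv (hf : ContDiffAt ℝ ∞ f x) (v : E n) : ContDiffAt ℝ ∞ (dv v f) x :=
  (hf.fderiv_right (m := ∞) le_rfl).clm_apply contDiffAt_const

lemma contDiffAt_hess (hf : ContDiffAt ℝ ∞ f x) (i j : Fin n) :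
    ContDiffAt ℝ ∞ (fun y => hessianMat f y i j) x :=
  contDiffAt_dv (contDiffAt_dv hf (eb j)) (eb i)

lemma contDiffAt_hq (hf : ContDiffAt ℝ ∞ f x) (v w : E n) :
    ContDiffAt ℝ ∞ (fun y => hq f y v w) x :=
  ContDiffAt.sum fun i _ => ContDiffAt.sum fun j _ =>
    ((contDiffAt_hess hf i j).mul contDiffAt_const).mul contDiffAt_const

lemma ca_contDiffAt_det {A : E n → Matrix (Fin n) (Fin n) ℝ}
    (hA : ∀ i j, ContDiffAt ℝ ∞ (fun y => A y i j) x) :
    ContDiffAt ℝ ∞ (fun y => (A y).det) x := by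
  simp only [Matrix.det_apply']
  exact ContDiffAt.sum fun σ _ => contDiffAt_const.mul (contDiffAt_prod fun i _ => hA _ _)

lemma contDiffAt_hdet (hf : ContDiffAt ℝ ∞ f x) : ContDiffAt ℝ ∞ (hdet f) x :=
  ca_contDiffAt_det (contDiffAt_hess hf)

lemma contDiffAt_hessInv (hf : ContDiffAt ℝ ∞ f x) (hA : (hessianMat f x).PosDef)
    (i j : Fin n) : ContDiffAt ℝ ∞ (fun y => (hessianMat f y)⁻¹ i j) x := by
  simp only [Matrix.inv_def, Ring.inverse_eq_inv', Matrix.smul_apply, smul_eq_mul,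
    Matrix.adjugate_apply]
  refine ((contDiffAt_hdet hf).inv hA.det_pos.ne').mul (ca_contDiffAt_det fun k l => ?_)
  simp only [Matrix.updateRow_apply]
  split_ifs
  · exact contDiffAt_const
  · exact contDiffAt_hess hf k l

lemma contDiffAt_mu (hf : ContDiffAt ℝ ∞ f x) (hA : (hessianMat f x).PosDef) :
    ContDiffAt ℝ ∞ (mu f) x :=
  ((contDiffAt_hdet hf).log hA.det_pos.ne').neg.div_const _

/-- `y ↦ D(y; x₀)` -/
lemma contDiffAt_breg_left (hf : ContDiffAt ℝ ∞ f x) (x₀ : E n) :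
    ContDiffAt ℝ ∞ (fun y => breg f y x₀) x :=
  (hf.sub contDiffAt_const).sub
    (contDiffAt_const.clm_apply (contDiffAt_id.sub contDiffAt_const))

/-- `y ↦ D(x₀; y)` -/
lemma contDiffAt_breg_right (hf : ContDiffAt ℝ ∞ f x) (x₀ : E n) :
    ContDiffAt ℝ ∞ (fun y => breg f x₀ y) x :=
  (contDiffAt_const.sub hf).sub
    ((hf.fderiv_right (m := ∞) le_rfl).clm_apply (contDiffAt_const.sub contDiffAt_id))

lemma Cvx.at (h : Cvx Ω u) (hx : x ∈ Ω) : ContDiffAt ℝ ∞ u x :=
  h.smooth.contDiffAt (h.isOpen.mem_nhds hx)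

lemma Cvx.hdet_pos (h : Cvx Ω u) (hx : x ∈ Ω) : 0 < hdet u x := (h.pos x hx).det_pos

lemma Cvx.exp_mu (h : Cvx Ω u) (hx : x ∈ Ω) (r : ℝ) :
    Real.exp (r * mu u x) = hdet u x ^ (-r / ((n : ℝ) + 2)) := by
  rw [Real.rpow_def_of_pos (h.hdet_pos hx), mu]
  congr 1
  ring

lemma continuousAt_gamB {p q : E n → E n →L[ℝ] ℝ} (hu : ContDiffAt ℝ ∞ u x)
    (hA : (hessianMat u x).PosDef) (hp : ContinuousAt p x) (hq : ContinuousAt q x) :
    ContinuousAt (fun y => gamB u y (p y) (q y)) x :=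
  tendsto_finsetSum _ fun i _ => tendsto_finsetSum _ fun j _ =>
    ((contDiffAt_hessInv hu hA i j).continuousAt.mul (hp.clm_apply continuousAt_const)).mul
      (hq.clm_apply continuousAt_const)

lemma continuousAt_Gam (hu : ContDiffAt ℝ ∞ u x) (hA : (hessianMat u x).PosDef)
    (hf : ContDiffAt ℝ 1 f x) (hg : ContDiffAt ℝ 1 g x) : ContinuousAt (Gam u f g) x :=
  continuousAt_gamB hu hA (hf.fderiv_right (m := 0) (by norm_num)).continuousAt
    (hg.fderiv_right (m := 0) (by norm_num)).continuousAt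

lemma continuousAt_Lop (hu : ContDiffAt ℝ ∞ u x) (hA : (hessianMat u x).PosDef)
    (hf : ContDiffAt ℝ 2 f x) : ContinuousAt (Lop u f) x := by
  have h1 : ∀ w : E n, ContDiffAt ℝ 1 (dv w f) x := fun w =>
    (hf.fderiv_right (m := 1) (by norm_num)).clm_apply contDiffAt_const
  have h2 : ∀ i j, ContinuousAt (fun y => hessianMat f y i j) x := fun i j =>
    ((h1 (eb j)).fderiv_right (m := 0) (by norm_num)).continuousAt.clm_apply continuousAt_const
  exact tendsto_finsetSum _ fun i _ => tendsto_finsetSum _ fun j _ =>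
    (contDiffAt_hessInv hu hA i j).continuousAt.mul (h2 i j)

end Crest.Agent.R236

end
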