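import Crest.Agent.R236.CalcA
import Crest.Agent.Lib.Degree.IntHtp

/-!
Jacobi's formula, third and fourth order identities, integration by parts.
-/

set_option autoImplicit false

open scoped ContDiff RealInnerProductSpace Topology
open MeasureTheory Set Filter
open Crest.GeometryTopology.CoordMetric Crest.GeometryTopology.AffineMaximal

noncomputable section

namespace Crest.Agent.R236

variable {n : ℕ}

variable {Ω : Set (E n)} {u f g : E n → ℝ} {x : E n}

namespace CB

lemma ev2 (hu : ContDiffAt ℝ ∞ u x) : ∀ᶠ y in 𝓝 x, ContDiffAt ℝ 2 u y :=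
  (two_of_top hu).eventually (by simp)

lemma dv_congr (h : f =ᶠ[𝓝 x] g) (v : E n) : dv v f x = dv v g x := by
  unfold dv; rw [h.fderiv_eq]

lemma dv_comm (hu : ContDiffAt ℝ 2 u x) (v w : E n) : dv v (dv w u) x = dv w (dv v u) x := by
  rw [← hq_eq_dv hu, ← hq_eq_dv hu, hq_comm hu]

lemma hess_eq (f : E n → ℝ) (x : E n) (i j : Fin n) :
    hessianMat f x i j = dv (eb i) (dv (eb j) f) x := rfl

lemma hess_dv (hu : ContDiffAt ℝ ∞ u x) (v : E n) (i j : Fin n) :
    hessianMat (dv v u) x i j = dv v (fun y => hessianMat u y i j) x := by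
  rw [hess_eq, dv_congr (g := dv v (dv (eb j) u)) ((ev2 hu).mono fun y hy => dv_comm hy _ _),
    dv_comm (two_of_top (contDiffAt_dv hu _))]
  rfl

lemma dv_mul (hf : DifferentiableAt ℝ f x) (hg : DifferentiableAt ℝ g x) (v : E n) :
    dv v (fun y => f y * g y) x = dv v f x * g x + f x * dv v g x := by
  unfold dv
  rw [fderiv_fun_mul hf hg]
  simp; ring

lemma dv_sum {ι : Type*} (s : Finset ι) {F : ι → E n → ℝ}
    (hF : ∀ i ∈ s, DifferentiableAt ℝ (F i) x) (v : E n) :
    dv v (fun y => ∑ i ∈ s, F i y) x = ∑ i ∈ s, dv v (F i) x := by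
  unfold dv
  rw [fderiv_fun_sum hF]
  simp

lemma dv_const (c : ℝ) (v : E n) : dv v (fun _ => c) x = 0 := by
  simp [dv]

lemma dv_const_mul (c : ℝ) (hf : DifferentiableAt ℝ f x) (v : E n) :
    dv v (fun y => c * f y) x = c * dv v f x := by
  rw [dv_mul (differentiableAt_const c) hf, dv_const]; ring

lemma line (hf : DifferentiableAt ℝ f x) (v : E n) :
    HasDerivAt (fun t : ℝ => f (x + t • v)) (dv v f x) 0 := by
  have h1 : HasDerivAt (fun t : ℝ => x + t • v) v 0 := by
    simpa using ((hasDerivAt_id (0 : ℝ)).smul_const v).const_add x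
  have h2 : HasFDerivAt f (fderiv ℝ f x) (x + (0 : ℝ) • v) := by
    simpa using hf.hasFDerivAt
  exact h2.comp_hasDerivAt (0 : ℝ) h1

open Matrix Finset in
lemma hasDerivAt_det (M : ℝ → Matrix (Fin n) (Fin n) ℝ) (B : Matrix (Fin n) (Fin n) ℝ)
    (h : ∀ i j, HasDerivAt (fun s => M s i j) (B i j) 0) :
    HasDerivAt (fun s => (M s).det) (trace (adjugate (M 0) * B)) 0 := by
  have h1 : HasDerivAt (fun s : ℝ => ∑ σ : Equiv.Perm (Fin n),
      ((Equiv.Perm.sign σ : ℤ) : ℝ) * ∏ i, M s (σ i) i)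
      (∑ σ : Equiv.Perm (Fin n), ((Equiv.Perm.sign σ : ℤ) : ℝ) *
        ∑ i, (∏ j ∈ univ.erase i, M 0 (σ j) j) • B (σ i) i) 0 := by
    refine HasDerivAt.fun_sum fun σ _ => HasDerivAt.const_mul _ ?_
    exact HasDerivAt.fun_finsetProd (u := univ) (f := fun i s => M s (σ i) i)
      (f' := fun i => B (σ i) i) fun i _ => h _ _
  convert h1 using 1
  · funext s
    rw [det_apply']
  · simp_rw [mul_sum]
    rw [sum_comm, trace]
    refine sum_congr rfl fun i _ => ?_
    have : (adjugate (M 0) * B).diag i = (adjugate (M 0) *ᵥ (fun k => B k i)) i := rfl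
    rw [this, ← cramer_eq_adjugate_mulVec, cramer_apply, det_apply']
    refine sum_congr rfl fun σ _ => ?_
    congr 1
    rw [← mul_prod_erase univ _ (mem_univ i), smul_eq_mul, mul_comm]
    congr 1
    · refine prod_congr rfl fun j hj => ?_
      rw [updateCol_ne (mem_erase.1 hj).1]
    · simp

lemma dv_hess_symm (hu : ContDiffAt ℝ ∞ u x) (v : E n) (i j : Fin n) :
    dv v (fun y => hessianMat u y i j) x = dv v (fun y => hessianMat u y j i) x :=
  dv_congr ((ev2 hu).mono fun _ hy => hessianMat_symm hy i j) v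

lemma dv_hdet (hu : ContDiffAt ℝ ∞ u x) (hA : (hessianMat u x).PosDef) (v : E n) :
    dv v (hdet u) x =
      hdet u x * ∑ i, ∑ j, (hessianMat u x)⁻¹ i j * dv v (fun y => hessianMat u y i j) x := by
  have h1 := hasDerivAt_det (fun t => hessianMat u (x + t • v))
    (Matrix.of fun i j => dv v (fun y => hessianMat u y i j) x)
    fun i j => line (diff_of_top (contDiffAt_hess hu i j)) v
  have h2 := line (diff_of_top (contDiffAt_hdet hu)) v
  rw [h2.unique h1]
  simp only [zero_smul, add_zero]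
  have hd : (hessianMat u x).det ≠ 0 := hA.det_pos.ne'
  have e : (hessianMat u x).adjugate = hdet u x • (hessianMat u x)⁻¹ := by
    rw [Matrix.inv_def, smul_smul, hdet, Ring.inverse_eq_inv, mul_inv_cancel₀ hd, one_smul]
  rw [e, Matrix.smul_mul, Matrix.trace_smul, smul_eq_mul]
  congr 1
  simp only [Matrix.trace, Matrix.diag, Matrix.mul_apply, Matrix.of_apply]
  exact Finset.sum_congr rfl fun i _ => Finset.sum_congr rfl fun j _ => by
    rw [dv_hess_symm hu v j i]

lemma ev_det (hu : ContDiffAt ℝ ∞ u x) (hA : (hessianMat u x).PosDef) :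
    ∀ᶠ y in 𝓝 x, hdet u y ≠ 0 :=
  (contDiffAt_hdet hu).continuousAt.eventually_ne hA.det_pos.ne'

lemma inv_mul_sum (hA : (hessianMat u x).PosDef) (i j : Fin n) :
    ∑ k, (hessianMat u x)⁻¹ i k * hessianMat u x k j = if i = j then 1 else 0 := by
  rw [← Matrix.mul_apply, Matrix.nonsing_inv_mul _ hA.det_pos.ne'.isUnit, Matrix.one_apply]

lemma mul_inv_sum (hA : (hessianMat u x).PosDef) (i j : Fin n) :
    ∑ k, hessianMat u x i k * (hessianMat u x)⁻¹ k j = if i = j then 1 else 0 := by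
  rw [← Matrix.mul_apply, Matrix.mul_nonsing_inv _ hA.det_pos.ne'.isUnit, Matrix.one_apply]

lemma dv_inv (hu : ContDiffAt ℝ ∞ u x) (hA : (hessianMat u x).PosDef) (v : E n) (i j : Fin n) :
    dv v (fun y => (hessianMat u y)⁻¹ i j) x =
      -((hessianMat u x)⁻¹ * (Matrix.of fun k l => dv v (fun y => hessianMat u y k l) x)
        * (hessianMat u x)⁻¹) i j := by
  set T : Matrix (Fin n) (Fin n) ℝ := Matrix.of fun k l => dv v (fun y => hessianMat u y k l) x
  set D : Matrix (Fin n) (Fin n) ℝ := Matrix.of fun k l => dv v (fun y => (hessianMat u y)⁻¹ k l) x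
  have h1 : D * hessianMat u x + (hessianMat u x)⁻¹ * T = 0 := by
    ext k l
    have e : (fun y => ∑ m, (hessianMat u y)⁻¹ k m * hessianMat u y m l) =ᶠ[𝓝 x]
        fun _ => if k = l then (1 : ℝ) else 0 := (ev_det hu hA).mono fun y hy => by
      beta_reduce
      rw [← Matrix.mul_apply, Matrix.nonsing_inv_mul _ (Ne.isUnit hy), Matrix.one_apply]
    have h2 := dv_congr e v
    rw [dv_const, dv_sum _ fun m _ => (diff_of_top (contDiffAt_hessInv hu hA k m)).fun_mul
      (diff_of_top (contDiffAt_hess hu m l))] at h2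
    rw [Matrix.add_apply, Matrix.mul_apply, Matrix.mul_apply, ← Finset.sum_add_distrib,
      Matrix.zero_apply, ← h2]
    refine Finset.sum_congr rfl fun m _ => ?_
    rw [dv_mul (diff_of_top (contDiffAt_hessInv hu hA k m)) (diff_of_top (contDiffAt_hess hu m l))]
    rfl
  have h3 : D = -((hessianMat u x)⁻¹ * T * (hessianMat u x)⁻¹) := by
    have := congrArg (· * (hessianMat u x)⁻¹) h1
    simp only [Matrix.add_mul, Matrix.zero_mul] at this
    rw [Matrix.mul_assoc, Matrix.mul_nonsing_inv _ hA.det_pos.ne'.isUnit, Matrix.mul_one] at this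
    exact eq_neg_of_add_eq_zero_left this
  exact congrFun (congrFun h3 i) j

end CB

open CB

/-- Jacobi's formula: `∂_v log det A = tr (A⁻¹ ∂_v A)` -/
lemma dv_log_hdet (hu : ContDiffAt ℝ ∞ u x) (hA : (hessianMat u x).PosDef) (v : E n) :
    dv v (fun y => Real.log (hdet u y)) x =
      ∑ i, ∑ j, (hessianMat u x)⁻¹ i j * dv v (fun y => hessianMat u y i j) x := by
  have h0 : hdet u x ≠ 0 := hA.det_pos.ne'
  have h1 := dv_hdet hu hA v
  have h2 : dv v (fun y => Real.log (hdet u y)) x = (hdet u x)⁻¹ * dv v (hdet u) x := by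
    unfold dv
    rw [((diff_of_top (contDiffAt_hdet hu)).hasFDerivAt.log h0).fderiv]
    simp
  rw [h2, h1, ← mul_assoc, inv_mul_cancel₀ h0, one_mul]

/-- `𝓛 u_v = ∂_v log det = -(n+2) μ_v` -/
lemma Lop_dv (hu : ContDiffAt ℝ ∞ u x) (hA : (hessianMat u x).PosDef) (v : E n) :
    Lop u (dv v u) x = -((n : ℝ) + 2) * fderiv ℝ (mu u) x v := by
  have h0 : hdet u x ≠ 0 := hA.det_pos.ne'
  have hn : (n : ℝ) + 2 ≠ 0 := by positivity
  have e : mu u = fun y => (-((n : ℝ) + 2)⁻¹) * Real.log (hdet u y) := by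
    funext y; unfold mu; field_simp
  have h1 : fderiv ℝ (mu u) x v = (-((n : ℝ) + 2)⁻¹) * dv v (fun y => Real.log (hdet u y)) x := by
    rw [e]
    exact dv_const_mul _ ((diff_of_top (contDiffAt_hdet hu)).log h0) v
  rw [h1, dv_log_hdet hu hA, ← mul_assoc, neg_mul_neg, mul_inv_cancel₀ hn, one_mul]
  unfold Lop
  simp only [hess_dv hu]

/-- `Γ(u_v, q) = q v` -/
lemma gamB_dv (hu : ContDiffAt ℝ ∞ u x) (hA : (hessianMat u x).PosDef) (v : E n)
    (q : E n →L[ℝ] ℝ) : gamB u x (fderiv ℝ (dv v u) x) q = q v := by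
  have e : ∀ i, fderiv ℝ (dv v u) x (eb i) = ∑ k, v k * hessianMat u x k i := fun i => by
    change dv (eb i) (dv v u) x = _
    rw [dv_comm (two_of_top hu)]
    unfold dv
    rw [clm_apply_eq_sum]
    rfl
  unfold gamB
  rw [Finset.sum_comm, clm_apply_eq_sum q v]
  refine Finset.sum_congr rfl fun j _ => ?_
  rw [← Finset.sum_mul]
  congr 1
  simp only [e, Finset.mul_sum]
  rw [Finset.sum_comm]
  have : ∀ k, ∑ i, (hessianMat u x)⁻¹ i j * (v k * hessianMat u x k i)
      = v k * if k = j then 1 else 0 := fun k => by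
    rw [← mul_inv_sum hA, Finset.mul_sum]
    exact Finset.sum_congr rfl fun i _ => by ring
  simp [this]

lemma fderiv_dv_apply (hu : ContDiffAt ℝ ∞ u x) (v w : E n) :
    fderiv ℝ (dv v u) x w = hq u x w v := (hq_eq_dv (two_of_top hu) w v).symm

lemma hasFDerivAt_breg_left (hu : ContDiffAt ℝ ∞ u x) (x₀ : E n) :
    HasFDerivAt (fun y => breg u y x₀) (fderiv ℝ u x - fderiv ℝ u x₀) x := by
  unfold breg
  have h1 : HasFDerivAt (fun y => fderiv ℝ u x₀ (y - x₀)) (fderiv ℝ u x₀) x := by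
    simp only [map_sub]
    exact (fderiv ℝ u x₀).hasFDerivAt.sub_const _
  exact ((diff_of_top hu).hasFDerivAt.sub_const _).sub h1

lemma hessianMat_breg_left (hu : ContDiffAt ℝ ∞ u x) (x₀ : E n) :
    hessianMat (fun y => breg u y x₀) x = hessianMat u x := by
  ext i j
  rw [hess_eq, hess_eq]
  have e : dv (eb j) (fun y => breg u y x₀) =ᶠ[𝓝 x]
      fun y => dv (eb j) u y - fderiv ℝ u x₀ (eb j) := (ev2 hu).mono fun y hy => by
    have h1 : HasFDerivAt (fun y => fderiv ℝ u x₀ (y - x₀)) (fderiv ℝ u x₀) y := by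
      simp only [map_sub]
      exact (fderiv ℝ u x₀).hasFDerivAt.sub_const _
    have h2 := (((hy.differentiableAt (by simp)).hasFDerivAt.sub_const (u x₀)).sub h1).fderiv
    unfold dv breg
    exact congrArg (fun L : E n →L[ℝ] ℝ => L (eb j)) h2
  rw [dv_congr e]
  unfold dv
  rw [fderiv_sub_const]

lemma Lop_breg_left (hu : ContDiffAt ℝ ∞ u x) (hA : (hessianMat u x).PosDef) (x₀ : E n) :
    Lop u (fun y => breg u y x₀) x = n := by
  rw [← Lop_self hA]
  unfold Lop
  rw [hessianMat_breg_left hu]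

/-- the differential of `τ = D(x₀; ·)` is `A (x - x₀)` -/
lemma fderiv_breg_right (hu : ContDiffAt ℝ ∞ u x) (x₀ : E n) :
    fderiv ℝ (fun y => breg u x₀ y) x = fderiv ℝ (dv (x - x₀) u) x := by
  have h2 : HasFDerivAt (fderiv ℝ u) (fderiv ℝ (fderiv ℝ u) x) x :=
    (((two_of_top hu).fderiv_right (m := 1) le_rfl).differentiableAt (by simp)).hasFDerivAt
  have h3 := h2.clm_apply ((hasFDerivAt_id x).const_sub x₀)
  have h4 := (((diff_of_top hu).hasFDerivAt.const_sub (u x₀)).sub h3).fderiv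
  have h5 := (h2.clm_apply (hasFDerivAt_const (x - x₀) x)).fderiv
  unfold breg dv
  refine h4.trans (Eq.trans ?_ h5.symm)
  ext w
  simp

/-- `Γ(τ, q) = q (x - x₀)` -/
lemma gamB_breg_right (hu : ContDiffAt ℝ ∞ u x) (hA : (hessianMat u x).PosDef) (x₀ : E n)
    (q : E n →L[ℝ] ℝ) : gamB u x (fderiv ℝ (fun y => breg u x₀ y) x) q = q (x - x₀) := by
  rw [fderiv_breg_right hu, gamB_dv hu hA]

/-- `𝓛 τ = n - (n+2) (x - x₀)·Dμ` -/
lemma Lop_breg_right (hu : ContDiffAt ℝ ∞ u x) (hA : (hessianMat u x).PosDef) (x₀ : E n) :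
    Lop u (fun y => breg u x₀ y) x = n - ((n : ℝ) + 2) * fderiv ℝ (mu u) x (x - x₀) := by
  have e : (fun y => breg u x₀ y) = fun y => (u x₀ - u y)
      + ∑ k, (EuclideanSpace.proj (𝕜 := ℝ) k y - x₀ k) * dv (eb k) u y := by
    funext y
    unfold breg dv
    rw [clm_apply_eq_sum (fderiv ℝ u y) (x₀ - y), sub_eq_add_neg, ← Finset.sum_neg_distrib]
    congr 1
    refine Finset.sum_congr rfl fun k _ => ?_
    simp; ring
  have c1 : ∀ k, ContDiffAt ℝ 2 (fun y : E n => EuclideanSpace.proj (𝕜 := ℝ) k y - x₀ k) x :=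
    fun k => (EuclideanSpace.proj (𝕜 := ℝ) k).contDiff.contDiffAt.sub contDiffAt_const
  have c2 : ∀ k, ContDiffAt ℝ 2 (dv (eb k) u) x := fun k => two_of_top (contDiffAt_dv hu _)
  rw [e, Lop_add (contDiffAt_const.sub (two_of_top hu))
      (ContDiffAt.sum fun k _ => (c1 k).mul (c2 k)),
    Lop_sub contDiffAt_const (two_of_top hu), Lop_const, Lop_self hA,
    Lop_sum _ fun k _ => (c1 k).mul (c2 k)]
  have h1 : ∀ k, Lop u (fun y => (EuclideanSpace.proj (𝕜 := ℝ) k y - x₀ k) * dv (eb k) u y) x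
      = (x - x₀) k * (-((n : ℝ) + 2) * fderiv ℝ (mu u) x (eb k)) + 2 := fun k => by
    rw [Lop_mul hA (c1 k) (c2 k), Lop_dv hu hA,
      Lop_sub (EuclideanSpace.proj (𝕜 := ℝ) k).contDiff.contDiffAt contDiffAt_const, Lop_clm,
      Lop_const, Gam_eq ((EuclideanSpace.proj (𝕜 := ℝ) k).hasFDerivAt.sub_const _)
        ((c2 k).differentiableAt (by simp)).hasFDerivAt, gamB_comm hA, gamB_dv hu hA]
    simp
  simp only [h1]
  rw [Finset.sum_add_distrib, clm_apply_eq_sum (fderiv ℝ (mu u) x) (x - x₀), Finset.mul_sum]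
  have : ∑ k, (x - x₀) k * (-((n : ℝ) + 2) * fderiv ℝ (mu u) x (eb k))
      = -∑ k, ((n : ℝ) + 2) * ((x - x₀) k * fderiv ℝ (mu u) x (eb k)) := by
    rw [← Finset.sum_neg_distrib]
    exact Finset.sum_congr rfl fun k _ => by ring
  rw [this]
  simp; ring

/-- `b + τ = (Du(x) - Du(x₀))·(x - x₀)` -/
lemma breg_add_breg (u : E n → ℝ) (x x₀ : E n) :
    breg u x x₀ + breg u x₀ x = (fderiv ℝ u x - fderiv ℝ u x₀) (x - x₀) := by
  unfold breg
  simp only [sub_apply, map_sub]
  ring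

/-- the matrix `∂_v A` -/
def d3 (u : E n → ℝ) (x v : E n) : Matrix (Fin n) (Fin n) ℝ :=
  fun i j => dv v (fun y => hessianMat u y i j) x

lemma d3_symm (hu : ContDiffAt ℝ ∞ u x) (v : E n) : (d3 u x v).IsSymm := by
  ext i j
  exact dv_hess_symm hu v j i

/-- the differential of `u_{vv}` is `(∂_v A) v` -/
lemma fderiv_hq_apply (hu : ContDiffAt ℝ ∞ u x) (v : E n) (i : Fin n) :
    fderiv ℝ (fun y => hq u y v v) x (eb i) = ∑ j, d3 u x v i j * v j := by
  have e : (fun y => hq u y v v) =ᶠ[𝓝 x] dv v (dv v u) := (ev2 hu).mono fun y hy => hq_eq_dv hy v v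
  change dv (eb i) (fun y => hq u y v v) x = _
  rw [dv_congr e, dv_comm (two_of_top (contDiffAt_dv hu v))]
  unfold dv
  rw [clm_apply_eq_sum]
  refine Finset.sum_congr rfl fun j _ => ?_
  rw [mul_comm]
  congr 1
  exact (hess_dv hu v j i).trans (dv_hess_symm hu v j i)

/-- `𝓛 u_{vv} = tr (A⁻¹ T A⁻¹ T) + ∂_{vv} log det` -/
lemma Lop_hq (h : Cvx Ω u) (hx : x ∈ Ω) (v : E n) :
    Lop u (fun y => hq u y v v) x =
      ((hessianMat u x)⁻¹ * d3 u x v * (hessianMat u x)⁻¹ * d3 u x v).trace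
        - ((n : ℝ) + 2) * dv v (dv v (mu u)) x := by
  have hu := h.at hx
  have hA := h.pos x hx
  have hv := contDiffAt_dv hu v
  have e : (fun y => hq u y v v) =ᶠ[𝓝 x] dv v (dv v u) := (ev2 hu).mono fun y hy => hq_eq_dv hy v v
  have e2 : (fun y => ∑ i, ∑ j, (hessianMat u y)⁻¹ i j * hessianMat (dv v u) y i j) =ᶠ[𝓝 x]
      fun y => -((n : ℝ) + 2) * dv v (mu u) y :=
    (h.isOpen.eventually_mem hx).mono fun y hy => Lop_dv (h.at hy) (h.pos y hy) v
  have h1 := dv_congr e2 v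
  have d1 : ∀ i j, DifferentiableAt ℝ (fun y => (hessianMat u y)⁻¹ i j) x :=
    fun i j => diff_of_top (contDiffAt_hessInv hu hA i j)
  have d2 : ∀ i j, DifferentiableAt ℝ (fun y => hessianMat (dv v u) y i j) x :=
    fun i j => diff_of_top (contDiffAt_hess hv i j)
  rw [dv_const_mul _ (diff_of_top (contDiffAt_dv (contDiffAt_mu hu hA) v)),
    dv_sum _ fun i _ => DifferentiableAt.fun_sum fun j _ => (d1 i j).fun_mul (d2 i j)] at h1
  simp only [dv_sum _ fun j _ => (d1 _ j).fun_mul (d2 _ j), dv_mul (d1 _ _) (d2 _ _), dv_inv hu hA,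
    Finset.sum_add_distrib, neg_mul, Finset.sum_neg_distrib] at h1
  rw [Lop_congr e]
  have h2 : Lop u (dv v (dv v u)) x
      = ∑ i, ∑ j, (hessianMat u x)⁻¹ i j * dv v (fun y => hessianMat (dv v u) y i j) x := by
    unfold Lop
    simp only [hess_dv hv]
  have h3 : ((hessianMat u x)⁻¹ * d3 u x v * (hessianMat u x)⁻¹ * d3 u x v).trace
      = ∑ i, ∑ j, ((hessianMat u x)⁻¹ * (Matrix.of fun k l => dv v (fun y => hessianMat u y k l) x)
        * (hessianMat u x)⁻¹) i j * hessianMat (dv v u) x i j := by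
    simp only [Matrix.trace, Matrix.diag]
    refine Finset.sum_congr rfl fun i _ => ?_
    rw [Matrix.mul_apply]
    refine Finset.sum_congr rfl fun j _ => ?_
    rw [hess_dv hu, dv_hess_symm hu v i j]
    rfl
  rw [h2, h3]
  linarith

/-- the cofactor matrix of a Hessian is divergence free -/
lemma piola (hu : ContDiffAt ℝ ∞ u x) (hA : (hessianMat u x).PosDef) (j : Fin n) :
    ∑ i, dv (eb i) (fun y => hdet u y * (hessianMat u y)⁻¹ i j) x = 0 := by
  simp only [dv_mul (diff_of_top (contDiffAt_hdet hu)) (diff_of_top (contDiffAt_hessInv hu hA _ _)),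
    dv_hdet hu hA, dv_inv hu hA, Finset.sum_add_distrib, mul_assoc, ← Finset.mul_sum]
  rw [← mul_add, Finset.sum_neg_distrib]
  refine mul_eq_zero_of_right _ (add_neg_eq_zero.2 ?_)
  have sy : ∀ i k l, dv (eb i) (fun y => hessianMat u y k l) x
      = dv (eb k) (fun y => hessianMat u y l i) x := fun i k l => by
    rw [dv_hess_symm hu (eb k) l i]
    exact hessianMat_symm (two_of_top (contDiffAt_dv hu (eb l))) i k
  simp only [Matrix.mul_apply, Matrix.of_apply, Finset.sum_mul, Finset.mul_sum]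
  rw [Finset.sum_comm]
  refine Finset.sum_congr rfl fun k _ => ?_
  rw [Finset.sum_comm]
  refine Finset.sum_congr rfl fun l _ => Finset.sum_congr rfl fun i _ => ?_
  rw [sy i k l]
  ring

/-- integration by parts -/
theorem ibp (h : Cvx Ω u) {U K : Set (E n)} (hU : IsOpen U) (hUΩ : U ⊆ Ω) (hK : IsCompact K)
    (hKU : K ⊆ U) {φ : E n → ℝ} (hφ : ContDiffOn ℝ 1 φ U) (hf : ContDiffOn ℝ 2 f U)
    (h0 : ∀ y ∈ U, y ∉ K → φ y = 0 ∨ fderiv ℝ f y = 0) :
    ∫ y in K, hdet u y * (φ y * Lop u f y + Gam u φ f y) = 0 := by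
  set G : Fin n → E n → ℝ := fun i y =>
    ∑ j, (hdet u y * (hessianMat u y)⁻¹ i j) * (φ y * dv (eb j) f y) with hG
  have c1 : ∀ i j, ContDiffOn ℝ 1 (fun y => hdet u y * (hessianMat u y)⁻¹ i j) U := fun i j y hy =>
    (one_of_top ((contDiffAt_hdet (h.at (hUΩ hy))).mul
      (contDiffAt_hessInv (h.at (hUΩ hy)) (h.pos y (hUΩ hy)) i j))).contDiffWithinAt
  have c2 : ∀ j, ContDiffOn ℝ 1 (dv (eb j) f) U := fun j =>
    (hf.fderiv_of_isOpen hU (m := 1) le_rfl).clm_apply contDiffOn_const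
  have c3 : ∀ i, ContDiffOn ℝ 1 (G i) U := fun i =>
    ContDiffOn.sum fun j _ => (c1 i j).mul (hφ.mul (c2 j))
  have z : ∀ i, ∫ y in K, fderiv ℝ (G i) y (eb i) = 0 := fun i =>
    Crest.Agent.Lib.Degree.IntHtp.setIntegral_fderiv_eq_zero volume hU hK hKU (c3 i) (fun y hy hyK => by
      rcases h0 y hy hyK with h1 | h1 <;> simp [hG, dv, h1]) (eb i)
  have hi : ∀ i, IntegrableOn (fun y => fderiv ℝ (G i) y (eb i)) K := fun i =>
    ((((c3 i).continuousOn_fderiv_of_isOpen hU le_rfl).clm_apply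
      continuousOn_const).mono hKU).integrableOn_compact hK
  have e : ∀ y ∈ K, hdet u y * (φ y * Lop u f y + Gam u φ f y) = ∑ i, fderiv ℝ (G i) y (eb i) := by
    intro y hy
    have hyU := hU.mem_nhds (hKU hy)
    have d1 : ∀ i j, DifferentiableAt ℝ (fun y => hdet u y * (hessianMat u y)⁻¹ i j) y :=
      fun i j => ((c1 i j).contDiffAt hyU).differentiableAt (by simp)
    have d2 : ∀ j, DifferentiableAt ℝ (dv (eb j) f) y :=
      fun j => ((c2 j).contDiffAt hyU).differentiableAt (by simp)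
    have d3 : DifferentiableAt ℝ φ y := (hφ.contDiffAt hyU).differentiableAt (by simp)
    have e1 : ∀ i, fderiv ℝ (G i) y (eb i) = ∑ j,
        (dv (eb i) (fun y => hdet u y * (hessianMat u y)⁻¹ i j) y * (φ y * dv (eb j) f y)
          + (hdet u y * (hessianMat u y)⁻¹ i j) * (dv (eb i) φ y * dv (eb j) f y
            + φ y * hessianMat f y i j)) := fun i => by
      change dv (eb i) (fun y => ∑ j, (hdet u y * (hessianMat u y)⁻¹ i j) * (φ y * dv (eb j) f y)) y = _
      rw [dv_sum _ fun j _ => (d1 i j).fun_mul (d3.fun_mul (d2 j))]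
      refine Finset.sum_congr rfl fun j _ => ?_
      rw [dv_mul (d1 i j) (d3.fun_mul (d2 j)), dv_mul d3 (d2 j)]
      rfl
    simp only [e1, Finset.sum_add_distrib]
    rw [Finset.sum_comm]
    simp only [← Finset.sum_mul, piola (h.at (hUΩ (hKU hy))) (h.pos y (hUΩ (hKU hy))), zero_mul,
      Finset.sum_const_zero, zero_add]
    unfold Lop Gam gamB dv
    simp only [Finset.mul_sum, ← Finset.sum_add_distrib]
    exact Finset.sum_congr rfl fun i _ => Finset.sum_congr rfl fun j _ => by ring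
  rw [setIntegral_congr_fun hK.measurableSet e, integral_finsetSum _ fun i _ => hi i]
  simp [z]

lemma ibp_integrableOn (h : Cvx Ω u) {U K : Set (E n)} (hU : IsOpen U) (hUΩ : U ⊆ Ω)
    (hK : IsCompact K) (hKU : K ⊆ U) {φ : E n → ℝ} (hφ : ContDiffOn ℝ 1 φ U)
    (hf : ContDiffOn ℝ 2 f U) :
    IntegrableOn (fun y => hdet u y * (φ y * Lop u f y + Gam u φ f y)) K := by
  refine ContinuousOn.integrableOn_compact hK fun y hy => ContinuousAt.continuousWithinAt ?_
  have hyU := hU.mem_nhds (hKU hy)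
  have hu := h.at (hUΩ (hKU hy))
  have hA := h.pos y (hUΩ (hKU hy))
  exact (contDiffAt_hdet hu).continuousAt.mul (((hφ.contDiffAt hyU).continuousAt.mul
    (continuousAt_Lop hu hA (hf.contDiffAt hyU))).add (continuousAt_Gam hu hA (hφ.contDiffAt hyU)
      ((hf.contDiffAt hyU).of_le (by norm_num))))

lemma affineMaximalOp_eq (u : E n → ℝ) (x : E n) :
    affineMaximalOp n u x = hdet u x * Lop u (detPower n u) x := by
  unfold affineMaximalOp Lop hdet
  simp only [Finset.mul_sum, mul_assoc]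

/-- the two forms of the affine maximal equation -/
lemma eqn_iff (hu : ContDiffAt ℝ ∞ u x) (hA : ∀ᶠ y in 𝓝 x, (hessianMat u y).PosDef) :
    affineMaximalOp n u x = 0 ↔
      Lop u (mu u) x = -((n : ℝ) + 1) * Gam u (mu u) (mu u) x := by
  have hA0 := hA.self_of_nhds
  have e : detPower n u =ᶠ[𝓝 x] fun y => Real.exp (((n : ℝ) + 1) * mu u y) := hA.mono fun y hy => by
    unfold detPower mu hdet
    beta_reduce
    rw [Real.rpow_def_of_pos hy.det_pos]
    congr 1; ring
  have hm := contDiffAt_mu hu hA0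
  have hd := (diff_of_top hm).hasFDerivAt
  rw [affineMaximalOp_eq, Lop_congr e, Lop_exp (contDiffAt_const.mul (two_of_top hm)),
    Lop_const_mul _ (two_of_top hm), Gam_eq (hd.const_mul _) (hd.const_mul _), gamB_smul_left,
    gamB_smul_right, ← Gam_eq hd hd, mul_eq_zero, mul_eq_zero, ← mul_add, mul_eq_zero]
  have h1 : hdet u x ≠ 0 := hA0.det_pos.ne'
  have h2 : (n : ℝ) + 1 ≠ 0 := by positivity
  simp only [h1, (Real.exp_pos _).ne', h2, false_or]
  constructor <;> intro h <;> linarith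

end Crest.Agent.R236

end
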