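import Crest.Agent.R236.CalcB

/-!
Convexity: Bregman distance, the gradient map, completeness gives compact sections.
-/

set_option autoImplicit false

open scoped ContDiff RealInnerProductSpace Topology
open MeasureTheory Set Filter
open Crest.GeometryTopology.CoordMetric Crest.GeometryTopology.AffineMaximal

noncomputable section

namespace Crest.Agent.R236

variable {n : ℕ}

variable {Ω : Set (E n)} {u : E n → ℝ} {x x₀ : E n}

/-- the three point identity -/
lemma breg_three (u : E n → ℝ) (x x₀ x₁ : E n) :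
    breg u x x₀ = breg u x x₁ + breg u x₁ x₀ + (fderiv ℝ u x₁ - fderiv ℝ u x₀) (x - x₁) := by
  simp only [breg, _root_.sub_apply, map_sub]
  ring

@[simp] lemma breg_self (u : E n → ℝ) (x : E n) : breg u x x = 0 := by
  simp [breg]

lemma hasDerivAt_line {f : E n → ℝ} {v : E n} {t : ℝ} (hf : DifferentiableAt ℝ f (x₀ + t • v)) :
    HasDerivAt (fun s : ℝ => f (x₀ + s • v)) (fderiv ℝ f (x₀ + t • v) v) t := by
  have h1 : HasDerivAt (fun s : ℝ => x₀ + s • v) v t := by
    simpa using ((hasDerivAt_id t).smul_const v).const_add x₀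
  exact hf.hasFDerivAt.comp_hasDerivAt t h1

lemma hasDerivAt_line2 {v : E n} {t : ℝ} (hu : ContDiffAt ℝ ∞ u (x₀ + t • v)) :
    HasDerivAt (fun s : ℝ => fderiv ℝ u (x₀ + s • v) v) (hq u (x₀ + t • v) v v) t := by
  rw [← fderiv_dv_apply hu]
  exact hasDerivAt_line (f := dv v u) (diff_of_top (contDiffAt_dv hu v))

/-- version without the field `proper` -/
lemma breg_pos_of (hΩ : IsOpen Ω) (hc : Convex ℝ Ω) (hu : ContDiffOn ℝ ∞ u Ω)
    (hA : ∀ x ∈ Ω, (hessianMat u x).PosDef) (hx : x ∈ Ω) (hx₀ : x₀ ∈ Ω) (hne : x ≠ x₀) :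
    0 < breg u x x₀ := by
  have hmem : ∀ t ∈ Icc (0 : ℝ) 1, x₀ + t • (x - x₀) ∈ Ω := fun t ht =>
    hc.add_smul_sub_mem hx₀ hx ht
  have hat : ∀ t ∈ Icc (0 : ℝ) 1, ContDiffAt ℝ ∞ u (x₀ + t • (x - x₀)) := fun t ht =>
    hu.contDiffAt (hΩ.mem_nhds (hmem t ht))
  have hmono : StrictMonoOn (fun t : ℝ => fderiv ℝ u (x₀ + t • (x - x₀)) (x - x₀)) (Icc 0 1) := by
    refine strictMonoOn_of_deriv_pos (convex_Icc 0 1)
      (fun t ht => (hasDerivAt_line2 (hat t ht)).continuousAt.continuousWithinAt) fun t ht => ?_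
    have ht' := interior_subset ht
    rw [(hasDerivAt_line2 (hat t ht')).deriv]
    exact hq_pos (hA _ (hmem t ht')) (sub_ne_zero.2 hne)
  obtain ⟨c, hc0, hc1⟩ := exists_hasDerivAt_eq_slope (fun t : ℝ => u (x₀ + t • (x - x₀)))
    (fun t : ℝ => fderiv ℝ u (x₀ + t • (x - x₀)) (x - x₀)) zero_lt_one
    (fun t ht => (hasDerivAt_line (diff_of_top (hat t ht))).continuousAt.continuousWithinAt)
    (fun t ht => hasDerivAt_line (diff_of_top (hat t (Ioo_subset_Icc_self ht))))
  have := hmono (left_mem_Icc.2 zero_le_one) (Ioo_subset_Icc_self hc0) hc0.1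
  simp only [hc1, zero_smul, add_zero, one_smul, add_sub_cancel, sub_zero, div_one] at this
  unfold breg
  linarith

/-- smooth and locally uniformly convex (`Cvx` without the compact sections) -/
structure Cvx0 (Ω : Set (E n)) (u : E n → ℝ) : Prop where
  isOpen : IsOpen Ω
  convex : Convex ℝ Ω
  smooth : ContDiffOn ℝ ∞ u Ω
  pos : ∀ x ∈ Ω, (hessianMat u x).PosDef

lemma Cvx.cvx0 (h : Cvx Ω u) : Cvx0 Ω u := ⟨h.isOpen, h.convex, h.smooth, h.pos⟩

namespace Cvx0

lemma at' (h : Cvx0 Ω u) (hx : x ∈ Ω) : ContDiffAt ℝ ∞ u x :=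
  h.smooth.contDiffAt (h.isOpen.mem_nhds hx)

lemma breg_pos (h : Cvx0 Ω u) (hx : x ∈ Ω) (hx₀ : x₀ ∈ Ω) (hne : x ≠ x₀) : 0 < breg u x x₀ :=
  breg_pos_of h.isOpen h.convex h.smooth h.pos hx hx₀ hne

lemma breg_nonneg (h : Cvx0 Ω u) (hx : x ∈ Ω) (hx₀ : x₀ ∈ Ω) : 0 ≤ breg u x x₀ := by
  rcases eq_or_ne x x₀ with rfl | hne
  · rw [breg_self]
  · exact (h.breg_pos hx hx₀ hne).le

lemma convexOn (h : Cvx0 Ω u) : ConvexOn ℝ Ω u := by
  refine ⟨h.convex, fun x hx y hy a b ha hb hab => ?_⟩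
  have hz := h.convex hx hy ha hb hab
  have h1 := mul_nonneg ha (h.breg_nonneg hx hz)
  have h2 := mul_nonneg hb (h.breg_nonneg hy hz)
  simp only [breg, map_sub, map_add, map_smul, smul_eq_mul] at h1 h2 ⊢
  obtain rfl : b = 1 - a := by linarith
  nlinarith

lemma convexOn_breg (h : Cvx0 Ω u) (x₀ : E n) : ConvexOn ℝ Ω fun y => breg u y x₀ := by
  refine ⟨h.convex, fun x hx y hy a b ha hb hab => ?_⟩
  have h1 := h.convexOn.2 hx hy ha hb hab
  simp only [breg, map_sub, map_add, map_smul, smul_eq_mul] at h1 ⊢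
  obtain rfl : b = 1 - a := by linarith
  nlinarith

lemma continuousAt_breg (h : Cvx0 Ω u) (hx : x ∈ Ω) (x₀ : E n) :
    ContinuousAt (fun y => breg u y x₀) x := by
  have := (h.at' hx).continuousAt
  unfold breg
  fun_prop

lemma breg_line_le (h : Cvx0 Ω u) (hx : x ∈ Ω) (hx₀ : x₀ ∈ Ω) {t : ℝ} (ht0 : 0 ≤ t) (ht1 : t ≤ 1) :
    breg u (x₀ + t • (x - x₀)) x₀ ≤ t * breg u x x₀ := by
  have h1 := (h.convexOn_breg x₀).2 hx₀ hx (sub_nonneg.2 ht1) ht0 (sub_add_cancel 1 t)
  rw [show (1 - t) • x₀ + t • x = x₀ + t • (x - x₀) by module] at h1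
  simpa using h1

lemma exists_linear (h : Cvx0 Ω u) (hx₀ : x₀ ∈ Ω) :
    ∃ c : ℝ, 0 < c ∧ ∀ y ∈ Ω, c * ‖y - x₀‖ ≤ breg u y x₀ + 1 := by
  obtain ⟨r, hr, hrΩ⟩ := Metric.nhds_basis_closedBall.mem_iff.1 (h.isOpen.mem_nhds hx₀)
  have hsph : Metric.sphere x₀ r ⊆ Ω := Metric.sphere_subset_closedBall.trans hrΩ
  obtain ⟨m, hm, hm'⟩ := (isCompact_sphere x₀ r).exists_forall_le' (f := fun y => breg u y x₀)
    (a := 0) (fun y hy => (h.continuousAt_breg (hsph hy) x₀).continuousWithinAt)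
    fun y hy => h.breg_pos (hsph hy) hx₀ (Metric.ne_of_mem_sphere hy hr.ne')
  refine ⟨min m 1 / r, div_pos (lt_min hm one_pos) hr, fun y hy => ?_⟩
  have hb := h.breg_nonneg hy hx₀
  rw [div_mul_eq_mul_div, div_le_iff₀ hr]
  rcases le_or_gt ‖y - x₀‖ r with h1 | h1
  · have : min m 1 * ‖y - x₀‖ ≤ 1 * r :=
      mul_le_mul (min_le_right _ _) h1 (norm_nonneg _) zero_le_one
    nlinarith
  · have h0 : 0 < ‖y - x₀‖ := hr.trans h1
    have h2 := h.breg_line_le hy hx₀ (t := r / ‖y - x₀‖) (by positivity)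
      ((div_le_one h0).2 h1.le)
    have h3 := hm' (x₀ + (r / ‖y - x₀‖) • (y - x₀)) (by
      rw [mem_sphere_iff_norm, add_sub_cancel_left, norm_smul, Real.norm_of_nonneg (by positivity),
        div_mul_cancel₀ _ h0.ne'])
    have h4 := h3.trans h2
    rw [div_mul_eq_mul_div, le_div_iff₀ h0] at h4
    have : min m 1 * ‖y - x₀‖ ≤ m * ‖y - x₀‖ :=
      mul_le_mul_of_nonneg_right (min_le_left _ _) h0.le
    nlinarith

end Cvx0

lemma Cvx.breg_pos (h : Cvx Ω u) (hx : x ∈ Ω) (hx₀ : x₀ ∈ Ω) (hne : x ≠ x₀) : 0 < breg u x x₀ :=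
  breg_pos_of h.isOpen h.convex h.smooth h.pos hx hx₀ hne

lemma Cvx.breg_nonneg (h : Cvx Ω u) (hx : x ∈ Ω) (hx₀ : x₀ ∈ Ω) : 0 ≤ breg u x x₀ :=
  h.cvx0.breg_nonneg hx hx₀

lemma Cvx.convexOn (h : Cvx Ω u) : ConvexOn ℝ Ω u := h.cvx0.convexOn

lemma Cvx.convexOn_breg (h : Cvx Ω u) (x₀ : E n) : ConvexOn ℝ Ω fun y => breg u y x₀ :=
  h.cvx0.convexOn_breg x₀

lemma Cvx.continuousOn (h : Cvx Ω u) : ContinuousOn u Ω := h.smooth.continuousOn

/-- linear growth of the Bregman distance -/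
lemma Cvx.exists_linear (h : Cvx Ω u) (hx₀ : x₀ ∈ Ω) :
    ∃ c : ℝ, 0 < c ∧ ∀ y ∈ Ω, c * ‖y - x₀‖ ≤ breg u y x₀ + 1 := h.cvx0.exists_linear hx₀

lemma Cvx.injOn_gradient (h : Cvx Ω u) : InjOn (gradient u) Ω := by
  intro x hx y hy hxy
  by_contra hne
  have h1 : fderiv ℝ u x = fderiv ℝ u y := by
    ext v
    rw [← inner_gradient_left, ← inner_gradient_left, hxy]
  have h2 := breg_add_breg u x y
  rw [h1, sub_self, _root_.zero_apply] at h2
  have := h.breg_pos hx hy hne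
  have := h.breg_nonneg hy hx
  linarith

lemma inner_gradient (u : E n → ℝ) (x v : E n) : ⟪gradient u x, v⟫ = fderiv ℝ u x v :=
  inner_gradient_left

lemma gradient_apply (u : E n → ℝ) (x : E n) (i : Fin n) : gradient u x i = dv (eb i) u x := by
  rw [dv, ← inner_gradient, EuclideanSpace.inner_single_right]
  simp

lemma differentiableAt_gradient (hu : ContDiffAt ℝ ∞ u x) : DifferentiableAt ℝ (gradient u) x := by
  rw [differentiableAt_euclidean]
  intro i
  simp only [gradient_apply]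
  exact diff_of_top (contDiffAt_dv hu _)

lemma det_fderiv_gradient (hu : ContDiffAt ℝ ∞ u x) :
    (fderiv ℝ (gradient u) x).det = hdet u x := by
  rw [ContinuousLinearMap.det, ← LinearMap.det_toMatrix (EuclideanSpace.basisFun (Fin n) ℝ).toBasis,
    hdet, ← Matrix.det_transpose (hessianMat u x)]
  congr 1
  ext i j
  have h1 : HasFDerivAt (fun y => gradient u y i)
      ((EuclideanSpace.proj i : E n →L[ℝ] ℝ).comp (fderiv ℝ (gradient u) x)) x :=
    (EuclideanSpace.proj i : E n →L[ℝ] ℝ).hasFDerivAt.comp x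
      (differentiableAt_gradient hu).hasFDerivAt
  simp only [gradient_apply] at h1
  have h2 : hessianMat u x j i = fderiv ℝ (dv (eb i) u) x (eb j) := rfl
  rw [Matrix.transpose_apply, h2, h1.fderiv, LinearMap.toMatrix_apply]
  simp

/-- change of variables `y = Du(x)` -/
theorem Cvx.lintegral_gradient_le (h : Cvx Ω u) {S : Set (E n)} (hS : MeasurableSet S)
    (hSΩ : S ⊆ Ω) (g : E n → ENNReal) :
    ∫⁻ x in S, ENNReal.ofReal (hdet u x) * g (gradient u x) ≤ ∫⁻ y, g y := by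
  have h1 := lintegral_image_eq_lintegral_abs_det_fderiv_mul volume hS
    (f := gradient u) (f' := fun x => fderiv ℝ (gradient u) x)
    (fun x hx => (differentiableAt_gradient (h.at (hSΩ hx))).hasFDerivAt.hasFDerivWithinAt)
    (h.injOn_gradient.mono hSΩ) g
  refine le_trans (le_of_eq ?_) ((le_of_eq h1.symm).trans (setLIntegral_le_lintegral _ _))
  refine setLIntegral_congr_fun hS fun x hx => ?_
  simp only [det_fderiv_gradient (h.at (hSΩ hx)), abs_of_pos (h.hdet_pos (hSΩ hx))]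

lemma quadForm_graph (u : E n → ℝ) (x v : E n) :
    quadForm (graphMetric u) x v = ‖v‖ ^ 2 + fderiv ℝ u x v ^ 2 := by
  rw [clm_apply_eq_sum (fderiv ℝ u x) v, EuclideanSpace.real_norm_sq_eq, sq (∑ i, _),
    Finset.sum_mul_sum, ← Finset.sum_add_distrib]
  refine Finset.sum_congr rfl fun i _ => ?_
  simp only [graphMetric, add_mul, Finset.sum_add_distrib, ite_mul, zero_mul, one_mul,
    Finset.sum_ite_eq, Finset.mem_univ, if_true, pderiv, sq]
  congr 1
  exact Finset.sum_congr rfl fun j _ => by ring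

lemma curveLength_nonneg (g : MetricField n) (γ : ℝ → E n) : 0 ≤ curveLength g γ :=
  intervalIntegral.integral_nonneg zero_le_one fun _ _ => Real.sqrt_nonneg _

/-- the segment as an admissible path -/
def segPath (hc : Convex ℝ Ω) {x y : E n} (hx : x ∈ Ω) (hy : y ∈ Ω) : AdmissiblePath Ω x y :=
  ⟨fun t => x + t • (y - x), by fun_prop, by simp, by simp,
    fun _ ht => hc.add_smul_sub_mem hx hy ht⟩

namespace Cvx0

lemma continuousOn_fderiv (h : Cvx0 Ω u) : ContinuousOn (fderiv ℝ u) Ω :=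
  h.smooth.continuousOn_fderiv_of_isOpen h.isOpen (by exact_mod_cast le_top)

lemma integrable_speed (h : Cvx0 Ω u) {γ : ℝ → E n} (hγ : ContDiff ℝ 1 γ)
    (hΩ : ∀ t ∈ Icc (0 : ℝ) 1, γ t ∈ Ω) : IntervalIntegrable
      (fun t => Real.sqrt (quadForm (graphMetric u) (γ t) (deriv γ t))) volume 0 1 := by
  refine ContinuousOn.intervalIntegrable_of_Icc zero_le_one ?_
  have h1 : Continuous (deriv γ) := hγ.continuous_deriv_one
  have h2 : ContinuousOn (fun t => fderiv ℝ u (γ t)) (Icc 0 1) :=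
    h.continuousOn_fderiv.comp hγ.continuous.continuousOn hΩ
  simp only [quadForm_graph]
  exact ((h1.norm.pow 2).continuousOn.add ((h2.clm_apply h1.continuousOn).pow 2)).sqrt

lemma norm_le_riemDist (h : Cvx0 Ω u) {x y : E n} (hx : x ∈ Ω) (hy : y ∈ Ω) :
    ‖y - x‖ ≤ riemDist (graphMetric u) Ω x y := by
  have : Nonempty (AdmissiblePath Ω x y) := ⟨segPath h.convex hx hy⟩
  refine le_ciInf ?_
  rintro ⟨γ, hγ, h0, h1, hΩ⟩
  have h2 : Continuous (deriv γ) := hγ.continuous_deriv_one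
  change ‖y - x‖ ≤ curveLength (graphMetric u) γ
  rw [← h0, ← h1, ← intervalIntegral.integral_deriv_eq_sub
    (fun t _ => hγ.differentiable_one t) (h2.intervalIntegrable 0 1)]
  refine intervalIntegral.norm_integral_le_of_norm_le zero_le_one (Eventually.of_forall fun t _ => ?_)
    (h.integrable_speed hγ hΩ)
  rw [quadForm_graph]
  exact Real.le_sqrt_of_sq_le (le_add_of_nonneg_right (sq_nonneg _))

lemma riemDist_le (h : Cvx0 Ω u) {x y : E n} (hx : x ∈ Ω) (hy : y ∈ Ω) (a ε : ℝ)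
    (hε : ∀ t ∈ Icc (0 : ℝ) 1, |fderiv ℝ u (x + t • (y - x)) (y - x) - a| ≤
      ε * (fderiv ℝ u (x + t • (y - x)) (y - x) - a)) :
    riemDist (graphMetric u) Ω x y ≤ ‖y - x‖ + |a| + ε * (u y - u x - a) := by
  refine (ciInf_le ⟨0, ?_⟩ (segPath h.convex hx hy)).trans ?_
  · rintro _ ⟨γ, rfl⟩
    exact curveLength_nonneg _ _
  have hmem : ∀ t ∈ Icc (0 : ℝ) 1, x + t • (y - x) ∈ Ω := fun t ht =>
    h.convex.add_smul_sub_mem hx hy ht
  have hd : ∀ t : ℝ, deriv (fun s : ℝ => x + s • (y - x)) t = y - x := fun t => by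
    simpa using (((hasDerivAt_id t).smul_const (y - x)).const_add x).deriv
  have hcont : ContinuousOn (fun t : ℝ => fderiv ℝ u (x + t • (y - x)) (y - x)) (Icc 0 1) :=
    fun t ht => (hasDerivAt_line2 (h.at' (hmem t ht))).continuousAt.continuousWithinAt
  have hD : ∀ t ∈ uIcc (0 : ℝ) 1, HasDerivAt
      (fun s : ℝ => (‖y - x‖ + |a|) * s + ε * (u (x + s • (y - x)) - a * s))
      (‖y - x‖ + |a| + ε * (fderiv ℝ u (x + t • (y - x)) (y - x) - a)) t := by
    intro t ht
    rw [uIcc_of_le zero_le_one] at ht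
    have h1 := hasDerivAt_line (diff_of_top (h.at' (hmem t ht)))
    have h2 := (((hasDerivAt_id t).const_mul (‖y - x‖ + |a|)).add
      ((h1.sub ((hasDerivAt_id t).const_mul a)).const_mul ε))
    simp only [mul_one] at h2
    exact h2
  have hI : IntervalIntegrable
      (fun t : ℝ => ‖y - x‖ + |a| + ε * (fderiv ℝ u (x + t • (y - x)) (y - x) - a)) volume 0 1 :=
    ContinuousOn.intervalIntegrable_of_Icc zero_le_one
      (continuousOn_const.add (continuousOn_const.mul (hcont.sub continuousOn_const)))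
  have h3 := intervalIntegral.integral_eq_sub_of_hasDerivAt hD hI
  simp only [mul_one, one_smul, add_sub_cancel, mul_zero, zero_smul, add_zero, sub_zero,
    zero_add] at h3
  refine le_trans (intervalIntegral.integral_mono_on zero_le_one
    (h.integrable_speed (segPath h.convex hx hy).2.1 hmem) hI fun t ht => ?_)
    (le_of_eq (h3.trans (by ring)))
  change Real.sqrt (quadForm (graphMetric u) (x + t • (y - x))
    (deriv (fun s : ℝ => x + s • (y - x)) t)) ≤ _
  rw [hd, quadForm_graph]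
  have h4 := hε t ht
  have h5 : |fderiv ℝ u (x + t • (y - x)) (y - x)| ≤
      |fderiv ℝ u (x + t • (y - x)) (y - x) - a| + |a| := by
    simpa using abs_add_le (fderiv ℝ u (x + t • (y - x)) (y - x) - a) a
  refine le_trans (Real.sqrt_le_iff.2 ⟨by positivity, ?_⟩ :
    _ ≤ ‖y - x‖ + |fderiv ℝ u (x + t • (y - x)) (y - x)|) (by linarith)
  rw [add_sq, sq_abs]
  have := mul_nonneg (norm_nonneg (y - x)) (abs_nonneg (fderiv ℝ u (x + t • (y - x)) (y - x)))
  linarith

/-- along a ray on which the Bregman distance stays bounded the end point is reached -/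
lemma ray_mem (h : Cvx0 Ω u) (hcomp : IsCompleteOn (graphMetric u) Ω) {v : E n} {H : ℝ}
    (hmem : ∀ t ∈ Ico (0 : ℝ) 1, x₀ + t • v ∈ Ω)
    (hH : ∀ t ∈ Ico (0 : ℝ) 1, breg u (x₀ + t • v) x₀ ≤ H) : x₀ + v ∈ Ω := by
  have hx₀ : x₀ ∈ Ω := by simpa using hmem 0 ⟨le_rfl, one_pos⟩
  have hK : ∀ t ∈ Ico (0 : ℝ) 1, 0 ≤ fderiv ℝ u (x₀ + t • v) v - fderiv ℝ u x₀ v := by
    intro t ht
    rcases ht.1.eq_or_lt with rfl | ht0
    · simp
    · have h1 := breg_add_breg u (x₀ + t • v) x₀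
      have h2 := h.breg_nonneg (hmem t ht) hx₀
      have h3 := h.breg_nonneg hx₀ (hmem t ht)
      rw [add_sub_cancel_left, map_smul, smul_eq_mul, _root_.sub_apply] at h1
      exact (mul_nonneg_iff_of_pos_left ht0).1 (by linarith)
  set φ : ℝ → ℝ := fun t => breg u (x₀ + t • v) x₀ with hφ
  have hmono : ∀ s ∈ Ico (0 : ℝ) 1, ∀ t ∈ Ico (0 : ℝ) 1, s ≤ t → φ s ≤ φ t := by
    intro s hs t ht hst
    have h1 := breg_three u (x₀ + t • v) x₀ (x₀ + s • v)
    rw [show x₀ + t • v - (x₀ + s • v) = (t - s) • v by module, map_smul, smul_eq_mul,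
      _root_.sub_apply] at h1
    have h2 := h.breg_nonneg (hmem t ht) (hmem s hs)
    have h3 := mul_nonneg (sub_nonneg.2 hst) (hK s hs)
    simp only [hφ]
    linarith
  have hdist : ∀ s ∈ Ico (0 : ℝ) 1, ∀ t ∈ Ico (0 : ℝ) 1,
      riemDist (graphMetric u) Ω (x₀ + s • v) (x₀ + t • v) ≤
        |((‖v‖ + |fderiv ℝ u x₀ v|) * s + φ s) - ((‖v‖ + |fderiv ℝ u x₀ v|) * t + φ t)| := by
    intro s hs t ht
    have e1 : x₀ + t • v - (x₀ + s • v) = (t - s) • v := by module
    have e2 : ∀ r : ℝ, x₀ + s • v + r • (t - s) • v = x₀ + (s + r * (t - s)) • v := fun r => by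
      module
    have hr : ∀ r ∈ Icc (0 : ℝ) 1, s + r * (t - s) ∈ Ico (0 : ℝ) 1 := fun r hr => by
      simpa using (convex_Ico (0 : ℝ) 1).add_smul_sub_mem hs ht hr
    have e3 : φ t - φ s = u (x₀ + t • v) - u (x₀ + s • v) - (t - s) * fderiv ℝ u x₀ v := by
      simp only [hφ, breg, add_sub_cancel_left, map_smul, smul_eq_mul]
      ring
    have hC : 0 ≤ ‖v‖ + |fderiv ℝ u x₀ v| := by positivity
    rcases le_total s t with hst | hst
    · have h1 := h.riemDist_le (hmem s hs) (hmem t ht) ((t - s) * fderiv ℝ u x₀ v) 1 fun r hr' => by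
        rw [e1, e2, map_smul, smul_eq_mul, ← mul_sub, one_mul]
        exact (abs_of_nonneg (mul_nonneg (sub_nonneg.2 hst) (hK _ (hr r hr')))).le
      rw [e1, norm_smul, abs_mul, Real.norm_eq_abs, abs_of_nonneg (sub_nonneg.2 hst), ← e3] at h1
      refine h1.trans (le_trans (le_of_eq ?_) (neg_le_abs _))
      ring
    · have h1 := h.riemDist_le (hmem s hs) (hmem t ht) ((t - s) * fderiv ℝ u x₀ v) (-1)
        fun r hr' => by
          rw [e1, e2, map_smul, smul_eq_mul, ← mul_sub, neg_one_mul]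
          exact (abs_of_nonpos
            (mul_nonpos_of_nonpos_of_nonneg (sub_nonpos.2 hst) (hK _ (hr r hr')))).le
      rw [e1, norm_smul, abs_mul, Real.norm_eq_abs, abs_of_nonpos (sub_nonpos.2 hst), ← e3] at h1
      refine h1.trans (le_trans (le_of_eq ?_) (le_abs_self _))
      ring
  let τ : ℕ → ℝ := fun k => 1 - 1 / ((k : ℝ) + 1)
  have hτ : ∀ k, τ k ∈ Ico (0 : ℝ) 1 := fun k =>
    ⟨sub_nonneg.2 ((div_le_one (by positivity)).2 (by simp)), sub_lt_self _ (by positivity)⟩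
  have hτm : Monotone τ := fun k l hkl =>
    sub_le_sub_left (Nat.one_div_le_one_div hkl) _
  have hτl : Tendsto τ atTop (𝓝 1) := by
    have := (tendsto_one_div_add_atTop_nhds_zero_nat (𝕜 := ℝ)).const_sub (1 : ℝ)
    rwa [sub_zero] at this
  have hC : 0 ≤ ‖v‖ + |fderiv ℝ u x₀ v| := by positivity
  have hF : CauchySeq fun k => (‖v‖ + |fderiv ℝ u x₀ v|) * τ k + φ (τ k) := by
    refine (tendsto_atTop_ciSup (fun k l hkl => ?_)
      ⟨(‖v‖ + |fderiv ℝ u x₀ v|) * 1 + H, ?_⟩).cauchySeq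
    · exact add_le_add (mul_le_mul_of_nonneg_left (hτm hkl) hC) (hmono _ (hτ k) _ (hτ l) (hτm hkl))
    · rintro _ ⟨k, rfl⟩
      exact add_le_add (mul_le_mul_of_nonneg_left (hτ k).2.le hC) (hH _ (hτ k))
  obtain ⟨q, hq, hlim⟩ := hcomp (fun k => x₀ + τ k • v) (fun k => hmem _ (hτ k)) fun ε hε => by
    obtain ⟨N, hN⟩ := Metric.cauchySeq_iff.1 hF ε hε
    exact ⟨N, fun k hk l hl => (hdist _ (hτ k) _ (hτ l)).trans_lt (hN k hk l hl)⟩
  have h1 : Tendsto (fun k => ‖q - (x₀ + τ k • v)‖) atTop (𝓝 0) :=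
    squeeze_zero (fun _ => norm_nonneg _) (fun k => h.norm_le_riemDist (hmem _ (hτ k)) hq) hlim
  have h2 : Tendsto (fun k => ‖q - (x₀ + τ k • v)‖) atTop (𝓝 ‖q - (x₀ + (1 : ℝ) • v)‖) :=
    ((hτl.smul_const v).const_add x₀).const_sub q |>.norm
  have h3 := tendsto_nhds_unique h2 h1
  rw [norm_eq_zero, sub_eq_zero, one_smul] at h3
  rwa [← h3]

end Cvx0

/-- Euclidean completeness of the graph gives compact sections -/
theorem cvx_of_complete (hΩ : IsOpen Ω) (hc : Convex ℝ Ω) (hu : ContDiffOn ℝ ∞ u Ω)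
    (hA : ∀ x ∈ Ω, (hessianMat u x).PosDef) (hcomp : IsCompleteOn (graphMetric u) Ω) :
    Cvx Ω u := by
  have h : Cvx0 Ω u := ⟨hΩ, hc, hu, hA⟩
  refine ⟨hΩ, hc, hu, hA, fun x₀ hx₀ H => Metric.isCompact_of_isClosed_isBounded ?_ ?_⟩
  · refine isClosed_of_closure_subset fun p hp => ?_
    have hp' : p ∈ closure Ω := closure_mono (fun y hy => hy.1) hp
    have hmem : ∀ t ∈ Ico (0 : ℝ) 1, x₀ + t • (p - x₀) ∈ Ω := fun t ht => by
      have := hc.combo_interior_closure_mem_interior (hΩ.interior_eq.symm ▸ hx₀) hp'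
        (sub_pos.2 ht.2) ht.1 (sub_add_cancel 1 t)
      rw [show (1 - t) • x₀ + t • p = x₀ + t • (p - x₀) by module] at this
      exact interior_subset this
    have hpΩ : p ∈ Ω := by
      have := h.ray_mem hcomp (H := max H 0) hmem fun t ht => ?_
      · simpa using this
      have h1 : ContinuousAt (fun y => breg u (x₀ + t • (y - x₀)) x₀) p :=
        ContinuousAt.comp (g := fun y => breg u y x₀) (f := fun y => x₀ + t • (y - x₀))
          (h.continuousAt_breg (hmem t ht) x₀) (by fun_prop)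
      refine ContinuousWithinAt.closure_le hp h1.continuousWithinAt continuousWithinAt_const
        fun y hy => (h.breg_line_le hy.1 hx₀ ht.1 ht.2.le).trans ?_
      exact (mul_le_of_le_one_left (h.breg_nonneg hy.1 hx₀) ht.2.le).trans
        (hy.2.trans (le_max_left _ _))
    exact ⟨hpΩ, ContinuousWithinAt.closure_le hp (h.continuousAt_breg hpΩ x₀).continuousWithinAt
      continuousWithinAt_const fun y hy => hy.2⟩
  · obtain ⟨c, hc0, hc1⟩ := h.exists_linear hx₀
    refine (Metric.isBounded_closedBall (x := x₀) (r := (H + 1) / c)).subset fun y hy => ?_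
    rw [mem_closedBall_iff_norm, le_div_iff₀' hc0]
    exact (hc1 y hy.1).trans (by linarith [hy.2])

/-- a function with constant Hessian is a quadratic polynomial -/
theorem quadratic_of_hess_const (hu : ContDiff ℝ ∞ u) {A : Matrix (Fin n) (Fin n) ℝ}
    (hA : ∀ x, hessianMat u x = A) :
    ∃ (b : E n) (c : ℝ), ∀ x,
      u x = (1 / 2) * (∑ i, ∑ j, A i j * x i * x j) + (∑ i, b i * x i) + c := by
  refine ⟨gradient u 0, u 0, fun x => ?_⟩
  set Q := ∑ i, ∑ j, A i j * x i * x j with hQ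
  have hq' : ∀ y, hq u y x x = Q := fun y => by rw [hq, hA]
  have h1 : ∀ t : ℝ, HasDerivAt (fun s : ℝ => fderiv ℝ u (0 + s • x) x - Q * s) 0 t := fun t => by
    have := (hasDerivAt_line2 (x₀ := 0) (v := x) (t := t) hu.contDiffAt).sub
      ((hasDerivAt_id t).const_mul Q)
    rw [hq', mul_one, sub_self] at this
    exact this
  have h2 : ∀ t : ℝ, fderiv ℝ u (0 + t • x) x = fderiv ℝ u 0 x + Q * t := fun t => by
    have := is_const_of_deriv_eq_zero (fun s => (h1 s).differentiableAt) (fun s => (h1 s).deriv) t 0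
    simp only [zero_smul, add_zero, mul_zero, sub_zero] at this
    linarith
  have h3 : ∀ t : ℝ, HasDerivAt
      (fun s : ℝ => u (0 + s • x) - (fderiv ℝ u 0 x * s + Q / 2 * (s * s))) 0 t := fun t => by
    have := (hasDerivAt_line (x₀ := 0) (v := x) (t := t) (diff_of_top hu.contDiffAt)).sub
      (((hasDerivAt_id t).const_mul (fderiv ℝ u 0 x)).add
        (((hasDerivAt_id t).mul (hasDerivAt_id t)).const_mul (Q / 2)))
    rw [h2] at this
    refine HasDerivAt.congr_deriv this ?_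
    simp only [id]
    ring
  have h4 := is_const_of_deriv_eq_zero (fun s => (h3 s).differentiableAt)
    (fun s => (h3 s).deriv) 1 0
  simp only [one_smul, zero_add, mul_one, zero_smul, add_zero, mul_zero, sub_zero] at h4
  have h5 : ∑ i, gradient u 0 i * x i = fderiv ℝ u 0 x := by
    rw [clm_apply_eq_sum (fderiv ℝ u 0) x]
    exact Finset.sum_congr rfl fun i _ => by rw [gradient_apply, dv, mul_comm]
  rw [h5]
  linarith

end Crest.Agent.R236

end
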