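import Crest.Agent.R236.CalcB
import Crest.Agent.R236.Conv

/-!
Affine invariance.
-/

set_option autoImplicit false

open scoped ContDiff RealInnerProductSpace Topology
open MeasureTheory Set Filter
open Crest.GeometryTopology.CoordMetric Crest.GeometryTopology.AffineMaximal

noncomputable section

namespace Crest.Agent.R236

variable {n : ℕ}

variable {Ω : Set (E n)} {u : E n → ℝ} {o : E n} {T : E n ≃L[ℝ] E n} {s : ℝ}
  {L : E n →L[ℝ] ℝ} {c : ℝ} {x : E n}

lemma nm_fderiv (g : E n → ℝ) (o : E n) (T : E n ≃L[ℝ] E n) (x : E n) :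
    fderiv ℝ (fun y => g (o + T y)) x = (fderiv ℝ g (o + T x)).comp (T : E n →L[ℝ] E n) := by
  rw [← fderiv_comp_add_left, ← T.comp_right_fderiv]
  rfl

lemma nm_dv (g : E n → ℝ) (o : E n) (T : E n ≃L[ℝ] E n) (v : E n) :
    dv v (fun y => g (o + T y)) = fun x => dv (T v) g (o + T x) := by
  funext x
  rw [dv, nm_fderiv]
  rfl

lemma nm_contDiffAt {k : WithTop ℕ∞} {g : E n → ℝ} (hg : ContDiffAt ℝ k g (o + T x)) :
    ContDiffAt ℝ k (fun y => g (o + T y)) x :=
  ContDiffAt.comp (g := g) (f := fun y => o + T y) x hg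
    (contDiffAt_const.add T.contDiff.contDiffAt)

/-- the matrix of `T` -/
def nmM (T : E n ≃L[ℝ] E n) : Matrix (Fin n) (Fin n) ℝ := Matrix.of fun i j => T (eb j) i

lemma nm_det (T : E n ≃L[ℝ] E n) : (nmM T).det = cdet T := by
  rw [cdet, ContinuousLinearMap.det,
    ← LinearMap.det_toMatrix (EuclideanSpace.basisFun (Fin n) ℝ).toBasis]
  refine congrArg Matrix.det (Matrix.ext fun i j => ?_)
  rw [LinearMap.toMatrix_apply]
  simp [nmM]

lemma nm_cdet_ne (T : E n ≃L[ℝ] E n) : cdet T ≠ 0 :=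
  (LinearEquiv.isUnit_det' T.toLinearEquiv).ne_zero

lemma nm_unit (T : E n ≃L[ℝ] E n) : IsUnit (nmM T).det := by
  rw [nm_det]
  exact (nm_cdet_ne T).isUnit

lemma nm_conj (g : E n → ℝ) (y : E n) (T : E n ≃L[ℝ] E n) (i j : Fin n) :
    ((nmM T).transpose * hessianMat g y * nmM T) i j = hq g y (T (eb i)) (T (eb j)) := by
  simp only [Matrix.mul_apply, Matrix.transpose_apply, nmM, Matrix.of_apply, hq, Finset.sum_mul]
  rw [Finset.sum_comm]
  exact Finset.sum_congr rfl fun k _ => Finset.sum_congr rfl fun l _ => by ring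

lemma nm_hess {g : E n → ℝ} (hg : ContDiffAt ℝ 2 g (o + T x)) :
    hessianMat (fun y => g (o + T y)) x = (nmM T).transpose * hessianMat g (o + T x) * nmM T := by
  ext i j
  rw [nm_conj, hq_eq_dv hg, ca_hess, nm_dv, nm_dv (dv (T (eb j)) g)]

lemma nm_fderiv_aff (hu : DifferentiableAt ℝ u (o + T x)) :
    fderiv ℝ (aff u o T s L c) x =
      s • (fderiv ℝ u (o + T x)).comp (T : E n →L[ℝ] E n) + L := by
  have h1 : HasFDerivAt (fun y => u (o + T y))
      ((fderiv ℝ u (o + T x)).comp (T : E n →L[ℝ] E n)) x :=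
    hu.hasFDerivAt.comp x (T.hasFDerivAt.const_add o)
  exact (((h1.const_mul s).add L.hasFDerivAt).add_const c).fderiv

lemma contDiffAt_aff (hu : ContDiffAt ℝ ∞ u (o + T x)) : ContDiffAt ℝ ∞ (aff u o T s L c) x :=
  ((contDiffAt_const.mul (nm_contDiffAt hu)).add L.contDiff.contDiffAt).add contDiffAt_const

lemma fderiv_aff (hu : ContDiffAt ℝ ∞ u (o + T x)) :
    fderiv ℝ (aff u o T s L c) x =
      s • (fderiv ℝ u (o + T x)).comp (T : E n →L[ℝ] E n) + L := nm_fderiv_aff (diff_of_top hu)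

lemma breg_aff {x₀ : E n} (hu : ContDiffAt ℝ ∞ u (o + T x₀)) (x : E n) :
    breg (aff u o T s L c) x x₀ = s * breg u (o + T x) (o + T x₀) := by
  have e : o + T x - (o + T x₀) = T (x - x₀) := by rw [map_sub, add_sub_add_left_eq_sub]
  rw [breg, breg, fderiv_aff hu, e]
  simp only [aff, add_apply, smul_apply, ContinuousLinearMap.comp_apply,
    ContinuousLinearEquiv.coe_coe, smul_eq_mul, map_sub]
  ring

lemma hq_aff (hu : ContDiffAt ℝ ∞ u (o + T x)) (v w : E n) :
    hq (aff u o T s L c) x v w = s * hq u (o + T x) (T v) (T w) := by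
  have hc : ContinuousAt (fun y => o + T y) x := by fun_prop
  have h1 : dv w (aff u o T s L c) =ᶠ[𝓝 x] fun y => s * dv (T w) u (o + T y) + L w := by
    filter_upwards [hc.eventually (ca_ev_diff (two_of_top hu))] with y hy
    rw [dv, nm_fderiv_aff hy]
    rfl
  have h2 : DifferentiableAt ℝ (fun y => dv (T w) u (o + T y)) x :=
    diff_of_top (nm_contDiffAt (contDiffAt_dv hu _))
  rw [hq_eq_dv (two_of_top (contDiffAt_aff hu)), hq_eq_dv (two_of_top hu), ca_dv_congr h1, dv,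
    fderiv_add_const, fderiv_const_mul h2, nm_fderiv (dv (T w) u)]
  rfl

lemma nm_hess_aff (hu : ContDiffAt ℝ ∞ u (o + T x)) :
    hessianMat (aff u o T s L c) x =
      s • ((nmM T).transpose * hessianMat u (o + T x) * nmM T) := by
  ext i j
  rw [Matrix.smul_apply, nm_conj, smul_eq_mul, ← hq_aff (L := L) (c := c) hu,
    hq_eq_dv (two_of_top (contDiffAt_aff hu)), ca_hess]

lemma nm_inv_aff (hu : ContDiffAt ℝ ∞ u (o + T x)) (hA : (hessianMat u (o + T x)).PosDef)
    (hs : 0 < s) : (hessianMat (aff u o T s L c) x)⁻¹ =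
      s⁻¹ • ((nmM T)⁻¹ * (hessianMat u (o + T x))⁻¹ * (nmM T).transpose⁻¹) := by
  have h1 : IsUnit ((nmM T).transpose * hessianMat u (o + T x) * nmM T).det := by
    rw [Matrix.det_mul, Matrix.det_mul, Matrix.det_transpose]
    exact ((nm_unit T).mul hA.det_pos.ne'.isUnit).mul (nm_unit T)
  rw [nm_hess_aff hu, mul_assoc (nmM T)⁻¹, ← Matrix.mul_inv_rev, ← Matrix.mul_inv_rev]
  refine Matrix.inv_eq_right_inv ?_
  rw [Matrix.smul_mul, Matrix.mul_smul, smul_smul, mul_inv_cancel₀ hs.ne', one_smul,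
    Matrix.mul_nonsing_inv _ h1]

lemma nm_Lop {g : E n → ℝ} (hu : ContDiffAt ℝ ∞ u (o + T x))
    (hA : (hessianMat u (o + T x)).PosDef) (hs : 0 < s) (hg : ContDiffAt ℝ 2 g (o + T x)) :
    Lop (aff u o T s L c) (fun y => g (o + T y)) x = s⁻¹ * Lop u g (o + T x) := by
  have h1 : IsUnit (nmM T).transpose.det := by rw [Matrix.det_transpose]; exact nm_unit T
  rw [Lop_eq_trace, Lop_eq_trace, nm_inv_aff hu hA hs, nm_hess hg, Matrix.smul_mul,
    Matrix.trace_smul, smul_eq_mul, Matrix.transpose_mul, Matrix.transpose_mul,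
    Matrix.transpose_transpose, mul_assoc _ (nmM T).transpose⁻¹,
    Matrix.nonsing_inv_mul_cancel_left _ _ h1, mul_assoc (nmM T)⁻¹, Matrix.trace_mul_comm,
    mul_assoc, mul_assoc, Matrix.mul_nonsing_inv _ (nm_unit T), mul_one]

lemma nm_gamB (hu : ContDiffAt ℝ ∞ u (o + T x)) (hA : (hessianMat u (o + T x)).PosDef)
    (hs : 0 < s) (p q : E n →L[ℝ] ℝ) :
    gamB (aff u o T s L c) x (p.comp (T : E n →L[ℝ] E n)) (q.comp (T : E n →L[ℝ] E n)) =
      s⁻¹ * gamB u (o + T x) p q := by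
  have h1 : IsUnit (nmM T).transpose.det := by rw [Matrix.det_transpose]; exact nm_unit T
  have h2 : ∀ p : E n →L[ℝ] ℝ, (fun j => p.comp (T : E n →L[ℝ] E n) (eb j)) =
      (nmM T).transpose.mulVec fun i => p (eb i) := fun p => by
    funext j
    exact clm_apply_eq_sum p (T (eb j))
  change caQ _ (fun j => p.comp (T : E n →L[ℝ] E n) (eb j))
    (fun j => q.comp (T : E n →L[ℝ] E n) (eb j)) =
      s⁻¹ * caQ _ (fun i => p (eb i)) (fun i => q (eb i))
  rw [caQ_eq_dot, caQ_eq_dot, h2, h2, nm_inv_aff hu hA hs, Matrix.smul_mulVec, dotProduct_smul,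
    smul_eq_mul, Matrix.mulVec_mulVec, Matrix.nonsing_inv_mul_cancel_right _ _ h1,
    Matrix.mulVec_transpose, ← Matrix.dotProduct_mulVec, Matrix.mulVec_mulVec,
    Matrix.mul_nonsing_inv_cancel_left _ _ (nm_unit T)]

lemma hdet_aff (hu : ContDiffAt ℝ ∞ u (o + T x)) :
    hdet (aff u o T s L c) x = s ^ n * cdet T ^ 2 * hdet u (o + T x) := by
  rw [hdet, nm_hess_aff hu, Matrix.det_smul, Matrix.det_mul, Matrix.det_mul, Matrix.det_transpose,
    nm_det, Fintype.card_fin, hdet]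
  ring

theorem Cvx.aff (h : Cvx Ω u) (o : E n) (T : E n ≃L[ℝ] E n) (hs : 0 < s) (L : E n →L[ℝ] ℝ)
    (c : ℝ) : Cvx {x | o + T x ∈ Ω} (aff u o T s L c) := by
  have hc : Continuous fun y => o + T y := by fun_prop
  refine ⟨h.isOpen.preimage hc, fun x hx y hy a b ha hb hab => ?_,
    fun x hx => (contDiffAt_aff (h.at hx)).contDiffWithinAt, fun x hx => ?_, fun x₀ hx₀ H => ?_⟩
  · have h1 := h.convex hx hy ha hb hab
    have e : o + T (a • x + b • y) = a • (o + T x) + b • (o + T y) := by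
      rw [map_add, map_smul, map_smul, smul_add, smul_add, add_add_add_comm, ← add_smul, hab,
        one_smul]
    change o + T (a • x + b • y) ∈ Ω
    rwa [e]
  · rw [nm_hess_aff (h.at hx)]
    refine Matrix.PosDef.smul ?_ hs
    have := (h.pos _ hx).conjTranspose_mul_mul_same (B := nmM T)
      (Matrix.mulVec_injective_of_isUnit ((Matrix.isUnit_iff_isUnit_det _).2 (nm_unit T)))
    rwa [Matrix.conjTranspose_eq_transpose_of_trivial] at this
  · have h1 := (T.toHomeomorph.trans (Homeomorph.addLeft o)).isCompact_preimage.2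
      (h.proper _ hx₀ (H / s))
    convert h1 using 1
    ext x
    simp only [mem_ofPred_eq, mem_preimage, breg_aff (h.at hx₀), le_div_iff₀' hs]
    rfl

theorem AM.aff (h : AM Ω u) (o : E n) (T : E n ≃L[ℝ] E n) (hs : 0 < s) (L : E n →L[ℝ] ℝ)
    (c : ℝ) : AM {x | o + T x ∈ Ω} (aff u o T s L c) := by
  refine ⟨h.toCvx.aff o T hs L c, fun x hx => ?_⟩
  have hc : ContinuousAt (fun y => o + T y) x := by fun_prop
  have hu := h.toCvx.at hx
  have hA := h.pos _ hx
  have hk : 0 < s ^ n * cdet T ^ 2 := mul_pos (pow_pos hs n) (sq_pos_of_ne_zero (nm_cdet_ne T))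
  have h1 : mu (R236.aff u o T s L c) =ᶠ[𝓝 x]
      fun y => mu u (o + T y) + -Real.log (s ^ n * cdet T ^ 2) / ((n : ℝ) + 2) := by
    filter_upwards [hc.eventually (h.isOpen.mem_nhds hx)] with y hy
    rw [mu, mu, hdet_aff (h.toCvx.at hy), Real.log_mul hk.ne' (h.toCvx.hdet_pos hy).ne']
    ring
  have h2 : ContDiffAt ℝ 2 (mu u) (o + T x) := two_of_top (contDiffAt_mu hu hA)
  rw [Lop_congr h1, Lop_add (nm_contDiffAt h2) contDiffAt_const, Lop_const, add_zero,
    nm_Lop hu hA hs h2, h.eqn _ hx, Gam, Gam, h1.fderiv_eq, fderiv_add_const, nm_fderiv,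
    nm_gamB hu hA hs]
  ring

theorem QS.aff {C : ℝ} (h : QS u C) (o : E n) (T : E n ≃L[ℝ] E n) (hs : 0 < s)
    (L : E n →L[ℝ] ℝ) (c : ℝ) : QS (aff u o T s L c) C := by
  refine ⟨by simpa using h.toCvx.aff o T hs L c, h.one_le, fun x y => ?_⟩
  rw [breg_aff (h.toCvx.at (mem_univ _)), breg_aff (h.toCvx.at (mem_univ _)), mul_left_comm]
  exact mul_le_mul_of_nonneg_left (h.quasi _ _) hs.le

lemma nm_tilt (u : E n → ℝ) (s : ℝ) (L : E n →L[ℝ] ℝ) (c : ℝ) :
    aff u 0 (ContinuousLinearEquiv.refl ℝ (E n)) s L c = fun x => s * u x + L x + c := by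
  funext x
  simp [aff]

/-- scaling and adding an affine function only -/
theorem AM.tilt (h : AM Ω u) (hs : 0 < s) (L : E n →L[ℝ] ℝ) (c : ℝ) :
    AM Ω fun x => s * u x + L x + c := by
  have h1 := h.aff 0 (ContinuousLinearEquiv.refl ℝ (E n)) hs L c
  rw [nm_tilt] at h1
  simpa using h1

lemma hdet_tilt (hu : ContDiffAt ℝ ∞ u x) (s : ℝ) (L : E n →L[ℝ] ℝ) (c : ℝ) :
    hdet (fun x => s * u x + L x + c) x = s ^ n * hdet u x := by
  have h1 := hdet_aff (o := 0) (T := ContinuousLinearEquiv.refl ℝ (E n)) (s := s) (L := L) (c := c)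
    (x := x) (u := u) (by simpa using hu)
  have h2 : cdet (ContinuousLinearEquiv.refl ℝ (E n)) = 1 := LinearMap.det_id
  rw [nm_tilt, h2] at h1
  simpa using h1

lemma breg_tilt {x₀ : E n} (hu : ContDiffAt ℝ ∞ u x₀) (s : ℝ) (L : E n →L[ℝ] ℝ) (c : ℝ)
    (x : E n) : breg (fun x => s * u x + L x + c) x x₀ = s * breg u x x₀ := by
  have h1 := breg_aff (o := 0) (T := ContinuousLinearEquiv.refl ℝ (E n)) (s := s) (L := L) (c := c)
    (x₀ := x₀) (u := u) (by simpa using hu) x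
  rw [nm_tilt] at h1
  simpa using h1

end Crest.Agent.R236

end
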