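import Crest.Agent.R236.CapU
import Crest.Agent.R236.Norm

/-!
Lower bound for the affine area of a cap (maximality).
-/

set_option autoImplicit false

open scoped ContDiff RealInnerProductSpace Topology
open MeasureTheory Set Filter
open Crest.GeometryTopology.CoordMetric Crest.GeometryTopology.AffineMaximal

noncomputable section

namespace Crest.Agent.R236

variable {n : ℕ}

namespace CapL

/-- the squared norm -/
def nsq (x : E n) : ℝ := ‖x‖ ^ 2

lemma fderiv_nsq (x v : E n) : fderiv ℝ (nsq (n := n)) x v = 2 * ⟪x, v⟫ := by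
  have h := (hasStrictFDerivAt_norm_sq x).hasFDerivAt.fderiv
  rw [show (nsq : E n → ℝ) = fun x => ‖x‖ ^ 2 from rfl, h]
  simp

lemma hess_nsq (x : E n) : hessianMat (nsq (n := n)) x = Matrix.diagonal fun _ => (2 : ℝ) := by
  ext i j
  have h1 : (fun y : E n => pderiv j nsq y) =
      fun y => ((2 : ℝ) • EuclideanSpace.proj (𝕜 := ℝ) j : E n →L[ℝ] ℝ) y := by
    funext y
    unfold pderiv
    rw [fderiv_nsq]
    simp [EuclideanSpace.inner_single_right]
  unfold hessianMat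
  rw [h1]
  unfold pderiv
  rw [ContinuousLinearMap.fderiv]
  by_cases hij : i = j
  · subst hij; simp
  · simp [hij, Ne.symm hij]

lemma breg_nsq (x x₀ : E n) : breg nsq x x₀ = ‖x - x₀‖ ^ 2 := by
  unfold breg
  rw [fderiv_nsq, norm_sub_sq_real, inner_sub_right, real_inner_self_eq_norm_sq, real_inner_comm]
  unfold nsq
  ring

lemma cvx_nsq : Cvx (univ : Set (E n)) nsq where
  isOpen := isOpen_univ
  convex := convex_univ
  smooth := (contDiff_norm_sq ℝ).contDiffOn
  pos := fun x _ => by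
    rw [hess_nsq]
    exact Matrix.posDef_diagonal_iff.2 fun _ => two_pos
  proper := fun x₀ _ h => by
    simp_rw [breg_nsq]
    refine (isCompact_closedBall x₀ (|h| + 1)).of_isClosed_subset ?_ fun x hx => ?_
    · simp only [mem_univ, true_and]
      exact isClosed_le (by fun_prop) continuous_const
    · rw [mem_closedBall_iff_norm]
      have h1 := hx.2
      have h2 := le_abs_self h
      have h3 := abs_nonneg h
      by_contra h4
      nlinarith [not_le.1 h4]

lemma hdet_nsq (x : E n) : hdet nsq x = 2 ^ n := by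
  unfold hdet
  rw [hess_nsq, Matrix.det_diagonal]
  simp

/-- the comparison paraboloid -/
def par (o : E n) (T : E n ≃L[ℝ] E n) : E n → ℝ := aff nsq (-T.symm o) T.symm 1 0 7

lemma par_eq (o : E n) (T : E n ≃L[ℝ] E n) (x : E n) : par o T x = ‖T.symm (x - o)‖ ^ 2 + 7 := by
  unfold par aff nsq
  rw [map_sub, neg_add_eq_sub]
  simp

lemma cvx_par (o : E n) (T : E n ≃L[ℝ] E n) : Cvx univ (par o T) := by
  have := (cvx_nsq (n := n)).aff (-T.symm o) T.symm one_pos 0 7
  simpa [par] using this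

lemma hdet_par (o : E n) (T : E n ≃L[ℝ] E n) (x : E n) :
    (|cdet T|⁻¹) ^ 2 ≤ hdet (par o T) x := by
  unfold par
  rw [hdet_aff (cvx_nsq.at (mem_univ _)), hdet_nsq, one_pow, one_mul]
  have h1 : cdet T.symm = (cdet T)⁻¹ := ContinuousLinearEquiv.det_coe_symm T
  rw [h1, ← abs_inv, sq_abs]
  exact le_mul_of_one_le_right (sq_nonneg _) (one_le_pow₀ one_le_two)

/-- concavity of `det^{1/(n+2)}` -/
lemma det_rpow_le {A B : Matrix (Fin n) (Fin n) ℝ} (hA : A.PosDef) (hB : B.PosDef)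
    (h0 : 0 ≤ (A⁻¹ * B).trace) :
    B.det ^ (1 / ((n : ℝ) + 2)) ≤
      A.det ^ (1 / ((n : ℝ) + 2)) * (1 + ((A⁻¹ * B).trace - n) / ((n : ℝ) + 2)) := by
  have h1 := amgm_trace hA hB
  have hA0 := hA.det_pos
  have hB0 := hB.det_pos
  rcases Nat.eq_zero_or_pos n with rfl | hn
  · simp [Matrix.trace]
  set τ := (A⁻¹ * B).trace with hτ
  have hn' : (0 : ℝ) < n := by exact_mod_cast hn
  have h2 : B.det ≤ A.det * (τ / n) ^ n := by
    rw [div_pow, ← mul_div_assoc, le_div_iff₀ (by positivity)]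
    exact h1
  have hs : 0 ≤ τ / n := by positivity
  have h3 : ((τ / n) ^ n) ^ (1 / ((n : ℝ) + 2)) ≤ 1 + (τ - n) / ((n : ℝ) + 2) := by
    rw [← Real.rpow_natCast, ← Real.rpow_mul hs]
    have h4 := rpow_one_add_le_one_add_mul_self (s := τ / n - 1) (by linarith)
      (p := (n : ℝ) * (1 / ((n : ℝ) + 2))) (by positivity)
      (by rw [mul_one_div, div_le_one (by positivity)]; linarith)
    rw [add_sub_cancel] at h4
    refine h4.trans (le_of_eq ?_)
    field_simp
  calc B.det ^ (1 / ((n : ℝ) + 2)) ≤ (A.det * (τ / n) ^ n) ^ (1 / ((n : ℝ) + 2)) := by gcongr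
    _ = A.det ^ (1 / ((n : ℝ) + 2)) * ((τ / n) ^ n) ^ (1 / ((n : ℝ) + 2)) :=
        Real.mul_rpow hA0.le (by positivity)
    _ ≤ _ := by gcongr

variable {Ω : Set (E n)} {f : E n → ℝ}

lemma Lop_nonneg {v : E n → ℝ} (hv : Cvx univ v) {x : E n} (hA : (hessianMat f x).PosDef) :
    0 ≤ Lop f v x := by
  have h1 : Lop f v x = Lop f (fun y => breg v y x) x := by
    unfold Lop
    rw [hessianMat_breg_left (hv.at (mem_univ x))]
  rw [h1]
  refine Lop_nonneg_of_isLocalMin hA (two_of_top (contDiffAt_breg_left (hv.at (mem_univ x)) x)) ?_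
  refine Filter.Eventually.of_forall fun y => ?_
  simp only [breg_self]
  exact hv.breg_nonneg (mem_univ _) (mem_univ _)

lemma hdet_rpow_le {v : E n → ℝ} (hv : Cvx univ v) {x : E n} (hA : (hessianMat f x).PosDef) :
    hdet v x ^ (1 / ((n : ℝ) + 2)) ≤
      hdet f x ^ (1 / ((n : ℝ) + 2)) * (1 + (Lop f v x - n) / ((n : ℝ) + 2)) := by
  have h0 := Lop_nonneg hv hA
  rw [Lop_eq_trace] at h0 ⊢
  have h1 := det_rpow_le hA (hv.pos x (mem_univ x)).transpose h0
  rwa [Matrix.det_transpose] at h1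

/-- the weight `exp ((n+1) μ)` -/
def wt (f : E n → ℝ) (x : E n) : ℝ := Real.exp (((n : ℝ) + 1) * mu f x)

lemma contDiffAt_wt (h : Cvx Ω f) {x : E n} (hx : x ∈ Ω) : ContDiffAt ℝ ∞ (wt f) x :=
  (contDiffAt_const.mul (contDiffAt_mu (h.at hx) (h.pos x hx))).exp

lemma Lop_wt (h : AM Ω f) {x : E n} (hx : x ∈ Ω) : Lop f (wt f) x = 0 := by
  have hm := contDiffAt_mu (h.toCvx.at hx) (h.pos x hx)
  have h1 : HasFDerivAt (fun y => ((n : ℝ) + 1) * mu f y) (((n : ℝ) + 1) • fderiv ℝ (mu f) x) x :=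
    (diff_of_top hm).hasFDerivAt.const_mul _
  unfold wt
  rw [Lop_exp (contDiffAt_const.mul (two_of_top hm)), Lop_const_mul _ (two_of_top hm),
    Gam_eq h1 h1, h.eqn x hx, gamB_smul_left, gamB_smul_right]
  unfold Gam
  ring

lemma hdet_mul_wt (h : Cvx Ω f) {x : E n} (hx : x ∈ Ω) :
    hdet f x * wt f x = hdet f x ^ (1 / ((n : ℝ) + 2)) := by
  unfold wt
  rw [h.exp_mu hx, mul_comm, ← Real.rpow_add_one (h.hdet_pos hx).ne']
  congr 1
  field_simp
  ring

end CapL

open CapL in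
theorem cap_lb (n : ℕ) : ∃ c : ℝ, 0 < c ∧ ∀ (Ω : Set (E n)) (f : E n → ℝ), IsCap Ω f → AM Ω f →
    ENNReal.ofReal (c * capV Ω f ^ ((n : ℝ) / ((n : ℝ) + 2))) ≤
      ∫⁻ x in sub Ω f 8, ENNReal.ofReal (hdet f x ^ (1 / ((n : ℝ) + 2))) := by
  obtain ⟨c, hc, -, hctr⟩ := exists_ctr n
  have hω := omg_pos n
  set k : ℝ := ((c ^ n * omg n) ^ 2) ^ (1 / ((n : ℝ) + 2)) with hk
  have hk0 : 0 < k := Real.rpow_pos_of_pos (by positivity) _
  refine ⟨k * (1 / 2) ^ n, by positivity, fun Ω f h hAM => ?_⟩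
  obtain ⟨o, T, hT⟩ := hctr _ h.compact (h.convex_sub 10) h.interior_nonempty
  have hV := h.capV_pos
  set V := capV Ω f with hVdef
  have hdT : 0 < |cdet T| := abs_pos.2 (cdet_ne_zero T)
  have hVge : c ^ n * |cdet T| * omg n ≤ V := by
    have h1 := le_volume_of_inner hc.le hT.inner
    rwa [h.volume_eq, ENNReal.ofReal_le_ofReal_iff hV.le] at h1
  set a : ℝ := V ^ (1 / ((n : ℝ) + 2)) with ha
  have ha0 : 0 < a := Real.rpow_pos_of_pos hV _
  have haV : a ^ (n + 2) = V := by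
    rw [ha, ← Real.rpow_natCast, ← Real.rpow_mul hV.le]
    push_cast
    rw [one_div_mul_cancel (by positivity), Real.rpow_one]
  have han : V ^ ((n : ℝ) / ((n : ℝ) + 2)) = a ^ n := by
    rw [ha, ← Real.rpow_natCast, ← Real.rpow_mul hV.le]
    congr 1
    ring
  set β : ℝ := k / a ^ 2 with hβ
  have hβ0 : 0 < β := by positivity
  set v := par o T with hv
  have hcv : Cvx univ v := cvx_par o T
  have hβle : ∀ x, β ≤ hdet v x ^ (1 / ((n : ℝ) + 2)) := by
    intro x
    have h1 : (c ^ n * omg n) ^ 2 / V ^ 2 ≤ hdet v x := by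
      refine le_trans ?_ (hdet_par o T x)
      rw [← div_pow]
      gcongr
      rw [div_le_iff₀ hV, ← div_eq_inv_mul, le_div_iff₀ hdT]
      linarith
    have h2 : β = ((c ^ n * omg n) ^ 2 / V ^ 2) ^ (1 / ((n : ℝ) + 2)) := by
      rw [Real.div_rpow (by positivity) (by positivity), hβ, hk, ha, ← Real.rpow_natCast V,
        ← Real.rpow_natCast (V ^ _), ← Real.rpow_mul hV.le, ← Real.rpow_mul hV.le,
        mul_comm (1 / ((n : ℝ) + 2))]
    rw [h2]
    gcongr
  set U := {x | x ∈ Ω ∧ f x < 10} with hU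
  set K := sub Ω f 8 with hK
  have hUo : IsOpen U := h.isOpen_lt 10
  have hUΩ : U ⊆ Ω := fun _ hx => hx.1
  have hKc : IsCompact K := h.isCompact_sub (by norm_num)
  have hKU : K ⊆ U := fun x hx => ⟨hx.1, by linarith [hx.2]⟩
  have hKm : MeasurableSet K := hKc.measurableSet
  have hv8 : ∀ x ∈ U, v x ≤ 8 := by
    intro x hx
    have h1 := hT.outer x ⟨hx.1, hx.2.le⟩
    rw [hv, par_eq]
    nlinarith [norm_nonneg (T.symm (x - o))]
  have hv7 : ∀ x, 7 ≤ v x := by
    intro x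
    rw [hv, par_eq]
    nlinarith [norm_nonneg (T.symm (x - o))]
  have hφ : ∀ x ∈ Ω, ContDiffAt ℝ 2 (fun y => v y - f y) x := fun x hx =>
    (two_of_top (hcv.at (mem_univ x))).sub (two_of_top (h.cvx.at hx))
  set Ψ : E n → ℝ := fun y => capPsi (v y - f y) with hΨ
  have hΨ2 : ContDiffOn ℝ 2 Ψ U := fun x hx =>
    (contDiff_capPsi.contDiffAt.comp x (hφ x hx.1)).contDiffWithinAt
  have hw2 : ContDiffOn ℝ 2 (wt f) U := fun x hx =>
    (two_of_top (contDiffAt_wt h.cvx hx.1)).contDiffWithinAt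
  have hneg : ∀ y ∈ U, y ∉ K → v y - f y ≤ 0 := by
    intro y hy hyK
    have h1 : 8 < f y := not_le.1 fun h8 => hyK ⟨hy.1, h8⟩
    linarith [hv8 y hy]
  have i1 := ibp h.cvx hUo hUΩ hKc hKU (hw2.of_le (by norm_num)) hΨ2 fun y hy hyK => Or.inr (by
    have h1 := ((hφ y hy.1).differentiableAt (by norm_num)).hasFDerivAt
    have h2 := HasDerivAt.comp_hasFDerivAt (h₂ := capPsi) (f := fun y => v y - f y) y
      (hasDerivAt_capPsi (v y - f y)) h1
    rw [show stp (v y - f y) = 0 from Real.smoothTransition.zero_of_nonpos (hneg y hy hyK),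
      zero_smul] at h2
    exact h2.fderiv)
  have i2 := ibp h.cvx hUo hUΩ hKc hKU (hΨ2.of_le (by norm_num)) hw2 fun y hy hyK =>
    Or.inl (capPsi_of_nonpos (hneg y hy hyK))
  have j1 := ibp_integrableOn h.cvx hUo hUΩ hKc hKU (hw2.of_le (by norm_num)) hΨ2
  have j2 := ibp_integrableOn h.cvx hUo hUΩ hKc hKU (hΨ2.of_le (by norm_num)) hw2
  set G : E n → ℝ := fun y => hdet f y * (wt f y * Lop f Ψ y + Gam f (wt f) Ψ y) -
    hdet f y * (Ψ y * Lop f (wt f) y + Gam f Ψ (wt f) y) with hG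
  have jG : IntegrableOn G K := j1.sub j2
  have iG : ∫ y in K, G y = 0 := by rw [hG, integral_sub j1 j2, i1, i2, sub_zero]
  have hGe : ∀ y ∈ Ω, G y = hdet f y ^ (1 / ((n : ℝ) + 2)) * Lop f Ψ y := by
    intro y hy
    have h1 : Gam f Ψ (wt f) y = Gam f (wt f) Ψ y := gamB_comm (h.cvx.pos y hy) _ _
    rw [hG]
    dsimp only
    rw [Lop_wt hAM hy, h1, ← hdet_mul_wt h.cvx hy]
    ring
  have jd : IntegrableOn (fun y => hdet f y ^ (1 / ((n : ℝ) + 2))) K := by
    refine ContinuousOn.integrableOn_compact hKc fun y hy => ?_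
    exact ((contDiffAt_hdet (h.cvx.at hy.1)).continuousAt.rpow_const
      (Or.inl (h.cvx.hdet_pos hy.1).ne')).continuousWithinAt
  have hpt : ∀ y ∈ Ω, β * stp (v y - f y) ≤
      hdet f y ^ (1 / ((n : ℝ) + 2)) + (1 / ((n : ℝ) + 2)) * G y := by
    intro y hy
    have hA := h.cvx.pos y hy
    have h1 := (hβle y).trans (hdet_rpow_le hcv hA)
    have h2 : Lop f Ψ y = stp (v y - f y) * (Lop f v y - n) +
        deriv stp (v y - f y) * Gam f (fun y => v y - f y) (fun y => v y - f y) y := by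
      rw [hΨ, Lop_comp (f := fun y => v y - f y) contDiff_capPsi.contDiffAt (hφ y hy),
        Lop_sub (two_of_top (hcv.at (mem_univ y))) (two_of_top (h.cvx.at hy)), Lop_self hA,
        deriv_capPsi]
    have h3 : 0 ≤ deriv stp (v y - f y) * Gam f (fun y => v y - f y) (fun y => v y - f y) y :=
      mul_nonneg Real.smoothTransition.monotone.deriv_nonneg (gamB_nonneg hA _)
    have h4 : 0 ≤ stp (v y - f y) := Real.smoothTransition.nonneg _
    have h5 : stp (v y - f y) ≤ 1 := Real.smoothTransition.le_one _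
    have h6 : 0 < hdet f y ^ (1 / ((n : ℝ) + 2)) := Real.rpow_pos_of_pos (h.cvx.hdet_pos hy) _
    rw [hGe y hy, h2]
    set r := hdet f y ^ (1 / ((n : ℝ) + 2))
    set σ := stp (v y - f y)
    set e := deriv stp (v y - f y) * Gam f (fun y => v y - f y) (fun y => v y - f y) y
    have h7 := mul_le_mul_of_nonneg_right h1 h4
    have h8 : 0 ≤ 1 / ((n : ℝ) + 2) * (r * e) := by positivity
    have h9 : r * σ ≤ r := mul_le_of_le_one_right h6.le h5
    have h10 : r * (1 + (Lop f v y - n) / ((n : ℝ) + 2)) * σ =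
        r * σ + 1 / ((n : ℝ) + 2) * (r * (σ * (Lop f v y - n))) := by ring
    have h11 : 1 / ((n : ℝ) + 2) * (r * (σ * (Lop f v y - n) + e)) =
        1 / ((n : ℝ) + 2) * (r * (σ * (Lop f v y - n))) + 1 / ((n : ℝ) + 2) * (r * e) := by ring
    linarith
  obtain ⟨x₁, hx₁, hf₁⟩ := h.low
  have hshrink : ENNReal.ofReal ((1 / 2) ^ n) * volume (sub Ω f 10) ≤ volume (sub Ω f 6) := by
    refine volume_le_of_shrink (o := x₁) (by norm_num) fun z hz => ?_
    have e1 : x₁ + (1 / 2 : ℝ) • (z - x₁) = (1 / 2 : ℝ) • x₁ + (1 / 2 : ℝ) • z := by module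
    rw [e1]
    refine ⟨h.cvx.convex hx₁ hz.1 (by norm_num) (by norm_num) (by norm_num), ?_⟩
    have h1 := h.cvx.convexOn.2 hx₁ hz.1 (show (0 : ℝ) ≤ 1 / 2 by norm_num)
      (show (0 : ℝ) ≤ 1 / 2 by norm_num) (by norm_num)
    simp only [smul_eq_mul] at h1
    linarith [hz.2]
  calc ENNReal.ofReal (k * (1 / 2) ^ n * V ^ ((n : ℝ) / ((n : ℝ) + 2)))
      = ENNReal.ofReal β * (ENNReal.ofReal ((1 / 2) ^ n) * volume (sub Ω f 10)) := by
        rw [h.volume_eq, ← ENNReal.ofReal_mul (by positivity), ← ENNReal.ofReal_mul hβ0.le, han,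
          ← hVdef, ← haV, hβ]
        congr 1
        field_simp
        ring
    _ ≤ ENNReal.ofReal β * volume (sub Ω f 6) := by gcongr
    _ = ∫⁻ _ in sub Ω f 6, ENNReal.ofReal β := (setLIntegral_const _ _).symm
    _ ≤ ∫⁻ y in sub Ω f 6, ENNReal.ofReal
          (hdet f y ^ (1 / ((n : ℝ) + 2)) + (1 / ((n : ℝ) + 2)) * G y) := by
        refine setLIntegral_mono' (h.isCompact_sub (by norm_num)).measurableSet fun y hy => ?_
        refine ENNReal.ofReal_le_ofReal ?_
        have h1 : stp (v y - f y) = 1 :=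
          Real.smoothTransition.one_of_one_le (by linarith [hy.2, hv7 y])
        have h2 := hpt y hy.1
        rwa [h1, mul_one] at h2
    _ ≤ ∫⁻ y in K, ENNReal.ofReal
          (hdet f y ^ (1 / ((n : ℝ) + 2)) + (1 / ((n : ℝ) + 2)) * G y) :=
        lintegral_mono_set fun y hy => ⟨hy.1, hy.2.trans (by norm_num)⟩
    _ = ENNReal.ofReal (∫ y in K, (hdet f y ^ (1 / ((n : ℝ) + 2)) + (1 / ((n : ℝ) + 2)) * G y)) := by
        refine (ofReal_integral_eq_lintegral_ofReal (jd.add (jG.const_mul _))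
          (ae_restrict_of_forall_mem hKm fun y hy => ?_)).symm
        exact (mul_nonneg hβ0.le (Real.smoothTransition.nonneg _)).trans (hpt y hy.1)
    _ = ENNReal.ofReal (∫ y in K, hdet f y ^ (1 / ((n : ℝ) + 2))) := by
        rw [integral_add jd (jG.const_mul _), integral_const_mul, iG, mul_zero, add_zero]
    _ = _ := ofReal_integral_eq_lintegral_ofReal jd (ae_restrict_of_forall_mem hKm fun y hy =>
        (Real.rpow_pos_of_pos (h.cvx.hdet_pos hy.1) _).le)

end Crest.Agent.R236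

end
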