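import Crest.Agent.R236.Conv
import Crest.Agent.R236.Body

/-!
Upper bounds for the affine area of a cap.
-/

set_option autoImplicit false

open scoped ContDiff RealInnerProductSpace Topology
open MeasureTheory Set Filter
open Crest.GeometryTopology.CoordMetric Crest.GeometryTopology.AffineMaximal

noncomputable section

namespace Crest.Agent.R236

variable {n : ℕ}

variable {Ω : Set (E n)} {f : E n → ℝ}

lemma IsCap.convex_sub (h : IsCap Ω f) (t : ℝ) : Convex ℝ (sub Ω f t) :=
  h.cvx.convexOn.convex_le t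

lemma IsCap.isCompact_sub (h : IsCap Ω f) {t : ℝ} (ht : t ≤ 10) : IsCompact (sub Ω f t) := by
  have hc : ContinuousOn f (sub Ω f 10) := h.cvx.continuousOn.mono fun _ hx => hx.1
  have h1 := hc.preimage_isClosed_of_isClosed h.compact.isClosed (isClosed_Iic (a := t))
  have h2 : sub Ω f t = sub Ω f 10 ∩ f ⁻¹' Iic t := by
    ext x
    exact ⟨fun hx => ⟨⟨hx.1, hx.2.trans ht⟩, hx.2⟩, fun hx => ⟨hx.1.1, hx.2⟩⟩
  rw [h2]
  exact h.compact.of_isClosed_subset h1 inter_subset_left

lemma IsCap.isOpen_lt (h : IsCap Ω f) (t : ℝ) : IsOpen {x | x ∈ Ω ∧ f x < t} :=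
  h.cvx.continuousOn.isOpen_inter_preimage h.cvx.isOpen (isOpen_Iio (a := t))

lemma IsCap.interior_nonempty (h : IsCap Ω f) : (interior (sub Ω f 10)).Nonempty := by
  obtain ⟨x₁, hx₁, h2⟩ := h.low
  have h1 : {x | x ∈ Ω ∧ f x < 10} ⊆ sub Ω f 10 := fun x hx => ⟨hx.1, hx.2.le⟩
  exact ⟨x₁, interior_maximal h1 (h.isOpen_lt 10) ⟨hx₁, by linarith⟩⟩

lemma IsCap.capV_pos (h : IsCap Ω f) : 0 < capV Ω f :=
  ENNReal.toReal_pos (Measure.measure_pos_of_nonempty_interior _ h.interior_nonempty).ne'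
    h.compact.measure_lt_top.ne

lemma IsCap.volume_eq (h : IsCap Ω f) : volume (sub Ω f 10) = ENNReal.ofReal (capV Ω f) :=
  (ENNReal.ofReal_toReal h.compact.measure_lt_top.ne).symm

/-! ### the primitive of the smooth step -/

/-- the primitive of `stp` vanishing at `0` -/
def capPsi (s : ℝ) : ℝ := ∫ t in (0 : ℝ)..s, stp t

lemma hasDerivAt_capPsi (s : ℝ) : HasDerivAt capPsi (stp s) s :=
  (Real.smoothTransition.continuous.integral_hasStrictDerivAt 0 s).hasDerivAt

lemma deriv_capPsi : deriv capPsi = stp := funext fun s => (hasDerivAt_capPsi s).deriv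

lemma contDiff_capPsi : ContDiff ℝ 2 capPsi := by
  rw [show (2 : WithTop ℕ∞) = 1 + 1 from rfl, contDiff_succ_iff_deriv]
  refine ⟨fun s => (hasDerivAt_capPsi s).differentiableAt, by simp, ?_⟩
  rw [deriv_capPsi]
  exact Real.smoothTransition.contDiff (n := 1)

lemma capPsi_of_nonpos {s : ℝ} (hs : s ≤ 0) : capPsi s = 0 := by
  unfold capPsi
  rw [intervalIntegral.integral_congr (g := fun _ => (0 : ℝ))]
  · simp
  · intro t ht
    rw [uIcc_of_ge hs] at ht
    exact Real.smoothTransition.zero_of_nonpos ht.2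

lemma capPsi_le {s : ℝ} (hs : 0 ≤ s) : capPsi s ≤ s := by
  have h1 : ∫ t in (0 : ℝ)..s, stp t ≤ ∫ _ in (0 : ℝ)..s, (1 : ℝ) :=
    intervalIntegral.integral_mono_on hs
      (Real.smoothTransition.continuous.intervalIntegrable _ _) (by simp)
      fun t _ => Real.smoothTransition.le_one t
  simpa [capPsi] using h1

lemma Cvx.continuousOn_fderiv {u : E n → ℝ} (h : Cvx Ω u) : ContinuousOn (fderiv ℝ u) Ω :=
  h.smooth.continuousOn_fderiv_of_isOpen h.isOpen (by exact_mod_cast le_top)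

/-- the divergence theorem for the field `ψ(10 - f) (x - x₀)` -/
lemma IsCap.integral_radial (h : IsCap Ω f) (x₀ : E n) :
    ∫ x in sub Ω f 10, stp (10 - f x) * fderiv ℝ f x (x - x₀) ≤ 10 * n * capV Ω f := by
  set D := sub Ω f 10 with hD
  have hDΩ : D ⊆ Ω := fun _ hx => hx.1
  have hmeas : MeasurableSet D := h.compact.measurableSet
  have hf : ContinuousOn f D := h.cvx.continuousOn.mono hDΩ
  have hdf : ContinuousOn (fderiv ℝ f) D := h.cvx.continuousOn_fderiv.mono hDΩ
  have hpsi : ContinuousOn (fun x => capPsi (10 - f x)) D :=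
    contDiff_capPsi.continuous.comp_continuousOn (continuousOn_const.sub hf)
  have hstp : ContinuousOn (fun x => stp (10 - f x)) D :=
    Real.smoothTransition.continuous.comp_continuousOn (continuousOn_const.sub hf)
  have key : ∀ i : Fin n, ∫ x in D, (capPsi (10 - f x)
      - stp (10 - f x) * ((x - x₀) i * fderiv ℝ f x (eb i))) = 0 := by
    intro i
    have hg : ContDiffOn ℝ 1 (fun x : E n => capPsi (10 - f x) * (x - x₀) i) Ω := by
      refine ContDiffOn.mul ?_ ?_
      · exact (contDiff_capPsi.of_le (by norm_num)).comp_contDiffOn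
          (contDiffOn_const.sub (h.cvx.smooth.of_le (by exact_mod_cast le_top)))
      · exact ((EuclideanSpace.proj (𝕜 := ℝ) i).contDiff.comp
          (contDiff_id.sub contDiff_const)).contDiffOn
    have h0 := Crest.Agent.Lib.Degree.IntHtp.setIntegral_fderiv_eq_zero (μ := volume) h.cvx.isOpen
      h.compact hDΩ hg (fun x hx hxD => by
        have : 10 < f x := not_le.1 fun h10 => hxD ⟨hx, h10⟩
        rw [capPsi_of_nonpos (by linarith), zero_mul]) (eb i)
    rw [← h0]
    refine setIntegral_congr_fun hmeas fun x hx => ?_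
    have h1 : HasFDerivAt f (fderiv ℝ f x) x := (diff_of_top (h.cvx.at hx.1)).hasFDerivAt
    have h2 : HasFDerivAt (fun x => capPsi (10 - f x)) (stp (10 - f x) • (-fderiv ℝ f x)) x :=
      HasDerivAt.comp_hasFDerivAt (h₂ := capPsi) (f := fun x => 10 - f x) x
        (hasDerivAt_capPsi (10 - f x)) (h1.const_sub 10)
    have h3 : HasFDerivAt (fun x : E n => (x - x₀) i) (EuclideanSpace.proj (𝕜 := ℝ) i) x := by
      have := (EuclideanSpace.proj (𝕜 := ℝ) i : E n →L[ℝ] ℝ).hasFDerivAt.comp x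
        ((hasFDerivAt_id x).sub_const x₀)
      rw [ContinuousLinearMap.comp_id] at this
      exact this
    have h4 := (h2.mul h3).fderiv
    dsimp only
    rw [show (fun x : E n => capPsi (10 - f x) * (x - x₀) i) =
      (fun x => capPsi (10 - f x)) * fun x : E n => (x - x₀) i from rfl, h4]
    simp [eb]
    ring
  have hint : ∀ i : Fin n, IntegrableOn (fun x => capPsi (10 - f x)
      - stp (10 - f x) * ((x - x₀) i * fderiv ℝ f x (eb i))) D := fun i =>
    (hpsi.sub (hstp.mul (ContinuousOn.mul (by fun_prop)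
      (hdf.clm_apply continuousOn_const)))).integrableOn_compact h.compact
  have hsum := integral_finsetSum Finset.univ fun i _ => hint i
  rw [Finset.sum_eq_zero fun i _ => key i] at hsum
  have hi1 : IntegrableOn (fun x => (n : ℝ) * capPsi (10 - f x)) D :=
    (continuousOn_const.mul hpsi).integrableOn_compact h.compact
  have hi2 : IntegrableOn (fun x => stp (10 - f x) * fderiv ℝ f x (x - x₀)) D :=
    (hstp.mul (hdf.clm_apply (by fun_prop))).integrableOn_compact h.compact
  have he : ∀ x : E n, ∑ i : Fin n, (capPsi (10 - f x)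
      - stp (10 - f x) * ((x - x₀) i * fderiv ℝ f x (eb i))) =
      (n : ℝ) * capPsi (10 - f x) - stp (10 - f x) * fderiv ℝ f x (x - x₀) := by
    intro x
    rw [Finset.sum_sub_distrib, ← Finset.mul_sum, ← clm_apply_eq_sum]
    simp
  simp_rw [he] at hsum
  rw [integral_sub hi1 hi2] at hsum
  have h5 : ∫ x in D, (n : ℝ) * capPsi (10 - f x) ≤ ∫ _ in D, (10 * n : ℝ) := by
    refine setIntegral_mono_on hi1 (continuousOn_const.integrableOn_compact h.compact) hmeas
      fun x hx => ?_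
    have h6 := capPsi_le (s := 10 - f x) (by linarith [hx.2])
    have h7 := h.nonneg x hx.1
    nlinarith [Nat.cast_nonneg (α := ℝ) n]
  rw [setIntegral_const, smul_eq_mul] at h5
  have h8 : (volume : Measure (E n)).real D = capV Ω f := rfl
  rw [h8] at h5
  linarith

theorem cap_e2 (n : ℕ) : ∃ C : ℝ, 0 < C ∧ ∀ (Ω : Set (E n)) (f : E n → ℝ), IsCap Ω f →
    ∀ x₀ ∈ sub Ω f 10,
      ∫⁻ x in sub Ω f 9, ENNReal.ofReal (breg f x₀ x + 1) ≤ ENNReal.ofReal (C * capV Ω f) := by
  refine ⟨11 + 10 * n, by positivity, fun Ω f h x₀ hx₀ => ?_⟩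
  set D := sub Ω f 10 with hD
  have hDΩ : D ⊆ Ω := fun _ hx => hx.1
  have hmeas : MeasurableSet D := h.compact.measurableSet
  have hf : ContinuousOn f D := h.cvx.continuousOn.mono hDΩ
  have hdf : ContinuousOn (fderiv ℝ f) D := h.cvx.continuousOn_fderiv.mono hDΩ
  have hstp : ContinuousOn (fun x => stp (10 - f x)) D :=
    Real.smoothTransition.continuous.comp_continuousOn (continuousOn_const.sub hf)
  have hi2 : IntegrableOn (fun x => stp (10 - f x) * fderiv ℝ f x (x - x₀)) D :=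
    (hstp.mul (hdf.clm_apply (by fun_prop))).integrableOn_compact h.compact
  have hi1 : IntegrableOn (fun _ : E n => (11 : ℝ)) D :=
    continuousOn_const.integrableOn_compact h.compact
  have hb : ∀ x ∈ Ω, breg f x₀ x + 1 ≤ 11 + fderiv ℝ f x (x - x₀) := by
    intro x hx
    have h1 : fderiv ℝ f x (x₀ - x) = -fderiv ℝ f x (x - x₀) := by
      rw [← map_neg, neg_sub]
    have h2 := h.nonneg x hx
    have h3 := hx₀.2
    unfold breg
    linarith
  have hnn : ∀ x ∈ D, 0 ≤ 11 + stp (10 - f x) * fderiv ℝ f x (x - x₀) := by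
    intro x hx
    have h1 := hb x hx.1
    have h2 := h.cvx.breg_nonneg hx₀.1 hx.1
    have h3 := Real.smoothTransition.nonneg (10 - f x)
    have h4 := Real.smoothTransition.le_one (10 - f x)
    have h5 : 0 ≤ stp (10 - f x) * (11 + fderiv ℝ f x (x - x₀)) := mul_nonneg h3 (by linarith)
    unfold stp at h5 ⊢
    nlinarith
  calc ∫⁻ x in sub Ω f 9, ENNReal.ofReal (breg f x₀ x + 1)
      ≤ ∫⁻ x in sub Ω f 9, ENNReal.ofReal (11 + stp (10 - f x) * fderiv ℝ f x (x - x₀)) := by
        refine setLIntegral_mono' (h.isCompact_sub (by norm_num)).measurableSet fun x hx => ?_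
        refine ENNReal.ofReal_le_ofReal ?_
        have h1 : stp (10 - f x) = 1 := Real.smoothTransition.one_of_one_le (by linarith [hx.2])
        rw [h1, one_mul]
        exact hb x hx.1
    _ ≤ ∫⁻ x in D, ENNReal.ofReal (11 + stp (10 - f x) * fderiv ℝ f x (x - x₀)) :=
        lintegral_mono_set fun x hx => ⟨hx.1, hx.2.trans (by norm_num)⟩
    _ = ENNReal.ofReal (∫ x in D, (11 + stp (10 - f x) * fderiv ℝ f x (x - x₀))) :=
        (ofReal_integral_eq_lintegral_ofReal (hi1.add hi2)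
          (ae_restrict_of_forall_mem hmeas hnn)).symm
    _ ≤ ENNReal.ofReal ((11 + 10 * n) * capV Ω f) := by
        refine ENNReal.ofReal_le_ofReal ?_
        rw [integral_add hi1 hi2, setIntegral_const, smul_eq_mul]
        have h8 : (volume : Measure (E n)).real D = capV Ω f := rfl
        have h9 := h.integral_radial x₀
        rw [h8]
        linarith

/-- the height over the tangent plane at the centre controls the normalised gradient -/
lemma IsCap.tau_lb (h : IsCap Ω f) {c : ℝ} (hc : 0 < c) {o : E n} {T : E n ≃L[ℝ] E n}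
    (hT : IsCtr c (sub Ω f 10) o T) {x : E n} (hx : x ∈ Ω) :
    1 + c * ‖adj T (gradient f x - 0)‖ ≤ 11 - f x + fderiv ℝ f x (x - o) := by
  rw [sub_zero]
  set p := adj T (gradient f x) with hp
  obtain ⟨q, hq, hpq⟩ : ∃ q : E n, ‖q‖ ≤ c ∧ ⟪p, q⟫ = c * ‖p‖ := by
    by_cases h0 : p = 0
    · exact ⟨0, by simpa using hc.le, by simp [h0]⟩
    · have h1 : 0 < ‖p‖ := norm_pos_iff.2 h0
      refine ⟨(c / ‖p‖) • p, ?_, ?_⟩
      · rw [norm_smul, Real.norm_eq_abs, abs_of_pos (by positivity), div_mul_cancel₀ _ h1.ne']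
      · rw [real_inner_smul_right, real_inner_self_eq_norm_sq]
        field_simp
  have hz := hT.inner q hq
  have h1 := h.cvx.breg_nonneg hz.1 hx
  have h2 : fderiv ℝ f x (o + T q - x) = c * ‖p‖ - fderiv ℝ f x (x - o) := by
    rw [← hpq, hp, inner_adj, inner_gradient, ← map_sub]
    congr 1
    abel
  have h3 := hz.2
  unfold breg at h1
  linarith

/-- weighted arithmetic-geometric mean inequality -/
lemma rpow_le_add_div {d a : ℝ} (hd : 0 < d) (ha : 0 < a) (n : ℕ) :
    d ^ (1 / ((n : ℝ) + 2)) ≤ a + d / a ^ (n + 1) := by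
  set r := d ^ (1 / ((n : ℝ) + 2)) with hr
  have hr0 : 0 < r := Real.rpow_pos_of_pos hd _
  have hrd : r ^ (n + 2) = d := by
    rw [hr, ← Real.rpow_natCast, ← Real.rpow_mul hd.le]
    push_cast
    rw [one_div_mul_cancel (by positivity), Real.rpow_one]
  rcases le_or_gt r a with h1 | h1
  · have : 0 ≤ d / a ^ (n + 1) := by positivity
    linarith
  · have h2 : r ≤ d / a ^ (n + 1) := by
      rw [le_div_iff₀ (by positivity), ← hrd, pow_succ' r (n + 1)]
      gcongr
    linarith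

theorem cap_e3' (n : ℕ) : ∃ C : ℝ, 0 < C ∧ ∀ (Ω : Set (E n)) (f : E n → ℝ), IsCap Ω f →
    ∀ x₀ ∈ sub Ω f 10, ∀ t : ℝ, 0 < t →
      ∫⁻ x in {x | x ∈ sub Ω f 9 ∧ t ≤ breg f x₀ x + 1},
          ENNReal.ofReal (hdet f x ^ (1 / ((n : ℝ) + 2))) ≤
        ENNReal.ofReal (C * t ^ (-(1 / (2 * ((n : ℝ) + 2)))) *
          capV Ω f ^ ((n : ℝ) / ((n : ℝ) + 2))) := by
  obtain ⟨c, hc, -, hctr⟩ := exists_ctr n
  obtain ⟨C₂, hC₂, he2⟩ := cap_e2 n
  obtain ⟨C₃, hC₃, hadj⟩ := lintegral_adj_le (n := n) (r := (n : ℝ) + 1 / 2) (by linarith)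
  have hω := omg_pos n
  set c' : ℝ := c / (c + 1) with hc'
  have hc'0 : 0 < c' := by positivity
  set k : ℝ := c' ^ (1 / 2 : ℝ) with hk
  have hk0 : 0 < k := Real.rpow_pos_of_pos hc'0 _
  refine ⟨11 * C₂ + C₃ * omg n / (k * c ^ n), by positivity, fun Ω f h x₀ hx₀ t ht => ?_⟩
  obtain ⟨o, T, hT⟩ := hctr _ h.compact (h.convex_sub 10) h.interior_nonempty
  have ho : o ∈ sub Ω f 10 := by simpa using hT.inner 0 (by simpa using hc.le)
  have hV := h.capV_pos
  set V := capV Ω f with hVdef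
  have hdT : 0 < |cdet T| := abs_pos.2 (cdet_ne_zero T)
  have hVle : V ≤ |cdet T| * omg n := by
    have h1 := volume_le_of_outer (r := 1) zero_le_one hT.outer
    rw [h.volume_eq, ENNReal.ofReal_le_ofReal_iff (by positivity)] at h1
    simpa using h1
  -- roots
  set a : ℝ := V ^ (1 / ((n : ℝ) + 2)) with ha
  set s : ℝ := t ^ (1 / (2 * ((n : ℝ) + 2))) with hs
  have ha0 : 0 < a := Real.rpow_pos_of_pos hV _
  have hs0 : 0 < s := Real.rpow_pos_of_pos ht _
  have haV : a ^ (n + 2) = V := by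
    rw [ha, ← Real.rpow_natCast, ← Real.rpow_mul hV.le]
    push_cast
    rw [one_div_mul_cancel (by positivity), Real.rpow_one]
  have han : V ^ ((n : ℝ) / ((n : ℝ) + 2)) = a ^ n := by
    rw [ha, ← Real.rpow_natCast, ← Real.rpow_mul hV.le]
    congr 1
    ring
  have hst : s ^ (n + 2) = t ^ (1 / 2 : ℝ) := by
    rw [hs, ← Real.rpow_natCast, ← Real.rpow_mul ht.le]
    congr 1
    push_cast
    field_simp
  have hsi : t ^ (-(1 / (2 * ((n : ℝ) + 2)))) = s⁻¹ := by
    rw [Real.rpow_neg ht.le]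
  set lam : ℝ := (a ^ 2 * s)⁻¹ with hlam
  have hlam0 : 0 < lam := by positivity
  set S := {x | x ∈ sub Ω f 9 ∧ t ≤ breg f x₀ x + 1} with hS
  have h9 : IsCompact (sub Ω f 9) := h.isCompact_sub (by norm_num)
  have hbc : ∀ y, ContinuousOn (fun x => breg f y x + 1) Ω := fun y x hx =>
    ((contDiffAt_breg_right (h.cvx.at hx) y).continuousAt.add continuousAt_const).continuousWithinAt
  have hSc : IsClosed S :=
    ((hbc x₀).mono fun _ hx => hx.1).preimage_isClosed_of_isClosed h9.isClosed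
      (isClosed_Ici (a := t))
  have hSm : MeasurableSet S := hSc.measurableSet
  have hSΩ : S ⊆ Ω := fun _ hx => hx.1.1
  set K : ℝ := (a ^ 2 * s) ^ (n + 1) / (k * s ^ (n + 2)) with hK
  have hK0 : 0 < K := by positivity
  -- the pointwise bound
  have hpt : ∀ x ∈ S, hdet f x ^ (1 / ((n : ℝ) + 2)) ≤ 11 * lam * (breg f o x + 1) +
      K * (hdet f x * (1 + c * ‖adj T (gradient f x - 0)‖) ^ (-((n : ℝ) + 1 / 2))) := by
    intro x hx
    have hxΩ := hSΩ hx
    have hd := h.cvx.hdet_pos hxΩ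
    have h1 := h.tau_lb hc hT hxΩ
    set P := ‖adj T (gradient f x - 0)‖ with hP
    set τ := 11 - f x + fderiv ℝ f x (x - o) with hτ
    have hP0 : 0 ≤ P := norm_nonneg _
    have hq : 0 < 1 + c * P := by positivity
    have hτ0 : 0 < τ := lt_of_lt_of_le hq h1
    have h2 : τ ≤ 11 * (breg f o x + 1) := by
      have e1 : fderiv ℝ f x (o - x) = -fderiv ℝ f x (x - o) := by rw [← map_neg, neg_sub]
      have e2 := h.cvx.breg_nonneg ho.1 hxΩ
      have e3 := h.nonneg o ho.1
      unfold breg at e2 ⊢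
      linarith
    have h3 : c' * t ≤ τ := by
      have e1 : fderiv ℝ f x (x₀ - x) = -fderiv ℝ f x (x - o) - fderiv ℝ f x (o - x₀) := by
        rw [← map_neg, ← map_sub]
        congr 1
        abel
      have e2 : fderiv ℝ f x (o - x₀) ≤ P := by
        have e3 : o - x₀ = T (-T.symm (x₀ - o)) := by simp
        rw [e3, ← inner_gradient, ← inner_adj]
        refine (real_inner_le_norm _ _).trans ?_
        rw [norm_neg, hP, sub_zero]
        exact mul_le_of_le_one_right (norm_nonneg _) (hT.outer x₀ hx₀)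
      have e4 := hx.2
      have e5 := hx₀.2
      unfold breg at e4
      have e6 : t ≤ τ + P := by linarith
      rw [hc', div_mul_eq_mul_div, div_le_iff₀ (by positivity)]
      nlinarith
    have h4 : k * s ^ (n + 2) * (1 + c * P) ^ ((n : ℝ) + 1 / 2) ≤ τ ^ (n + 1) := by
      have e1 : τ ^ (n + 1) = τ ^ (1 / 2 : ℝ) * τ ^ ((n : ℝ) + 1 / 2) := by
        rw [← Real.rpow_add hτ0, ← Real.rpow_natCast]
        congr 1
        push_cast
        ring
      rw [e1, hst, hk, ← Real.mul_rpow hc'0.le ht.le]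
      gcongr
    have h5 := rpow_le_add_div hd (mul_pos hlam0 hτ0) n
    have h6 : hdet f x / (lam * τ) ^ (n + 1) ≤
        K * (hdet f x * (1 + c * P) ^ (-((n : ℝ) + 1 / 2))) := by
      have hr : 0 < (1 + c * P) ^ ((n : ℝ) + 1 / 2) := Real.rpow_pos_of_pos hq _
      rw [Real.rpow_neg hq.le, mul_pow, hlam, inv_pow, hK]
      set r := (1 + c * P) ^ ((n : ℝ) + 1 / 2)
      have e1 : hdet f x / (((a ^ 2 * s) ^ (n + 1))⁻¹ * τ ^ (n + 1)) =
          (a ^ 2 * s) ^ (n + 1) * hdet f x / τ ^ (n + 1) := by field_simp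
      have e2 : (a ^ 2 * s) ^ (n + 1) / (k * s ^ (n + 2)) * (hdet f x * r⁻¹) =
          (a ^ 2 * s) ^ (n + 1) * hdet f x / (k * s ^ (n + 2) * r) := by field_simp
      rw [e1, e2]
      gcongr
    have h7 : lam * τ ≤ 11 * lam * (breg f o x + 1) := by nlinarith
    linarith
  have hm1 : AEMeasurable (fun x => ENNReal.ofReal (breg f o x + 1)) (volume.restrict S) :=
    (((hbc o).mono hSΩ).aemeasurable hSm).ennreal_ofReal
  calc ∫⁻ x in S, ENNReal.ofReal (hdet f x ^ (1 / ((n : ℝ) + 2)))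
      ≤ ∫⁻ x in S, (ENNReal.ofReal (11 * lam) * ENNReal.ofReal (breg f o x + 1) +
          ENNReal.ofReal K * (ENNReal.ofReal (hdet f x) * ENNReal.ofReal
            ((1 + c * ‖adj T (gradient f x - 0)‖) ^ (-((n : ℝ) + 1 / 2))))) := by
        refine setLIntegral_mono' hSm fun x hx => ?_
        refine (ENNReal.ofReal_le_ofReal (hpt x hx)).trans (ENNReal.ofReal_add_le.trans ?_)
        rw [ENNReal.ofReal_mul (by positivity), ENNReal.ofReal_mul hK0.le,
          ENNReal.ofReal_mul (h.cvx.hdet_pos (hSΩ hx)).le]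
    _ = ENNReal.ofReal (11 * lam) * (∫⁻ x in S, ENNReal.ofReal (breg f o x + 1)) +
          ENNReal.ofReal K * ∫⁻ x in S, (ENNReal.ofReal (hdet f x) * ENNReal.ofReal
            ((1 + c * ‖adj T (gradient f x - 0)‖) ^ (-((n : ℝ) + 1 / 2)))) := by
        rw [lintegral_add_left' (hm1.const_mul _), lintegral_const_mul' _ _ ENNReal.ofReal_ne_top,
          lintegral_const_mul' _ _ ENNReal.ofReal_ne_top]
    _ ≤ ENNReal.ofReal (11 * lam) * ENNReal.ofReal (C₂ * V) +
          ENNReal.ofReal K * ENNReal.ofReal (C₃ / (c ^ n * |cdet T|)) := by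
        gcongr
        · exact (lintegral_mono_set fun x hx => hx.1).trans (he2 Ω f h o ho)
        · exact (h.cvx.lintegral_gradient_le hSm hSΩ fun p => ENNReal.ofReal
            ((1 + c * ‖adj T (p - 0)‖) ^ (-((n : ℝ) + 1 / 2)))).trans (hadj T 0 c hc)
    _ ≤ _ := by
        rw [← ENNReal.ofReal_mul (by positivity), ← ENNReal.ofReal_mul hK0.le,
          ← ENNReal.ofReal_add (by positivity) (by positivity)]
        refine ENNReal.ofReal_le_ofReal ?_
        rw [hsi, han]
        have e1 : 11 * lam * (C₂ * V) = 11 * C₂ * s⁻¹ * a ^ n := by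
          rw [hlam, ← haV]
          field_simp
          ring
        have e2 : C₃ / (c ^ n * |cdet T|) ≤ C₃ * omg n / (c ^ n * V) := by
          rw [div_le_div_iff₀ (by positivity) (by positivity)]
          have : C₃ * c ^ n * V ≤ C₃ * c ^ n * (|cdet T| * omg n) := by gcongr
          nlinarith
        have e3 : K * (C₃ * omg n / (c ^ n * V)) = C₃ * omg n / (k * c ^ n) * s⁻¹ * a ^ n := by
          rw [hK, ← haV]
          field_simp
          ring
        have e4 := mul_le_mul_of_nonneg_left e2 hK0.le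
        rw [e3] at e4
        rw [e1]
        nlinarith

theorem cap_ub (n : ℕ) : ∃ C : ℝ, 0 < C ∧ ∀ (Ω : Set (E n)) (f : E n → ℝ), IsCap Ω f →
    ∫⁻ x in sub Ω f 9, ENNReal.ofReal (hdet f x ^ (1 / ((n : ℝ) + 2))) ≤
      ENNReal.ofReal (C * capV Ω f ^ ((n : ℝ) / ((n : ℝ) + 2))) := by
  obtain ⟨C, hC, h3⟩ := cap_e3' n
  refine ⟨C, hC, fun Ω f h => ?_⟩
  obtain ⟨x₁, hx₁, h2⟩ := h.low
  have h1 := h3 Ω f h x₁ ⟨hx₁, by linarith⟩ 1 one_pos
  rw [Real.one_rpow, mul_one] at h1
  refine (lintegral_mono_set fun x hx => ?_).trans h1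
  exact ⟨hx, by linarith [h.cvx.breg_nonneg hx₁ hx.1]⟩

theorem cap_e3 (n : ℕ) : ∃ C : ℝ, 0 < C ∧ ∀ (Ω : Set (E n)) (f : E n → ℝ), IsCap Ω f →
    ∀ x₀ ∈ sub Ω f 10, ∀ t : ℝ, 0 < t →
      ∫⁻ x in {x | x ∈ sub Ω f 9 ∧ t ≤ breg f x₀ x + 1},
          ENNReal.ofReal (hdet f x ^ (1 / ((n : ℝ) + 2))) ≤
        ENNReal.ofReal (C * t ^ (-(1 / (2 * ((n : ℝ) + 2)))) *
          capV Ω f ^ ((n : ℝ) / ((n : ℝ) + 2))) := cap_e3' n

end Crest.Agent.R236

end
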