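import Crest.Agent.R236.Conv
import Crest.Agent.R236.Body

/-!
Centres of dual sections and the a priori (Santalo type) bound.
-/

set_option autoImplicit false

open scoped ContDiff RealInnerProductSpace Topology
open MeasureTheory Set Filter
open Crest.GeometryTopology.CoordMetric Crest.GeometryTopology.AffineMaximal

noncomputable section

namespace Crest.Agent.R236

variable {n : ℕ}

variable {Ω : Set (E n)} {u : E n → ℝ} {x x₀ : E n} {c h : ℝ} {y : E n} {T : E n ≃L[ℝ] E n}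

lemma Cvx.isCompact_dsec (hu : Cvx Ω u) (hx₀ : x₀ ∈ Ω) (h : ℝ) : IsCompact (dsec Ω u x₀ h) := by
  obtain ⟨r, hr, hrΩ⟩ := Metric.nhds_basis_closedBall.mem_iff.1 (hu.isOpen.mem_nhds hx₀)
  obtain ⟨M, hM⟩ := (isCompact_closedBall x₀ r).bddAbove_image (f := fun z => breg u z x₀)
    fun z hz => (hu.cvx0.continuousAt_breg (hrΩ hz) x₀).continuousWithinAt
  refine Metric.isCompact_of_isClosed_isBounded ?_
    ((Metric.isBounded_closedBall (x := (0 : E n)) (r := max 0 ((M + h) / r))).subset fun y hy => ?_)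
  · have e : dsec Ω u x₀ h = ⋂ x ∈ Ω, {y | ⟪y, x - x₀⟫ ≤ breg u x x₀ + h} := by
      ext y
      simp [dsec]
    rw [e]
    exact isClosed_biInter fun x _ => isClosed_le (by fun_prop) continuous_const
  · rw [mem_closedBall_zero_iff]
    rcases eq_or_ne y 0 with rfl | hy0
    · simp
    have hn : 0 < ‖y‖ := norm_pos_iff.2 hy0
    have hz : x₀ + (r / ‖y‖) • y ∈ Metric.closedBall x₀ r := by
      rw [Metric.mem_closedBall, dist_self_add_left, norm_smul, Real.norm_eq_abs,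
        abs_of_pos (by positivity), div_mul_cancel₀ _ hn.ne']
    have h1 := hy _ (hrΩ hz)
    have h2 := hM (mem_image_of_mem _ hz)
    rw [add_sub_cancel_left, real_inner_smul_right, real_inner_self_eq_norm_sq] at h1
    refine le_max_of_le_right ?_
    rw [le_div_iff₀ hr]
    have e : r / ‖y‖ * ‖y‖ ^ 2 = ‖y‖ * r := by field_simp
    linarith

lemma convex_dsec (Ω : Set (E n)) (u : E n → ℝ) (x₀ : E n) (h : ℝ) : Convex ℝ (dsec Ω u x₀ h) := by
  intro y hy z hz a b ha hb hab x hx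
  have h1 := mul_le_mul_of_nonneg_left (hy x hx) ha
  have h2 := mul_le_mul_of_nonneg_left (hz x hx) hb
  rw [inner_add_left, real_inner_smul_left, real_inner_smul_left]
  calc _ ≤ (a + b) * (breg u x x₀ + h) := by linarith
    _ = _ := by rw [hab, one_mul]

lemma Cvx.interior_dsec (hu : Cvx Ω u) (hx₀ : x₀ ∈ Ω) (hh : 0 < h) :
    (interior (dsec Ω u x₀ h)).Nonempty := by
  obtain ⟨c, hc, H⟩ := hu.exists_linear hx₀
  have hm : 0 < min 1 h := lt_min one_pos hh
  refine ⟨0, mem_interior_iff_mem_nhds.2 (mem_of_superset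
    (Metric.closedBall_mem_nhds 0 (mul_pos hm hc)) fun y hy x hx => ?_)⟩
  rw [mem_closedBall_zero_iff] at hy
  have h1 := (real_inner_le_norm y (x - x₀)).trans (mul_le_mul_of_nonneg_right hy (norm_nonneg _))
  have h2 := mul_le_mul_of_nonneg_left (H x hx) hm.le
  have h3 := mul_le_mul_of_nonneg_right (min_le_left 1 h) (hu.breg_nonneg hx hx₀)
  have h4 := min_le_right 1 h
  nlinarith

lemma Cvx.gradient_mem_dsec (hu : Cvx Ω u) (hx : x ∈ Ω) (hτ : breg u x₀ x ≤ h) :
    gradient u x - gradient u x₀ ∈ dsec Ω u x₀ h := by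
  intro z hz
  have h1 := hu.breg_nonneg hz hx
  rw [inner_sub_left, inner_gradient, inner_gradient]
  simp only [breg, map_sub] at h1 hτ ⊢
  linarith

lemma norm_symm_ctr_le (hu : Cvx Ω u) (hx₀ : x₀ ∈ Ω) (hh : 0 < h)
    (hT : IsCtr c (dsec Ω u x₀ (2 * h)) y T) : ‖T.symm y‖ ≤ 1 := by
  have h1 := hT.outer 0 fun x hx => by
    have := hu.breg_nonneg hx hx₀
    rw [inner_zero_left]
    linarith
  rwa [zero_sub, map_neg, norm_neg] at h1

/-- `α ≥ 1 + (c / (1 + c)) b / h` -/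
lemma alpha_ge (hu : Cvx Ω u) (hx₀ : x₀ ∈ Ω) (hh : 0 < h) (hc : 0 < c)
    (hT : IsCtr c (dsec Ω u x₀ (2 * h)) y T) (hx : x ∈ Ω) :
    1 + c / (1 + c) * (breg u x x₀ / h) ≤ alpha u x₀ h y x := by
  have h1 := hT.inner (c • T.symm y) (by
    rw [norm_smul, Real.norm_eq_abs, abs_of_pos hc]
    exact mul_le_of_le_one_right hc.le (norm_symm_ctr_le hu hx₀ hh hT)) x hx
  rw [map_smul, T.apply_symm_apply, inner_add_left, real_inner_smul_left] at h1
  have h2 := mul_pos hc hh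
  unfold alpha
  rw [← sub_nonneg]
  have e : (breg u x x₀ - ⟪y, x - x₀⟫ + 3 * h) / h - (1 + c / (1 + c) * (breg u x x₀ / h)) =
      (breg u x x₀ + 2 * h - (⟪y, x - x₀⟫ + c * ⟪y, x - x₀⟫) + 2 * (c * h)) / ((1 + c) * h) := by
    field_simp
    ring
  rw [e]
  exact div_nonneg (by linarith) (by positivity)

lemma one_le_alpha (hu : Cvx Ω u) (hx₀ : x₀ ∈ Ω) (hh : 0 < h) (hc : 0 < c)
    (hT : IsCtr c (dsec Ω u x₀ (2 * h)) y T) (hx : x ∈ Ω) : 1 ≤ alpha u x₀ h y x := by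
  have := hu.breg_nonneg hx hx₀
  exact le_trans (le_add_of_nonneg_right (by positivity)) (alpha_ge hu hx₀ hh hc hT hx)

lemma continuousOn_alpha (hu : Cvx Ω u) (x₀ : E n) (h : ℝ) (y : E n) :
    ContinuousOn (alpha u x₀ h y) Ω := fun x hx => by
  have := hu.cvx0.continuousAt_breg hx x₀
  refine ContinuousAt.continuousWithinAt ?_
  unfold alpha
  fun_prop

lemma continuousOn_tau (hu : Cvx Ω u) (x₀ : E n) : ContinuousOn (breg u x₀) Ω := by
  have h1 := hu.continuousOn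
  have h2 := hu.cvx0.continuousOn_fderiv
  unfold breg
  fun_prop

lemma continuousOn_theta (hu : Cvx Ω u) (x₀ : E n) (h : ℝ) : ContinuousOn (theta u x₀ h) Ω :=
  ((continuousOn_tau hu x₀).add continuousOn_const).div_const h

lemma one_le_theta (hu : Cvx Ω u) (hx₀ : x₀ ∈ Ω) (hh : 0 < h) (hx : x ∈ Ω) :
    1 ≤ theta u x₀ h x := by
  have := hu.breg_nonneg hx₀ hx
  unfold theta
  rw [le_div_iff₀ hh]
  linarith

lemma isCompact_sub_alpha (hu : Cvx Ω u) (hx₀ : x₀ ∈ Ω) (hh : 0 < h) (hc : 0 < c)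
    (hT : IsCtr c (dsec Ω u x₀ (2 * h)) y T) (K : ℝ) : IsCompact (sub Ω (alpha u x₀ h y) K) := by
  have h1 := hu.proper x₀ hx₀ (K * (1 + c) / c * h)
  have e : sub Ω (alpha u x₀ h y) K =
      {x | x ∈ Ω ∧ breg u x x₀ ≤ K * (1 + c) / c * h} ∩ alpha u x₀ h y ⁻¹' Iic K := by
    refine Subset.antisymm (fun x hx => ⟨⟨hx.1, ?_⟩, hx.2⟩) fun x hx => ⟨hx.1.1, hx.2⟩
    have h2 : c / (1 + c) * (breg u x x₀ / h) ≤ K := by
      linarith [alpha_ge hu hx₀ hh hc hT hx.1, hx.2]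
    rw [← div_le_iff₀ hh, le_div_iff₀ hc]
    rw [div_mul_eq_mul_div, div_le_iff₀ (by positivity)] at h2
    linarith
  rw [e]
  exact h1.of_isClosed_subset (((continuousOn_alpha hu x₀ h y).mono
    fun x hx => hx.1).preimage_isClosed_of_isClosed h1.isClosed isClosed_Iic) inter_subset_left

lemma adj_le_alpha (hh : 0 < h) (hc : 0 < c) (hT : IsCtr c (dsec Ω u x₀ (2 * h)) y T)
    (hx : x ∈ Ω) : c * ‖adj T (x - x₀)‖ + h ≤ h * alpha u x₀ h y x := by
  set w := adj T (x - x₀) with hw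
  have h1 := hT.inner ((c / ‖w‖) • w) (by
    rw [norm_smul, Real.norm_eq_abs, abs_of_nonneg (by positivity), div_mul_eq_mul_div,
      mul_div_assoc]
    exact mul_le_of_le_one_right hc.le (div_self_le_one _)) x hx
  rw [inner_add_left, real_inner_comm _ (T _), ← inner_adj, ← hw, real_inner_smul_right,
    real_inner_self_eq_norm_sq] at h1
  have e : c / ‖w‖ * ‖w‖ ^ 2 = c * ‖w‖ := by
    rcases eq_or_ne ‖w‖ 0 with h0 | h0
    · simp [h0]
    · field_simp
  unfold alpha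
  rw [mul_div_cancel₀ _ hh.ne']
  linarith

lemma norm_symm_le_of_mem_dsec (hu : Cvx Ω u) (hx₀ : x₀ ∈ Ω) (hh : 0 < h)
    (hT : IsCtr c (dsec Ω u x₀ (2 * h)) y T) {t : ℝ} (ht : 1 ≤ t) {z : E n}
    (hz : z ∈ dsec Ω u x₀ (t * h)) : ‖T.symm z‖ ≤ 2 * t := by
  have ht0 : 0 < t := by linarith
  have h1 := hT.outer (t⁻¹ • z) fun x hx => by
    have h2 := hu.breg_nonneg hx hx₀
    have h3 := hz x hx
    rw [real_inner_smul_left, inv_mul_le_iff₀ ht0]
    nlinarith [mul_pos ht0 hh]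
  have h2 := norm_symm_ctr_le hu hx₀ hh hT
  have h3 := norm_le_norm_sub_add (T.symm (t⁻¹ • z)) (T.symm y)
  rw [← map_sub, map_smul, norm_smul, Real.norm_eq_abs, abs_of_pos (inv_pos.2 ht0)] at h3
  rw [mul_comm, ← inv_mul_le_iff₀ ht0]
  linarith

/-- comparison of the tilted heights of two levels -/
lemma alpha_le_alpha (hu : Cvx Ω u) (hx₀ : x₀ ∈ Ω) (hh : 0 < h) (hc : 0 < c)
    (hT : IsCtr c (dsec Ω u x₀ (2 * h)) y T) {t : ℝ} (ht : 1 ≤ t) {y' : E n}
    (hy' : y' ∈ dsec Ω u x₀ (2 * (t * h))) (hx : x ∈ Ω) :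
    alpha u x₀ (t * h) y' x ≤ (4 + 6 / c) * alpha u x₀ h y x := by
  have ht0 : 0 < t := by linarith
  have h1 := norm_symm_le_of_mem_dsec hu hx₀ hh hT (t := 2 * t) (by linarith) (z := y')
    (by rwa [mul_assoc])
  have h2 := adj_le_alpha hh hc hT hx
  have h3 := alpha_ge hu hx₀ hh hc hT hx
  have h4 := one_le_alpha hu hx₀ hh hc hT hx
  have hb := hu.breg_nonneg hx hx₀
  set a := alpha u x₀ h y x
  have h5 : -⟪y', x - x₀⟫ ≤ ‖adj T (x - x₀)‖ * (2 * (2 * t)) := by
    rw [← T.apply_symm_apply y', real_inner_comm, ← inner_adj]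
    exact (neg_le_abs _).trans ((abs_real_inner_le_norm _ _).trans
      (mul_le_mul_of_nonneg_left h1 (norm_nonneg _)))
  have h6 : ‖adj T (x - x₀)‖ ≤ h * a / c := by
    rw [le_div_iff₀ hc]
    linarith
  have h7 : breg u x x₀ ≤ (1 + c) / c * a * h := by
    have h8 : c / (1 + c) * (breg u x x₀ / h) ≤ a := by linarith
    rw [div_mul_eq_mul_div, div_le_iff₀ (by positivity)] at h8
    rw [← div_le_iff₀ hh, div_mul_eq_mul_div, le_div_iff₀ hc]
    linarith
  have h9 : (1 + c) / c * a * h ≤ (1 + c) / c * a * h * t :=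
    le_mul_of_one_le_right (by positivity) ht
  have h10 := mul_le_mul_of_nonneg_right h6 (show 0 ≤ 2 * (2 * t) by positivity)
  have h11 : t * h ≤ a * (t * h) := le_mul_of_one_le_left (by positivity) h4
  have h12 : 0 ≤ a * (t * h) / c := by positivity
  unfold alpha
  rw [div_le_iff₀ (by positivity)]
  have e : (4 + 6 / c) * a * (t * h) = (1 + c) / c * a * h * t + h * a / c * (2 * (2 * t)) +
      3 * (a * (t * h)) + a * (t * h) / c := by
    field_simp
    ring
  linarith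

lemma measurableSet_tau_le (hu : Cvx Ω u) (x₀ : E n) (h : ℝ) :
    MeasurableSet {x | x ∈ Ω ∧ breg u x₀ x ≤ h} := by
  have e : {x | x ∈ Ω ∧ breg u x₀ x ≤ h} = Ω \ (Ω ∩ breg u x₀ ⁻¹' Ioi h) := by
    ext x
    simp only [mem_ofPred_eq, Set.mem_sdiff, mem_inter_iff, mem_preimage, mem_Ioi, not_and, not_lt]
    tauto
  rw [e]
  exact hu.isOpen.measurableSet.diff
    ((continuousOn_tau hu x₀).isOpen_inter_preimage hu.isOpen isOpen_Ioi).measurableSet

/-- the a priori bound -/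
theorem jbase (hc : 0 < c) {X : ℝ} (hX : (n : ℝ) < 2 * X) : ∃ C : ℝ, 0 < C ∧
    ∀ (Ω : Set (E n)) (u : E n → ℝ), Cvx Ω u → ∀ x₀ ∈ Ω, ∀ h : ℝ, 0 < h →
      ∀ (y : E n) (T : E n ≃L[ℝ] E n), IsCtr c (dsec Ω u x₀ (2 * h)) y T →
      ∫⁻ x in {x | x ∈ Ω ∧ breg u x₀ x ≤ h},
          ENNReal.ofReal (alpha u x₀ h y x ^ (-X) * √(hdet u x)) ≤
        ENNReal.ofReal (C * h ^ ((n : ℝ) / 2)) := by
  obtain ⟨C, hC, H⟩ := lintegral_adj_le hX
  have hω := omg_pos n
  refine ⟨C / c ^ n + omg n, by positivity, fun Ω u hu x₀ hx₀ h hh y T hT => ?_⟩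
  have hD : 0 < |cdet T| := abs_pos.2 (cdet_ne_zero T)
  have hs : 0 < h ^ ((n : ℝ) / 2) := Real.rpow_pos_of_pos hh _
  have hss : h ^ ((n : ℝ) / 2) * h ^ ((n : ℝ) / 2) = h ^ n := by
    rw [← Real.rpow_add hh, add_halves, Real.rpow_natCast]
  set s := h ^ ((n : ℝ) / 2)
  set l := |cdet T| / s with hl
  have hl0 : 0 < l := by positivity
  have hS := measurableSet_tau_le hu x₀ h
  set K : Set (E n) := {z | ‖T.symm (z - (gradient u x₀ + y))‖ ≤ 1} with hK
  have hKm : MeasurableSet K := (isClosed_le (by fun_prop) continuous_const).measurableSet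
  have h1 := hu.lintegral_gradient_le hS (fun x hx => hx.1) (K.indicator 1)
  rw [lintegral_indicator_one hKm] at h1
  have h2 := h1.trans (volume_le_of_outer (D := K) zero_le_one fun z hz => hz)
  have h3 := (setLIntegral_le_lintegral {x | x ∈ Ω ∧ breg u x₀ x ≤ h} _).trans
    (H T x₀ (c / h) (by positivity))
  have hm : Measurable fun p : E n => ENNReal.ofReal l *
      ENNReal.ofReal ((1 + c / h * ‖adj T (p - x₀)‖) ^ (-(2 * X))) := by fun_prop
  refine (setLIntegral_mono' (g := fun p => ENNReal.ofReal l *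
      ENNReal.ofReal ((1 + c / h * ‖adj T (p - x₀)‖) ^ (-(2 * X))) + ENNReal.ofReal l⁻¹ *
      (ENNReal.ofReal (hdet u p) * K.indicator 1 (gradient u p))) hS fun x hx => ?_).trans ?_
  · have hxK : gradient u x ∈ K := by
      have := hT.outer _ (hu.gradient_mem_dsec (h := 2 * h) hx.1 (by linarith [hx.2]))
      rwa [sub_sub] at this
    have hd : 0 < hdet u x := (hu.pos x hx.1).det_pos
    have h4 : 1 + c / h * ‖adj T (x - x₀)‖ ≤ alpha u x₀ h y x := by
      have := adj_le_alpha hh hc hT hx.1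
      rw [div_mul_eq_mul_div, add_comm, div_add_one hh.ne', div_le_iff₀ hh]
      linarith
    have h5 : 0 < 1 + c / h * ‖adj T (x - x₀)‖ := by positivity
    have h6 : alpha u x₀ h y x ^ (-X) ≤ (1 + c / h * ‖adj T (x - x₀)‖) ^ (-X) :=
      Real.rpow_le_rpow_of_nonpos h5 h4 (by linarith [(Nat.cast_nonneg n : (0 : ℝ) ≤ n)])
    have h7 : (1 + c / h * ‖adj T (x - x₀)‖) ^ (-(2 * X)) =
        ((1 + c / h * ‖adj T (x - x₀)‖) ^ (-X)) ^ 2 := by
      rw [← Real.rpow_natCast, ← Real.rpow_mul h5.le]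
      congr 1
      push_cast
      ring
    rw [indicator_of_mem hxK, Pi.one_apply, mul_one, ← ENNReal.ofReal_mul hl0.le,
      ← ENNReal.ofReal_mul (by positivity), ← ENNReal.ofReal_add (by positivity) (by positivity),
      h7]
    refine ENNReal.ofReal_le_ofReal ((mul_le_mul_of_nonneg_right h6 (Real.sqrt_nonneg _)).trans ?_)
    have h8 : 0 ≤ (1 + c / h * ‖adj T (x - x₀)‖) ^ (-X) := by positivity
    set a := (1 + c / h * ‖adj T (x - x₀)‖) ^ (-X)
    have h9 := Real.sq_sqrt hd.le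
    have h10 := Real.sqrt_nonneg (hdet u x)
    set b := √(hdet u x)
    rw [← h9, ← sub_nonneg]
    have e : l * a ^ 2 + l⁻¹ * b ^ 2 - a * b = ((l * a - b) ^ 2 + l * a * b) / l := by
      field_simp
      ring
    rw [e]
    positivity
  · rw [lintegral_add_left hm, lintegral_const_mul' _ _ ENNReal.ofReal_ne_top,
      lintegral_const_mul' _ _ ENNReal.ofReal_ne_top]
    refine (add_le_add (mul_le_mul_right h3 _) (mul_le_mul_right h2 _)).trans (le_of_eq ?_)
    rw [← ENNReal.ofReal_mul hl0.le, ← ENNReal.ofReal_mul (by positivity),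
      ← ENNReal.ofReal_add (by positivity) (by positivity)]
    congr 1
    rw [hl, div_pow, ← hss, one_pow]
    field_simp

end Crest.Agent.R236

end
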