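import Crest.Prelude.Def_AffineMaximal

/-!
Row 236 (affine Bernstein theorem for `3 ≤ n ≤ 9`, example for `n = 10`): definitions.

Notation of the paper proof: `A = D²u`, `Γ(f,g) = u^{ij} f_i g_j` (`Gam`), `𝓛 f = u^{ij} f_{ij}`
(`Lop`), `μ = -(log det A)/(n+2)` (`mu`), Bregman distance `D(x; x₀) = breg u x x₀`.
-/

set_option autoImplicit false

open scoped ContDiff RealInnerProductSpace
open MeasureTheory Set
open Crest.GeometryTopology.CoordMetric Crest.GeometryTopology.AffineMaximal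

noncomputable section

namespace Crest.Agent.R236

/-- the base space -/
abbrev E (n : ℕ) : Type := EuclideanSpace ℝ (Fin n)

variable {n : ℕ}

/-- standard basis vector -/
abbrev eb (i : Fin n) : E n := EuclideanSpace.single i 1

/-- directional derivative -/
def dv (v : E n) (f : E n → ℝ) (x : E n) : ℝ := fderiv ℝ f x v

/-- the Hessian as a bilinear form -/
def hq (u : E n → ℝ) (x v w : E n) : ℝ := ∑ i, ∑ j, hessianMat u x i j * v i * w j

/-- the inverse Hessian applied to two covectors -/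
def gamB (u : E n → ℝ) (x : E n) (p q : E n →L[ℝ] ℝ) : ℝ :=
  ∑ i, ∑ j, (hessianMat u x)⁻¹ i j * p (eb i) * q (eb j)

/-- `Γ(f, g) = u^{ij} f_i g_j` -/
def Gam (u f g : E n → ℝ) (x : E n) : ℝ := gamB u x (fderiv ℝ f x) (fderiv ℝ g x)

/-- `𝓛 f = u^{ij} f_{ij}` -/
def Lop (u f : E n → ℝ) (x : E n) : ℝ := ∑ i, ∑ j, (hessianMat u x)⁻¹ i j * hessianMat f x i j

/-- the Hessian determinant -/
def hdet (u : E n → ℝ) (x : E n) : ℝ := (hessianMat u x).det

/-- `μ = log ρ`, `ρ = det^{-1/(n+2)}` -/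
def mu (u : E n → ℝ) (x : E n) : ℝ := -Real.log (hdet u x) / ((n : ℝ) + 2)

/-- a positive multiple of the Laplacian of the Blaschke metric -/
def Dh (u f : E n → ℝ) (x : E n) : ℝ := Lop u f x + n * Gam u (mu u) f x

/-- Bregman distance: height of the graph at `x` over the tangent plane at `x₀` -/
def breg (u : E n → ℝ) (x x₀ : E n) : ℝ := u x - u x₀ - fderiv ℝ u x₀ (x - x₀)

/-- smooth, locally uniformly convex, with compact sections -/
structure Cvx (Ω : Set (E n)) (u : E n → ℝ) : Prop where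
  isOpen : IsOpen Ω
  convex : Convex ℝ Ω
  smooth : ContDiffOn ℝ ∞ u Ω
  pos : ∀ x ∈ Ω, (hessianMat u x).PosDef
  proper : ∀ x₀ ∈ Ω, ∀ h : ℝ, IsCompact {x | x ∈ Ω ∧ breg u x x₀ ≤ h}

/-- affine maximal graph with compact sections -/
structure AM (Ω : Set (E n)) (u : E n → ℝ) : Prop extends Cvx Ω u where
  eqn : ∀ x ∈ Ω, Lop u (mu u) x = -((n : ℝ) + 1) * Gam u (mu u) (mu u) x

/-- entire, with quasi-symmetric Bregman distance -/
structure QS (u : E n → ℝ) (C : ℝ) : Prop extends Cvx univ u where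
  one_le : 1 ≤ C
  quasi : ∀ x y, breg u x y ≤ C * breg u y x

/-- entire affine maximal graph with quasi-symmetric Bregman distance and pinched determinant -/
structure Nice (u : E n → ℝ) (C c₁ C₁ : ℝ) : Prop where
  am : AM univ u
  qs : QS u C
  pos : 0 < c₁
  lower : ∀ x, c₁ ≤ hdet u x
  upper : ∀ x, hdet u x ≤ C₁

/-- affine change of variables, scaling, and addition of an affine function -/
def aff (u : E n → ℝ) (o : E n) (T : E n ≃L[ℝ] E n) (s : ℝ) (L : E n →L[ℝ] ℝ) (c : ℝ)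
    (x : E n) : ℝ := s * u (o + T x) + L x + c

/-- determinant of a continuous linear equivalence -/
def cdet (T : E n ≃L[ℝ] E n) : ℝ := (T : E n →L[ℝ] E n).det

/-- the adjoint of a continuous linear equivalence -/
def adj (T : E n ≃L[ℝ] E n) : E n →L[ℝ] E n := ContinuousLinearMap.adjoint (T : E n →L[ℝ] E n)

/-- volume of the unit ball -/
def omg (n : ℕ) : ℝ := (volume (Metric.closedBall (0 : E n) 1)).toReal

/-- `α = a / h`, `a` the tilted height function -/
def alpha (u : E n → ℝ) (x₀ : E n) (h : ℝ) (y : E n) (x : E n) : ℝ :=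
  (breg u x x₀ - ⟪y, x - x₀⟫ + 3 * h) / h

/-- `θ = (τ + h) / h` -/
def theta (u : E n → ℝ) (x₀ : E n) (h : ℝ) (x : E n) : ℝ := (breg u x₀ x + h) / h

/-- the dual section of level `h` -/
def dsec (Ω : Set (E n)) (u : E n → ℝ) (x₀ : E n) (h : ℝ) : Set (E n) :=
  {y | ∀ x ∈ Ω, ⟪y, x - x₀⟫ ≤ breg u x x₀ + h}

/-- `y + c T B ⊆ D ⊆ y + T B` -/
structure IsCtr (c : ℝ) (D : Set (E n)) (y : E n) (T : E n ≃L[ℝ] E n) : Prop where
  inner : ∀ q : E n, ‖q‖ ≤ c → y + T q ∈ D
  outer : ∀ z ∈ D, ‖T.symm (z - y)‖ ≤ 1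

/-- sublevel set -/
def sub (Ω : Set (E n)) (f : E n → ℝ) (t : ℝ) : Set (E n) := {x | x ∈ Ω ∧ f x ≤ t}

/-- a normalised cap -/
structure IsCap (Ω : Set (E n)) (f : E n → ℝ) : Prop where
  cvx : Cvx Ω f
  nonneg : ∀ x ∈ Ω, 0 ≤ f x
  low : ∃ x₁ ∈ Ω, f x₁ ≤ 2
  compact : IsCompact (sub Ω f 10)

/-- volume of the base of a normalised cap -/
def capV (Ω : Set (E n)) (f : E n → ℝ) : ℝ := (volume (sub Ω f 10)).toReal

/-- section of an entire function -/
def sec (u : E n → ℝ) (x₀ : E n) (h : ℝ) : Set (E n) := {x | breg u x x₀ ≤ h}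

/-- the logarithm of `(b + η)(τ + η) ρ` -/
def zeta (u : E n → ℝ) (x₀ : E n) (η : ℝ) (x : E n) : ℝ :=
  Real.log (breg u x x₀ + η) + Real.log (breg u x₀ x + η) + mu u x

/-- a smooth monotone step from `0` to `1` on `[0, 1]` -/
abbrev stp : ℝ → ℝ := Real.smoothTransition

end Crest.Agent.R236

end
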