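import Crest.Agent.R236.HarC

/-!
A weak Harnack inequality at infinity and the Liouville theorem for the determinant.
-/

set_option autoImplicit false

open scoped ContDiff RealInnerProductSpace Topology
open MeasureTheory Set Filter
open Crest.GeometryTopology.CoordMetric Crest.GeometryTopology.AffineMaximal

noncomputable section

namespace Crest.Agent.R236

variable {n : ℕ}

variable {u : E n → ℝ} {C c₁ C₁ : ℝ}

namespace HarC

lemma exists_small_sec (hu : Nice u C c₁ C₁) {f : E n → ℝ} (hf : Continuous f) {x₁ : E n} {ε : ℝ}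
    (h : f x₁ < ε) : ∃ r : ℝ, 0 < r ∧ ∀ x, breg u x x₁ ≤ r → f x < ε := by
  have hK : IsCompact (sec u x₁ 1 ∩ {x | ε ≤ f x}) :=
    (isCompact_sec hu.am.toCvx x₁ 1).inter_right (isClosed_le continuous_const hf)
  rcases (sec u x₁ 1 ∩ {x | ε ≤ f x}).eq_empty_or_nonempty with he | hne
  · refine ⟨1, one_pos, fun x hx => ?_⟩
    by_contra hc
    exact (he ▸ (⟨hx, not_lt.1 hc⟩ : x ∈ sec u x₁ 1 ∩ {x | ε ≤ f x}) : x ∈ (∅ : Set (E n)))
  · obtain ⟨z, hz, hmin⟩ := hK.exists_isMinOn hne (f := fun x => breg u x x₁)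
      fun x _ => (cd_b hu x₁ x).continuousAt.continuousWithinAt
    have hz0 : 0 < breg u z x₁ := hu.am.toCvx.breg_pos trivial trivial fun hc => by
      have := hz.2
      rw [hc] at this
      exact absurd h (not_lt.2 this)
    refine ⟨breg u z x₁ / 2, by positivity, fun x hx => ?_⟩
    by_contra hc
    have h1 : breg u z x₁ ≤ 1 := hz.1
    have h2 : breg u z x₁ ≤ breg u x x₁ :=
      hmin (⟨show breg u x x₁ ≤ 1 by linarith, not_lt.1 hc⟩ : x ∈ sec u x₁ 1 ∩ {x | ε ≤ f x})
    linarith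

lemma Dh_const_mul {f : E n → ℝ} {x : E n} (hf : ContDiffAt ℝ ∞ f x) (c : ℝ) :
    Dh u (fun y => c * f y) x = c * Dh u f x := by
  have h1 : fderiv ℝ (fun y => c * f y) x = c • fderiv ℝ f x :=
    ((diff_of_top hf).hasFDerivAt.const_mul c).fderiv
  rw [Dh, Dh, Lop_const_mul c (two_of_top hf), Gam, Gam, h1, gamB_smul_right]
  ring

lemma Dh_add_const {f : E n → ℝ} {x : E n} (hf : ContDiffAt ℝ ∞ f x) (c : ℝ) :
    Dh u (fun y => f y + c) x = Dh u f x := by
  rw [Dh, Dh, Lop_add (two_of_top hf) contDiffAt_const, Lop_const, Gam, Gam, fderiv_add_const,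
    add_zero]

lemma one (hn : 2 ≤ n) (hu : Nice u C c₁ C₁) {f : E n → ℝ} (hf : ContDiff ℝ ∞ f)
    (h0 : ∀ x, 0 ≤ f x) (h1 : ∀ x, f x ≤ 1) (hs : ∀ x, Dh u f x ≤ 0)
    (hinf : ∀ ε : ℝ, 0 < ε → ∃ x, f x < ε) {ε : ℝ} (hε : 0 < ε) :
    ∃ H₀ : ℝ, ∀ H : ℝ, H₀ ≤ H →
      ∫⁻ x, ENNReal.ofReal (f x * deriv stp (zeta u 0 1 x - 2 * Real.log H) *
          Gam u (zeta u 0 1) (zeta u 0 1) x) ≤ ENNReal.ofReal (ε * H ^ ((n : ℝ) / 2 - 1)) := by
  obtain ⟨K₁, hK₁, hker⟩ := hu.kernel hn
  obtain ⟨K₂, hK₂, hint⟩ := hu.lintegral_rpow hn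
  set ε' : ℝ := ε / (8 * K₁ * K₂) with hε'
  have hε0 : 0 < ε' := by positivity
  obtain ⟨x₁, hx₁⟩ := hinf ε' hε0
  obtain ⟨r, hr, hsec⟩ := exists_small_sec hu hf.continuous hx₁
  set p : ℝ := (n : ℝ) / 2 + 1 with hp
  have hp0 : 0 ≤ p := by positivity
  set η : ℝ := ε' * r / 2 ^ p with hη
  have hη0 : 0 < η := by positivity
  obtain ⟨H₀, hH₀, hcmp⟩ := hu.mass_compare hn x₁ hη0 (half_pos hε)
  refine ⟨H₀, fun H hH => ?_⟩
  have hH0 : 0 < H := by linarith
  have hm : ∀ a : ℝ, 0 < a → Measurable fun x => (breg u x x₁ + a) ^ (-p) := fun a _ =>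
    ((continuous_iff_continuousAt.2 fun x =>
      (cd_b hu x₁ x).continuousAt).measurable.add_const a).pow_const _
  have h2 : ∫⁻ x, ENNReal.ofReal (f x * (breg u x x₁ + η) ^ (-p)) ≤
      ENNReal.ofReal (ε' * (K₂ / η) + 2 ^ p * (K₂ / r)) := by
    have a1 := hint x₁ η hη0
    have a2 := hint x₁ r hr
    rw [← setLIntegral_univ] at a1 a2
    have a3 := lint_add_le ((hm η hη0).const_mul _) (by positivity) (by positivity)
      (lint_mul_le hε0.le a1) (lint_mul_le (c := 2 ^ p) (by positivity) a2)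
    rw [setLIntegral_univ] at a3
    refine le_trans (lintegral_mono fun x => ENNReal.ofReal_le_ofReal ?_) a3
    have b0 := b_nonneg hu x x₁
    have q1 : 0 ≤ (breg u x x₁ + η) ^ (-p) := by positivity
    have q2 : 0 ≤ 2 ^ p * (breg u x x₁ + r) ^ (-p) := by positivity
    rcases le_total (breg u x x₁) r with h | h
    · have := mul_le_mul_of_nonneg_right (hsec x h).le q1
      linarith
    · have e : 2 ^ p * (breg u x x₁ + r) ^ (-p) = ((breg u x x₁ + r) / 2) ^ (-p) := by
        rw [Real.div_rpow (by positivity) (by norm_num), Real.rpow_neg (show (0 : ℝ) ≤ 2 by norm_num)]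
        field_simp
      have q3 : (breg u x x₁ + η) ^ (-p) ≤ ((breg u x x₁ + r) / 2) ^ (-p) :=
        Real.rpow_le_rpow_of_nonpos (by positivity) (by linarith) (by linarith)
      have q4 := mul_le_mul_of_nonneg_right (h1 x) q1
      have q5 := mul_nonneg hε0.le q1
      linarith
  have h3 := (hker x₁ η hη0 (2 * Real.log H) f hf h0 hs).trans (mul_le_mul_right h2 _)
  refine (hcmp H hH f hf.continuous h0 h1).trans
    ((add_le_add (mul_le_mul_right h3 2) le_rfl).trans (le_of_eq ?_))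
  have e1 : Real.exp (((n : ℝ) - 2) / 4 * (2 * Real.log H)) = H ^ ((n : ℝ) / 2 - 1) := by
    rw [Real.rpow_def_of_pos hH0]
    congr 1
    ring
  rw [e1, ← ENNReal.ofReal_mul (by positivity), ← ENNReal.ofReal_ofNat 2,
    ← ENNReal.ofReal_mul (by norm_num), ← ENNReal.ofReal_add (by positivity) (by positivity)]
  congr 1
  have e2 : (2 : ℝ) ^ p * (K₂ / r) = ε' * (K₂ / η) := by
    rw [hη]
    field_simp
  rw [e2, hε']
  field_simp
  ring

end HarC

open HarC

theorem Nice.weak_harnack (hn : 2 ≤ n) (hu : Nice u C c₁ C₁) {ι : Type} [Fintype ι]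
    (f : ι → E n → ℝ) (hf : ∀ i, ContDiff ℝ ∞ (f i)) (h0 : ∀ i x, 0 ≤ f i x)
    (hb : ∀ i, ∃ M : ℝ, ∀ x, f i x ≤ M) (hs : ∀ i x, Dh u (f i) x ≤ 0)
    (hinf : ∀ i, ∀ ε : ℝ, 0 < ε → ∃ x, f i x < ε) {ε : ℝ} (hε : 0 < ε) :
    ∃ x, ∀ i, f i x < ε := by
  by_contra hcon
  push Not at hcon
  choose M hM using hb
  set A : ℝ := ∑ i, |M i| + 1 with hA
  have hA0 : 0 < A := by positivity
  have hMA : ∀ i x, f i x ≤ A := fun i x => by
    have := Finset.single_le_sum (f := fun i => |M i|) (fun i _ => abs_nonneg _) (Finset.mem_univ i)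
    linarith [hM i x, le_abs_self (M i)]
  obtain ⟨c, H₀, hc, hH₀, hlow⟩ := hu.mass_lower hn
  set m : ℝ := (Fintype.card ι : ℝ) with hm
  have hm0 : 0 ≤ m := by positivity
  have hone := fun i => one hn hu (f := fun x => A⁻¹ * f i x) (contDiff_const.mul (hf i))
    (fun x => mul_nonneg (by positivity) (h0 i x))
    (fun x => by rw [inv_mul_le_iff₀ hA0, mul_one]; exact hMA i x)
    (fun x => by
      rw [Dh_const_mul (hf i).contDiffAt]
      exact mul_nonpos_of_nonneg_of_nonpos (by positivity) (hs i x))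
    (fun δ hδ => by
      obtain ⟨x, hx⟩ := hinf i (A * δ) (by positivity)
      exact ⟨x, by rwa [inv_mul_lt_iff₀ hA0]⟩)
    (show 0 < A⁻¹ * ε * c / (m + 1) by positivity)
  choose H₁ hH₁ using hone
  set H : ℝ := ∑ i, |H₁ i| + H₀ with hH
  have hs0 : 0 ≤ ∑ i, |H₁ i| := by positivity
  have hH0 : 0 < H := by linarith
  have hHi : ∀ i, H₁ i ≤ H := fun i => by
    have := Finset.single_le_sum (f := fun i => |H₁ i|) (fun i _ => abs_nonneg _)
      (Finset.mem_univ i)
    linarith [le_abs_self (H₁ i)]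
  have ck := cont_ker hu 0 one_pos (2 * Real.log H)
  have hP : 0 < H ^ ((n : ℝ) / 2 - 1) := by positivity
  have key : ENNReal.ofReal (A⁻¹ * ε * (c * H ^ ((n : ℝ) / 2 - 1))) ≤
      ENNReal.ofReal (m * (A⁻¹ * ε * c / (m + 1) * H ^ ((n : ℝ) / 2 - 1))) := by
    calc ENNReal.ofReal (A⁻¹ * ε * (c * H ^ ((n : ℝ) / 2 - 1)))
        ≤ ENNReal.ofReal (A⁻¹ * ε) * ∫⁻ x, ENNReal.ofReal (deriv stp (zeta u 0 1 x -
            2 * Real.log H) * Gam u (zeta u 0 1) (zeta u 0 1) x) := by
          rw [ENNReal.ofReal_mul (by positivity)]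
          exact mul_le_mul_right (hlow H (by linarith)) _
      _ ≤ ∫⁻ x, ∑ i, ENNReal.ofReal (A⁻¹ * f i x * deriv stp (zeta u 0 1 x -
            2 * Real.log H) * Gam u (zeta u 0 1) (zeta u 0 1) x) := by
          rw [← lintegral_const_mul' _ _ ENNReal.ofReal_ne_top]
          refine lintegral_mono fun x => ?_
          obtain ⟨i, hi⟩ := hcon x
          refine le_trans ?_ (Finset.single_le_sum (f := fun i => ENNReal.ofReal
            (A⁻¹ * f i x * deriv stp (zeta u 0 1 x - 2 * Real.log H) *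
              Gam u (zeta u 0 1) (zeta u 0 1) x)) (fun i _ => zero_le) (Finset.mem_univ i))
          rw [← ENNReal.ofReal_mul (by positivity), mul_assoc (A⁻¹ * f i x)]
          refine ENNReal.ofReal_le_ofReal (mul_le_mul_of_nonneg_right
            (mul_le_mul_of_nonneg_left hi (by positivity)) ?_)
          exact mul_nonneg (dstp_nonneg _) (Gam_nonneg hu _ x)
      _ = ∑ i, ∫⁻ x, ENNReal.ofReal (A⁻¹ * f i x * deriv stp (zeta u 0 1 x -
            2 * Real.log H) * Gam u (zeta u 0 1) (zeta u 0 1) x) := by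
          refine lintegral_finsetSum _ fun i _ => ?_
          simp_rw [mul_assoc (A⁻¹ * f i _)]
          exact (((hf i).continuous.measurable.const_mul _).mul ck.measurable).ennreal_ofReal
      _ ≤ ∑ _i : ι, ENNReal.ofReal (A⁻¹ * ε * c / (m + 1) * H ^ ((n : ℝ) / 2 - 1)) :=
          Finset.sum_le_sum fun i _ => hH₁ i H (hHi i)
      _ = _ := by
          rw [Finset.sum_const, Finset.card_univ, nsmul_eq_mul, ENNReal.ofReal_mul hm0, hm,
            ENNReal.ofReal_natCast]
  rw [ENNReal.ofReal_le_ofReal_iff (by positivity)] at key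
  have e : m * (A⁻¹ * ε * c / (m + 1) * H ^ ((n : ℝ) / 2 - 1)) =
      m / (m + 1) * (A⁻¹ * ε * (c * H ^ ((n : ℝ) / 2 - 1))) := by ring
  have h3 : m / (m + 1) < 1 := by rw [div_lt_one (by positivity)]; linarith
  have h4 : 0 < A⁻¹ * ε * (c * H ^ ((n : ℝ) / 2 - 1)) := by positivity
  rw [e] at key
  nlinarith

/-- Liouville theorem for `ρ` -/
theorem Nice.hdet_const (hn : 2 ≤ n) (hu : Nice u C c₁ C₁) (x : E n) : hdet u x = hdet u 0 := by
  obtain ⟨M, hM⟩ := hu.abs_mu_le
  set ρ : E n → ℝ := fun y => Real.exp (mu u y) with hρ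
  have hρc : ContDiff ℝ ∞ ρ := contDiff_iff_contDiffAt.2 fun y => (cd_mu hu y).exp
  have hρ0 : ∀ y, Dh u ρ y = 0 := fun y => by
    have h1 : fderiv ℝ ρ y = Real.exp (mu u y) • fderiv ℝ (mu u) y :=
      (diff_of_top (cd_mu hu y)).hasFDerivAt.exp.fderiv
    rw [Dh, hρ, Lop_exp (two_of_top (cd_mu hu y)), hu.am.eqn y trivial, ← hρ, Gam, Gam, h1,
      gamB_smul_right]
    ring
  have hba : BddAbove (range ρ) :=
    ⟨Real.exp M, forall_mem_range.2 fun y => Real.exp_le_exp.2 (abs_le.1 (hM y)).2⟩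
  have hbb : BddBelow (range ρ) := ⟨0, forall_mem_range.2 fun y => (Real.exp_pos _).le⟩
  have hle : ∀ y, ρ y ≤ ⨆ z, ρ z := fun y => le_ciSup hba y
  have hge : ∀ y, ⨅ z, ρ z ≤ ρ y := fun y => ciInf_le hbb y
  have hmain : ∀ ε : ℝ, 0 < ε → (⨆ z, ρ z) - ⨅ z, ρ z < 2 * ε := fun ε hε => by
    obtain ⟨y, hy⟩ := hu.weak_harnack hn (ι := Bool)
      (fun i y => bif i then ρ y + -(⨅ z, ρ z) else (-1) * ρ y + ⨆ z, ρ z)
      (fun i => by
        cases i
        · exact (contDiff_const.mul hρc).add contDiff_const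
        · exact hρc.add contDiff_const)
      (fun i y => by
        cases i
        · simp only [cond_false]; linarith [hle y]
        · simp only [cond_true]; linarith [hge y])
      (fun i => ⟨(⨆ z, ρ z) - ⨅ z, ρ z, fun y => by
        cases i
        · simp only [cond_false]; linarith [hge y]
        · simp only [cond_true]; linarith [hle y]⟩)
      (fun i y => by
        cases i
        · simp only [cond_false]
          rw [Dh_add_const (contDiff_const.mul hρc).contDiffAt, Dh_const_mul hρc.contDiffAt, hρ0,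
            mul_zero]
        · simp only [cond_true]
          rw [Dh_add_const hρc.contDiffAt, hρ0])
      (fun i δ hδ => by
        cases i
        · obtain ⟨y, hy⟩ := exists_lt_of_lt_ciSup (f := ρ) (show (⨆ z, ρ z) - δ < _ by linarith)
          exact ⟨y, by simp only [cond_false]; linarith⟩
        · obtain ⟨y, hy⟩ := exists_lt_of_ciInf_lt (f := ρ) (show _ < (⨅ z, ρ z) + δ by linarith)
          exact ⟨y, by simp only [cond_true]; linarith⟩) hε
    have h1 := hy true
    have h2 := hy false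
    simp only [cond_true, cond_false] at h1 h2
    linarith
  have h5 : (⨆ z, ρ z) - ⨅ z, ρ z ≤ 0 := le_of_forall_pos_le_add fun ε hε => by
    linarith [hmain (ε / 2) (half_pos hε)]
  have h6 : mu u x = mu u 0 := Real.exp_injective
    (show ρ x = ρ 0 by linarith [hle x, hle 0, hge x, hge 0])
  have hN : (n : ℝ) + 2 ≠ 0 := by positivity
  rw [mu, mu, div_left_inj' hN, neg_inj] at h6
  exact Real.log_injOn_pos (hu.am.toCvx.hdet_pos trivial) (hu.am.toCvx.hdet_pos trivial) h6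

end Crest.Agent.R236

end
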