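import Crest.Agent.R236.Jrec
import Crest.Agent.R236.CapL
import Crest.Agent.R236.Norm

/-!
Quasi-symmetry of the Bregman distance.
-/

set_option autoImplicit false

open scoped ContDiff RealInnerProductSpace Topology
open MeasureTheory Set Filter
open Crest.GeometryTopology.CoordMetric Crest.GeometryTopology.AffineMaximal

noncomputable section

namespace Crest.Agent.R236

variable {n : ℕ}

namespace QuasiAux

/-- the cap function `b₁ / h + α / l` -/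
def fl (u : E n → ℝ) (x₀ x₁ : E n) (h : ℝ) (y : E n) (l : ℝ) (x : E n) : ℝ :=
  breg u x x₁ / h + alpha u x₀ h y x / l

variable {Ω : Set (E n)} {u : E n → ℝ} {x₀ x₁ y x : E n} {h l : ℝ}

lemma fl_eq (u : E n → ℝ) (x₀ x₁ y : E n) (hh : 0 < h) (hl : 0 < l) :
    ∃ (L : E n →L[ℝ] ℝ) (c : ℝ), fl u x₀ x₁ h y l = fun x => (1 + 1 / l) / h * u x + L x + c := by
  refine ⟨-(1 / h) • fderiv ℝ u x₁ - (1 / (l * h)) • (fderiv ℝ u x₀ + innerSL ℝ y),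
    (-u x₁ + fderiv ℝ u x₁ x₁) / h + (-u x₀ + fderiv ℝ u x₀ x₀ + ⟪y, x₀⟫ + 3 * h) / (l * h), ?_⟩
  funext x
  simp only [fl, alpha, breg, map_sub, inner_sub_right, sub_apply,
    smul_apply, add_apply, innerSL_apply_apply, smul_eq_mul]
  field_simp
  ring

lemma g_eq (u : E n → ℝ) (x₀ x₁ y : E n) (hh : 0 < h) :
    ∃ (L : E n →L[ℝ] ℝ) (c : ℝ), ∀ x, alpha u x₀ h y x - breg u x x₁ / h = L x + c := by
  refine ⟨(1 / h) • (fderiv ℝ u x₁ - fderiv ℝ u x₀ - innerSL ℝ y),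
    (u x₁ - fderiv ℝ u x₁ x₁ - u x₀ + fderiv ℝ u x₀ x₀ + ⟪y, x₀⟫ + 3 * h) / h, fun x => ?_⟩
  simp only [alpha, breg, map_sub, inner_sub_right, sub_apply,
    smul_apply, innerSL_apply_apply, smul_eq_mul]
  field_simp
  ring

lemma am_fl (hu : AM Ω u) (x₀ x₁ y : E n) (hh : 0 < h) (hl : 0 < l) :
    AM Ω (fl u x₀ x₁ h y l) := by
  obtain ⟨L, c, e⟩ := fl_eq u x₀ x₁ y hh hl
  rw [e]
  exact hu.tilt (by positivity) L c

lemma hdet_fl (hu : Cvx Ω u) (x₀ x₁ y : E n) (hh : 0 < h) (hl : 0 < l) (hx : x ∈ Ω) :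
    hdet (fl u x₀ x₁ h y l) x = ((1 + 1 / l) / h) ^ n * hdet u x := by
  obtain ⟨L, c, e⟩ := fl_eq u x₀ x₁ y hh hl
  rw [e]
  exact hdet_tilt (hu.at hx) _ L c

lemma breg_fl (hu : Cvx Ω u) (x₀ x₁ y : E n) (hh : 0 < h) (hl : 0 < l) (hx : x ∈ Ω) (z : E n) :
    breg (fl u x₀ x₁ h y l) z x = (1 + 1 / l) / h * breg u z x := by
  obtain ⟨L, c, e⟩ := fl_eq u x₀ x₁ y hh hl
  rw [e]
  exact breg_tilt (hu.at hx) _ L c z

lemma alpha_self (u : E n → ℝ) (x₀ y : E n) (hh : 0 < h) : alpha u x₀ h y x₀ = 3 := by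
  simp only [alpha, breg_self, sub_self, inner_zero_right, zero_add]
  field_simp

lemma isCap_fl (hu : AM Ω u) (hx₁ : x₁ ∈ Ω) (hh : 0 < h) (hl : 0 < l)
    (hα : ∀ x ∈ Ω, 1 ≤ alpha u x₀ h y x) (hlow : ∃ z ∈ Ω, fl u x₀ x₁ h y l z ≤ 2) :
    IsCap Ω (fl u x₀ x₁ h y l) := by
  have hf := (am_fl hu x₀ x₁ y hh hl).toCvx
  have h1 : ∀ x ∈ Ω, 0 ≤ alpha u x₀ h y x / l := fun x hx =>
    div_nonneg (zero_le_one.trans (hα x hx)) hl.le
  refine ⟨hf, fun x hx => add_nonneg (div_nonneg (hu.breg_nonneg hx hx₁) hh.le) (h1 x hx), hlow, ?_⟩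
  have hK := hu.proper x₁ hx₁ (10 * h)
  have h2 := hK.isClosed.isClosed_le (hf.continuousOn.mono fun x hx => hx.1)
    (continuousOn_const (c := (10 : ℝ)))
  convert hK.of_isClosed_subset h2 (sep_subset _ _) using 1
  ext x
  refine ⟨fun hx => ⟨⟨hx.1, ?_⟩, hx.2⟩, fun hx => ⟨hx.1.1, hx.2⟩⟩
  have h3 : breg u x x₁ / h + alpha u x₀ h y x / l ≤ 10 := hx.2
  rw [← div_le_iff₀ hh]
  linarith [h1 x hx.1]

lemma exists_q {c₁ C₂ C₃ C₄ C₅ a b : ℝ} (hc : 0 < c₁) (ha : 0 < a) (hb : 0 < b) :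
    ∃ q : ℝ, 0 < q ∧ q ≤ 1 / 2 ∧ C₄ * (C₅ * q) ^ b + C₂ * q + C₃ * q ^ a ≤ c₁ / 2 := by
  have h1 : ContinuousAt (fun q : ℝ => C₄ * (C₅ * q) ^ b + C₂ * q + C₃ * q ^ a) 0 := by
    refine ((continuousAt_const.mul ?_).add (by fun_prop)).add (continuousAt_const.mul ?_)
    · exact ContinuousAt.rpow_const (by fun_prop) (Or.inr hb.le)
    · exact ContinuousAt.rpow_const (by fun_prop) (Or.inr ha.le)
  have h2 : ∀ᶠ q in 𝓝 (0 : ℝ), C₄ * (C₅ * q) ^ b + C₂ * q + C₃ * q ^ a ≤ c₁ / 2 :=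
    h1.eventually_le_const (by simp [Real.zero_rpow ha.ne', Real.zero_rpow hb.ne', hc])
  have h3 : ∀ᶠ q in 𝓝 (0 : ℝ), q ≤ 1 / 2 := eventually_le_nhds (by norm_num)
  obtain ⟨q, hq⟩ := (((h3.and h2).filter_mono nhdsWithin_le_nhds).and
    (self_mem_nhdsWithin (s := Ioi (0 : ℝ)))).exists
  exact ⟨q, hq.2, hq.1.1, hq.1.2⟩

/-- the pointwise bound on the good set -/
lemma good_pt {α θ D Df s h q K V : ℝ} (hh : 0 < h) (hq : 0 < q) (hK : 0 < K) (hV : 0 < V)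
    (hD : 0 < D) (hs : 0 < s) (hs2 : s ≤ 2 / h) (hDf : Df = s ^ n * D) (hα : q * K ≤ α)
    (hθ : 0 < θ) (hθ' : θ ≤ 1 / q)
    (hw : q * V ^ (-2 / ((n : ℝ) + 2)) ≤ Df ^ (1 / ((n : ℝ) + 2))) :
    (q * K) ^ (1 / 100 : ℝ) * q ^ (2 / 100 + (n : ℝ) / 2) * ((h / 2) ^ ((n : ℝ) / 2) *
      (q ^ ((n : ℝ) / 2) * V ^ (-(n : ℝ) / ((n : ℝ) + 2)))) * Df ^ (1 / ((n : ℝ) + 2)) ≤
      α ^ (1 / 100 : ℝ) * θ ^ (-(2 / 100 + (n : ℝ) / 2)) * √D := by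
  have hN : (0 : ℝ) < n + 2 := by positivity
  have hDf0 : 0 < Df := by rw [hDf]; positivity
  have h1 : (q * K) ^ (1 / 100 : ℝ) ≤ α ^ (1 / 100 : ℝ) :=
    Real.rpow_le_rpow (by positivity) hα (by norm_num)
  have h2 : q ^ (2 / 100 + (n : ℝ) / 2) ≤ θ ^ (-(2 / 100 + (n : ℝ) / 2)) := by
    rw [Real.rpow_neg hθ.le, ← Real.inv_rpow hθ.le]
    exact Real.rpow_le_rpow hq.le ((le_inv_comm₀ hq hθ).2 (by rwa [← one_div])) (by positivity)
  have h3 : q ^ ((n : ℝ) / 2) * V ^ (-(n : ℝ) / ((n : ℝ) + 2)) ≤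
      (Df ^ (1 / ((n : ℝ) + 2))) ^ ((n : ℝ) / 2) := by
    refine le_trans (le_of_eq ?_) (Real.rpow_le_rpow (by positivity) hw (by positivity))
    rw [Real.mul_rpow hq.le (by positivity), ← Real.rpow_mul hV.le]
    congr 2
    field_simp
  have h4 : (Df ^ (1 / ((n : ℝ) + 2))) ^ ((n : ℝ) / 2) * Df ^ (1 / ((n : ℝ) + 2)) =
      s ^ ((n : ℝ) / 2) * √D := by
    rw [← Real.rpow_mul hDf0.le, ← Real.rpow_add hDf0,
      show 1 / ((n : ℝ) + 2) * ((n : ℝ) / 2) + 1 / ((n : ℝ) + 2) = 1 / 2 by field_simp, hDf,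
      Real.mul_rpow (by positivity) hD.le, Real.sqrt_eq_rpow, ← Real.rpow_natCast,
      ← Real.rpow_mul hs.le, mul_one_div]
  have h5 : (h / 2) ^ ((n : ℝ) / 2) * s ^ ((n : ℝ) / 2) ≤ 1 := by
    rw [← Real.mul_rpow (by positivity) hs.le]
    refine Real.rpow_le_one (by positivity) ?_ (by positivity)
    rw [le_div_iff₀ hh] at hs2
    linarith
  have h6 : (h / 2) ^ ((n : ℝ) / 2) * (q ^ ((n : ℝ) / 2) * V ^ (-(n : ℝ) / ((n : ℝ) + 2))) *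
      Df ^ (1 / ((n : ℝ) + 2)) ≤ √D := by
    calc _ ≤ (h / 2) ^ ((n : ℝ) / 2) * (Df ^ (1 / ((n : ℝ) + 2))) ^ ((n : ℝ) / 2) *
          Df ^ (1 / ((n : ℝ) + 2)) := by gcongr
      _ = (h / 2) ^ ((n : ℝ) / 2) * s ^ ((n : ℝ) / 2) * √D := by rw [mul_assoc, h4, mul_assoc]
      _ ≤ 1 * √D := by gcongr
      _ = √D := one_mul _
  rw [mul_assoc]
  have hα0 : 0 < α := lt_of_lt_of_le (by positivity) hα
  gcongr

/-- the volume of the smaller cap -/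
lemma capV_le {Cs q K : ℝ} (hCs0 : 0 < Cs)
    (hCs : ∀ D : Set (E n), IsCompact D → Convex ℝ D →
      (interior D).Nonempty → ∀ x₀ ∈ D, ∀ x₁ ∈ D, ∀ (L : E n →L[ℝ] ℝ) (a b : ℝ), a ≤ b →
      L x₀ < L x₁ → volume {x | x ∈ D ∧ a ≤ L x ∧ L x ≤ b} ≤
        ENNReal.ofReal (Cs * (b - a) / (L x₁ - L x₀)) * volume D)
    (hu : Cvx Ω u) (hx₀ : x₀ ∈ Ω) (hx₁ : x₁ ∈ Ω) (hh : 0 < h) (hb : breg u x₀ x₁ = h)
    (hα : ∀ x ∈ Ω, 1 ≤ alpha u x₀ h y x) (hK : alpha u x₀ h y x₁ = K) (hq : 0 < q)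
    (hq' : q ≤ 1 / 2) (hqK : 3 ≤ q * K) (hf : IsCap Ω (fl u x₀ x₁ h y K)) :
    capV Ω (fl u x₀ x₁ h y (q * K)) ≤ 20 * Cs * q * capV Ω (fl u x₀ x₁ h y K) := by
  have hK1 : 1 ≤ K := hK ▸ hα x₁ hx₁
  have hK6 : 6 ≤ K := by nlinarith
  obtain ⟨L, cg, hL⟩ := g_eq u x₀ x₁ y hh
  have e0 := hL x₀
  have e1 := hL x₁
  rw [alpha_self u x₀ y hh, hb, div_self hh.ne'] at e0
  rw [hK, breg_self, zero_div] at e1
  have m0 : x₀ ∈ sub Ω (fl u x₀ x₁ h y K) 10 := by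
    refine ⟨hx₀, ?_⟩
    rw [fl, alpha_self u x₀ y hh, hb, div_self hh.ne']
    have : 3 / K ≤ 3 := div_le_self (by norm_num) hK1
    linarith
  have m1 : x₁ ∈ sub Ω (fl u x₀ x₁ h y K) 10 := by
    refine ⟨hx₁, ?_⟩
    rw [fl, hK, breg_self, zero_div, div_self (by linarith)]
    norm_num
  have h1 := hCs _ hf.compact (hf.convex_sub 10) hf.interior_nonempty x₀ m0 x₁ m1 L (-10 - cg)
    (10 * (q * K) - cg) (by linarith) (by linarith)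
  have h2 : sub Ω (fl u x₀ x₁ h y (q * K)) 10 ⊆
      {x | x ∈ sub Ω (fl u x₀ x₁ h y K) 10 ∧ -10 - cg ≤ L x ∧ L x ≤ 10 * (q * K) - cg} := by
    intro x hx
    have h3 : breg u x x₁ / h + alpha u x₀ h y x / (q * K) ≤ 10 := hx.2
    have h4 := hα x hx.1
    have h5 : 0 ≤ breg u x x₁ / h := div_nonneg (hu.breg_nonneg hx.1 hx₁) hh.le
    have h6 : alpha u x₀ h y x / K ≤ alpha u x₀ h y x / (q * K) :=
      div_le_div_of_nonneg_left (by linarith) (by linarith) (by nlinarith)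
    have h7 : 0 ≤ alpha u x₀ h y x / (q * K) := div_nonneg (by linarith) (by linarith)
    have h8 : alpha u x₀ h y x ≤ 10 * (q * K) := by
      rw [← div_le_iff₀ (by linarith)]
      linarith
    have h9 := hL x
    refine ⟨⟨hx.1, ?_⟩, by linarith, by linarith⟩
    change breg u x x₁ / h + alpha u x₀ h y x / K ≤ 10
    linarith
  have h3 : Cs * (10 * (q * K) - cg - (-10 - cg)) / (L x₁ - L x₀) ≤ 20 * Cs * q := by
    rw [div_le_iff₀ (by linarith), show L x₁ - L x₀ = K - 2 by linarith]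
    have : 10 * (q * K) - cg - (-10 - cg) ≤ 20 * q * (K - 2) := by nlinarith
    nlinarith
  have h4 := ((measure_mono h2).trans h1).trans
    (mul_le_mul_left (ENNReal.ofReal_le_ofReal h3) _)
  rw [hf.volume_eq, ← ENNReal.ofReal_mul (by positivity)] at h4
  exact ENNReal.toReal_le_of_le_ofReal (mul_nonneg (by positivity) hf.capV_pos.le) h4

/-- the good set carries half of the mass -/
lemma good_mass {f : E n → ℝ} {c₁ C₂ C₃ B q : ℝ} {A₁ : Set (E n)} (hf : IsCap Ω f) (hx₀ : x₀ ∈ Ω)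
    (hq : 0 < q) (hB : 0 ≤ B) (hC₂ : 0 < C₂) (hC₃ : 0 < C₃) (hA₁ : MeasurableSet A₁)
    (h1 : ENNReal.ofReal (c₁ * capV Ω f ^ ((n : ℝ) / ((n : ℝ) + 2))) ≤
      ∫⁻ x in sub Ω f 8, ENNReal.ofReal (hdet f x ^ (1 / ((n : ℝ) + 2))))
    (h2 : ∫⁻ x in sub Ω f 9, ENNReal.ofReal (breg f x₀ x + 1) ≤ ENNReal.ofReal (C₂ * capV Ω f))
    (h3 : ∫⁻ x in {x | x ∈ sub Ω f 9 ∧ 1 / q ≤ breg f x₀ x + 1},
          ENNReal.ofReal (hdet f x ^ (1 / ((n : ℝ) + 2))) ≤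
        ENNReal.ofReal (C₃ * (1 / q) ^ (-(1 / (2 * ((n : ℝ) + 2)))) *
          capV Ω f ^ ((n : ℝ) / ((n : ℝ) + 2))))
    (h4 : ∫⁻ x in A₁, ENNReal.ofReal (hdet f x ^ (1 / ((n : ℝ) + 2))) ≤
      ENNReal.ofReal (B * capV Ω f ^ ((n : ℝ) / ((n : ℝ) + 2))))
    (hs : B + C₂ * q + C₃ * q ^ (1 / (2 * ((n : ℝ) + 2))) ≤ c₁ / 2) :
    ∃ G : Set (E n), MeasurableSet G ∧ (∀ x ∈ G, x ∈ sub Ω f 8 ∧ x ∉ A₁ ∧
      breg f x₀ x + 1 ≤ 1 / q ∧
      q * capV Ω f ^ (-2 / ((n : ℝ) + 2)) ≤ hdet f x ^ (1 / ((n : ℝ) + 2))) ∧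
      ENNReal.ofReal (c₁ / 2 * capV Ω f ^ ((n : ℝ) / ((n : ℝ) + 2))) ≤
        ∫⁻ x in G, ENNReal.ofReal (hdet f x ^ (1 / ((n : ℝ) + 2))) := by
  have hN : (0 : ℝ) < n + 2 := by positivity
  have hV := hf.capV_pos
  set V := capV Ω f
  set w : E n → ℝ := fun x => hdet f x ^ (1 / ((n : ℝ) + 2)) with hw
  set θ : E n → ℝ := fun x => breg f x₀ x + 1 with hθ
  have hc9 : IsClosed (sub Ω f 9) := (hf.isCompact_sub (by norm_num)).isClosed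
  have hc8 : IsClosed (sub Ω f 8) := (hf.isCompact_sub (by norm_num)).isClosed
  have cw : ContinuousOn w (sub Ω f 9) := fun x hx =>
    ((contDiffAt_hdet (hf.cvx.at hx.1)).continuousAt.rpow_const
      (Or.inr (by positivity))).continuousWithinAt
  have cθ : ContinuousOn θ (sub Ω f 9) := fun x hx =>
    ((contDiffAt_breg_right (hf.cvx.at hx.1) x₀).continuousAt.add
      continuousAt_const).continuousWithinAt
  have hθ1 : ∀ x ∈ Ω, 1 ≤ θ x := fun x hx => le_add_of_nonneg_left (hf.cvx.breg_nonneg hx₀ hx)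
  set A₂ : Set (E n) := {x ∈ sub Ω f 9 | w x ≤ q * V ^ (-2 / ((n : ℝ) + 2)) * θ x}
  set A₃ : Set (E n) := {x ∈ sub Ω f 9 | 1 / q ≤ θ x}
  have hA₂ : MeasurableSet A₂ := (hc9.isClosed_le cw (continuousOn_const.mul cθ)).measurableSet
  have hA₃ : MeasurableSet A₃ := (hc9.isClosed_le continuousOn_const cθ).measurableSet
  have h89 : sub Ω f 8 ⊆ sub Ω f 9 := fun x hx => ⟨hx.1, hx.2.trans (by norm_num)⟩
  refine ⟨sub Ω f 8 \ (A₁ ∪ A₂ ∪ A₃), hc8.measurableSet.diff ((hA₁.union hA₂).union hA₃),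
    fun x hx => ⟨hx.1, fun h => hx.2 (Or.inl (Or.inl h)), ?_, ?_⟩, ?_⟩
  · exact (not_le.1 fun h => hx.2 (Or.inr ⟨h89 hx.1, h⟩)).le
  · refine le_trans ?_ (not_le.1 fun h => hx.2 (Or.inl (Or.inr ⟨h89 hx.1, h⟩))).le
    exact le_mul_of_one_le_right (by positivity) (hθ1 x hx.1.1)
  have i2 : ∫⁻ x in A₂, ENNReal.ofReal (w x) ≤
      ENNReal.ofReal (C₂ * q * V ^ ((n : ℝ) / ((n : ℝ) + 2))) := by
    calc _ ≤ ∫⁻ x in A₂, ENNReal.ofReal (q * V ^ (-2 / ((n : ℝ) + 2))) * ENNReal.ofReal (θ x) :=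
          setLIntegral_mono' hA₂ fun x hx => by
            rw [← ENNReal.ofReal_mul (by positivity)]
            exact ENNReal.ofReal_le_ofReal hx.2
      _ ≤ ENNReal.ofReal (q * V ^ (-2 / ((n : ℝ) + 2))) * ENNReal.ofReal (C₂ * V) := by
          rw [lintegral_const_mul' _ _ ENNReal.ofReal_ne_top]
          exact mul_le_mul_right ((lintegral_mono_set (sep_subset _ _)).trans h2) _
      _ = _ := by
          rw [← ENNReal.ofReal_mul (by positivity),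
            show (n : ℝ) / ((n : ℝ) + 2) = -2 / ((n : ℝ) + 2) + 1 by field_simp; ring,
            Real.rpow_add hV, Real.rpow_one]
          congr 1
          ring
  have e3 : (1 / q) ^ (-(1 / (2 * ((n : ℝ) + 2)))) = q ^ (1 / (2 * ((n : ℝ) + 2))) := by
    rw [one_div q, Real.inv_rpow hq.le, Real.rpow_neg hq.le, inv_inv]
  rw [e3] at h3
  have hP : 0 < V ^ ((n : ℝ) / ((n : ℝ) + 2)) := by positivity
  have hq3 : 0 < q ^ (1 / (2 * ((n : ℝ) + 2))) := by positivity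
  have hc : 0 ≤ c₁ / 2 := le_trans (by positivity) hs
  have i : ∫⁻ x in A₁ ∪ A₂ ∪ A₃, ENNReal.ofReal (w x) ≤
      ENNReal.ofReal (c₁ / 2 * V ^ ((n : ℝ) / ((n : ℝ) + 2))) := by
    refine (lintegral_union_le _ _ _).trans ((add_le_add ((lintegral_union_le _ _ _).trans
      (add_le_add h4 i2)) h3).trans ?_)
    rw [← ENNReal.ofReal_add (by positivity) (by positivity),
      ← ENNReal.ofReal_add (by positivity) (by positivity), ← add_mul, ← add_mul]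
    exact ENNReal.ofReal_le_ofReal (mul_le_mul_of_nonneg_right hs hP.le)
  have j := (h1.trans (lintegral_mono_set (subset_sdiff_union _ (A₁ ∪ A₂ ∪ A₃)))).trans
    ((lintegral_union_le _ _ _).trans (add_le_add le_rfl i))
  rw [show c₁ * V ^ ((n : ℝ) / ((n : ℝ) + 2)) = c₁ / 2 * V ^ ((n : ℝ) / ((n : ℝ) + 2)) +
    c₁ / 2 * V ^ ((n : ℝ) / ((n : ℝ) + 2)) by ring,
    ENNReal.ofReal_add (by positivity) (by positivity)] at j
  exact (ENNReal.add_le_add_iff_right ENNReal.ofReal_ne_top).1 j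

end QuasiAux

open QuasiAux

theorem quasi (hn : 3 ≤ n) (hn' : n ≤ 9) : ∃ C : ℝ, 1 ≤ C ∧
    ∀ (Ω : Set (E n)) (u : E n → ℝ), AM Ω u → ∀ x ∈ Ω, ∀ y ∈ Ω,
      breg u x y ≤ C * breg u y x := by
  obtain ⟨c, C, hc, -, hC, hJ⟩ := jbound hn hn'
  obtain ⟨c₁, hc₁, hlb⟩ := cap_lb n
  obtain ⟨C₂, hC₂, he2⟩ := cap_e2 n
  obtain ⟨C₃, hC₃, he3⟩ := cap_e3 n
  obtain ⟨C₄, hC₄, hub⟩ := cap_ub n
  obtain ⟨Cs, hCs0, hCs⟩ := volume_slab n
  have hn0 : (0 : ℝ) < n := by exact_mod_cast (by omega : 0 < n)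
  have hN : (0 : ℝ) < n + 2 := by positivity
  obtain ⟨q, hq, hq', hs⟩ := exists_q (c₁ := c₁) (C₂ := C₂) (C₃ := C₃) (C₄ := C₄) (C₅ := 20 * Cs)
    (a := 1 / (2 * ((n : ℝ) + 2))) (b := (n : ℝ) / ((n : ℝ) + 2)) hc₁ (by positivity)
    (by positivity)
  set M : ℝ := q ^ (2 / 100 + (n : ℝ) / 2) * ((1 / 2) ^ ((n : ℝ) / 2) * q ^ ((n : ℝ) / 2)) *
    (c₁ / 2) with hM
  have hM0 : 0 < M := by positivity
  set K₀ : ℝ := max 3 ((C / M) ^ (100 : ℕ)) / q with hK₀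
  refine ⟨max 1 ((1 + c) / c * K₀), le_max_left _ _, fun Ω u hu x₁ hx₁ x₀ hx₀ => ?_⟩
  rcases eq_or_ne x₀ x₁ with rfl | hne
  · simp
  have hh : 0 < breg u x₀ x₁ := hu.breg_pos hx₀ hx₁ hne
  generalize hb : breg u x₀ x₁ = h at hh
  obtain ⟨y, T, hT, hj⟩ := hJ Ω u hu x₀ hx₀ h hh
  have hα : ∀ x ∈ Ω, 1 ≤ alpha u x₀ h y x := fun x hx => one_le_alpha hu.toCvx hx₀ hh hc hT hx
  have hge := alpha_ge hu.toCvx hx₀ hh hc hT hx₁
  have hK1 := hα x₁ hx₁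
  generalize hK : alpha u x₀ h y x₁ = K at hge hK1
  have hK0 : 0 < K := by linarith
  suffices H : K ≤ K₀ by
    have h1 : breg u x₁ x₀ / h ≤ (1 + c) / c * K₀ := by
      rw [div_mul_eq_mul_div, le_div_iff₀ hc]
      have h2 : c / (1 + c) * (breg u x₁ x₀ / h) ≤ K₀ := by linarith
      rw [div_mul_eq_mul_div, div_le_iff₀ (by positivity)] at h2
      linarith
    exact (div_le_iff₀ hh).1 (h1.trans (le_max_right _ _))
  rw [hK₀, le_div_iff₀ hq, mul_comm]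
  rcases le_total (q * K) 3 with hqK | hqK
  · exact hqK.trans (le_max_left _ _)
  refine le_trans ?_ (le_max_right _ _)
  have hqK0 : 0 < q * K := by positivity
  have hf : IsCap Ω (fl u x₀ x₁ h y K) := isCap_fl hu hx₁ hh hK0 hα ⟨x₁, hx₁, by
    rw [fl, hK, breg_self, zero_div, div_self hK0.ne']; norm_num⟩
  have hf1 : IsCap Ω (fl u x₀ x₁ h y (q * K)) := isCap_fl hu hx₁ hh hqK0 hα ⟨x₀, hx₀, by
    rw [fl, alpha_self u x₀ y hh, hb, div_self hh.ne']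
    linarith [(div_le_one hqK0).2 hqK]⟩
  have m0 : x₀ ∈ sub Ω (fl u x₀ x₁ h y K) 10 := by
    refine ⟨hx₀, ?_⟩
    rw [fl, alpha_self u x₀ y hh, hb, div_self hh.ne']
    linarith [div_le_self (by norm_num : (0 : ℝ) ≤ 3) hK1]
  have hV := hf.capV_pos
  have hV1 := capV_le hCs0 hCs hu.toCvx hx₀ hx₁ hh hb hα hK hq hq' hqK hf
  have hA₁ : MeasurableSet (sub Ω (fl u x₀ x₁ h y (q * K)) 9) :=
    (hf1.isCompact_sub (by norm_num)).isClosed.measurableSet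
  have h4 : ∫⁻ x in sub Ω (fl u x₀ x₁ h y (q * K)) 9,
      ENNReal.ofReal (hdet (fl u x₀ x₁ h y K) x ^ (1 / ((n : ℝ) + 2))) ≤
      ENNReal.ofReal (C₄ * (20 * Cs * q) ^ ((n : ℝ) / ((n : ℝ) + 2)) *
        capV Ω (fl u x₀ x₁ h y K) ^ ((n : ℝ) / ((n : ℝ) + 2))) := by
    refine (setLIntegral_mono' hA₁ fun x hx => ENNReal.ofReal_le_ofReal ?_).trans
      ((hub Ω _ hf1).trans (ENNReal.ofReal_le_ofReal ?_))
    · refine Real.rpow_le_rpow (hf.cvx.hdet_pos hx.1).le ?_ (by positivity)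
      rw [hdet_fl hu.toCvx x₀ x₁ y hh hK0 hx.1, hdet_fl hu.toCvx x₀ x₁ y hh hqK0 hx.1]
      have := (hu.hdet_pos hx.1).le
      gcongr
      nlinarith
    · rw [mul_assoc, ← Real.mul_rpow (by positivity) hV.le]
      exact mul_le_mul_of_nonneg_left
        (Real.rpow_le_rpow hf1.capV_pos.le hV1 (by positivity)) hC₄.le
  obtain ⟨G, hG, hGp, hGm⟩ := good_mass hf hx₀ hq (by positivity) hC₂ hC₃ hA₁
    (hlb Ω _ hf (am_fl hu x₀ x₁ y hh hK0)) (he2 Ω _ hf x₀ m0)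
    (he3 Ω _ hf x₀ m0 (1 / q) (by positivity)) h4 hs
  set V := capV Ω (fl u x₀ x₁ h y K)
  set P : ℝ := (q * K) ^ (1 / 100 : ℝ) * q ^ (2 / 100 + (n : ℝ) / 2) * ((h / 2) ^ ((n : ℝ) / 2) *
      (q ^ ((n : ℝ) / 2) * V ^ (-(n : ℝ) / ((n : ℝ) + 2)))) with hP
  have hP0 : 0 < P := by positivity
  have h5 : ENNReal.ofReal P * ENNReal.ofReal (c₁ / 2 * V ^ ((n : ℝ) / ((n : ℝ) + 2))) ≤
      ENNReal.ofReal (C * h ^ ((n : ℝ) / 2)) := by
    refine (mul_le_mul_right hGm _).trans ?_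
    rw [← lintegral_const_mul' _ _ ENNReal.ofReal_ne_top]
    refine (setLIntegral_mono' hG fun x hx => ?_).trans
      ((lintegral_mono_set fun x hx => (hGp x hx).1.1).trans hj)
    obtain ⟨⟨hx, g1⟩, g2, g3, g4⟩ := hGp x hx
    rw [← ENNReal.ofReal_mul hP0.le]
    have hK' : 1 / K ≤ 1 := (div_le_one hK0).2 hK1
    refine ENNReal.ofReal_le_ofReal (good_pt hh hq hK0 hV (hu.hdet_pos hx)
      (s := (1 + 1 / K) / h) (by positivity) (by gcongr; linarith)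
      (hdet_fl hu.toCvx x₀ x₁ y hh hK0 hx) ?_
      (zero_lt_one.trans_le (one_le_theta hu.toCvx hx₀ hh hx)) (le_trans ?_ g3) g4)
    · by_contra hlt
      refine g2 ⟨hx, ?_⟩
      have g5 : alpha u x₀ h y x / (q * K) ≤ 1 := (div_le_one hqK0).2 (not_le.1 hlt).le
      have g6 : 0 ≤ alpha u x₀ h y x / K := div_nonneg (by linarith [hα x hx]) hK0.le
      change breg u x x₁ / h + alpha u x₀ h y x / K ≤ 8 at g1
      change breg u x x₁ / h + alpha u x₀ h y x / (q * K) ≤ 9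
      linarith
    · rw [breg_fl hu.toCvx x₀ x₁ y hh hK0 hx, theta, add_div, div_self hh.ne', div_mul_eq_mul_div]
      have g5 := hu.breg_nonneg hx₀ hx
      gcongr
      exact le_mul_of_one_le_left g5 (le_add_of_nonneg_right (by positivity))
  rw [← ENNReal.ofReal_mul hP0.le, ENNReal.ofReal_le_ofReal_iff (by positivity)] at h5
  have h6 : P * (c₁ / 2 * V ^ ((n : ℝ) / ((n : ℝ) + 2))) =
      (q * K) ^ (1 / 100 : ℝ) * M * h ^ ((n : ℝ) / 2) := by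
    rw [hP, hM, neg_div, Real.rpow_neg hV.le, div_eq_mul_one_div h 2,
      Real.mul_rpow hh.le (by norm_num)]
    have : V ^ ((n : ℝ) / ((n : ℝ) + 2)) ≠ 0 := by positivity
    field_simp
  rw [h6] at h5
  have h7 : (q * K) ^ (1 / 100 : ℝ) ≤ C / M :=
    (le_div_iff₀ hM0).2 (le_of_mul_le_mul_right h5 (by positivity))
  calc q * K = ((q * K) ^ (1 / 100 : ℝ)) ^ (100 : ℕ) := by
        rw [← Real.rpow_natCast, ← Real.rpow_mul hqK0.le]; norm_num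
    _ ≤ _ := pow_le_pow_left₀ (by positivity) h7 _

end Crest.Agent.R236

end
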