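import Crest.Agent.R236.Pog
import Crest.Agent.R236.Har
import Crest.Agent.R236.Quasi

/-!
The theorem of Joergens, Calabi and Pogorelov in the present setting; conclusion.
-/

set_option autoImplicit false

open scoped ContDiff RealInnerProductSpace Topology
open MeasureTheory Set Filter
open Crest.GeometryTopology.CoordMetric Crest.GeometryTopology.AffineMaximal

noncomputable section

namespace Crest.Agent.R236

variable {n : ℕ}

variable {u : E n → ℝ} {C c₁ C₁ : ℝ}

namespace Fn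

open Pg

lemma psd_of {M : Matrix (Fin n) (Fin n) ℝ} (hM : M.IsHermitian)
    (h : ∀ v : E n, 0 ≤ caQ M v.ofLp v.ofLp) : M.PosSemidef :=
  Matrix.PosSemidef.of_dotProduct_mulVec_nonneg hM fun v => by
    have := h (WithLp.toLp 2 v)
    rwa [caQ_eq_dot] at this

lemma caQ_sub (A B : Matrix (Fin n) (Fin n) ℝ) (a b : Fin n → ℝ) :
    caQ (A - B) a b = caQ A a b - caQ B a b := by
  simp only [caQ, Matrix.sub_apply, sub_mul, Finset.sum_sub_distrib]

lemma caQ_smul (c : ℝ) (A : Matrix (Fin n) (Fin n) ℝ) (a b : Fin n → ℝ) :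
    caQ (c • A) a b = c * caQ A a b := by
  simp only [caQ, Matrix.smul_apply, smul_eq_mul, Finset.mul_sum, mul_assoc]

lemma caQ_one (v : E n) : caQ (1 : Matrix (Fin n) (Fin n) ℝ) v.ofLp v.ofLp = ‖v‖ ^ 2 := by
  rw [caQ_eq_dot, Matrix.one_mulVec, EuclideanSpace.real_norm_sq_eq]
  exact Finset.sum_congr rfl fun i _ => (sq _).symm

/-- an upper bound and a lower bound for the determinant give a lower bound -/
lemma lower_of_det {A : Matrix (Fin n) (Fin n) ℝ} (hA : A.PosDef) {K c₀ : ℝ} (hK : 0 < K)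
    (hc : 0 < c₀) (h : ∀ v : E n, caQ A v.ofLp v.ofLp ≤ K * ‖v‖ ^ 2) (hd : c₀ ≤ A.det) (v : E n) :
    K * ‖v‖ ^ 2 ≤ K ^ n / c₀ * caQ A v.ofLp v.ofLp := by
  have hB : (K • (1 : Matrix (Fin n) (Fin n) ℝ)).PosDef := Matrix.PosDef.one.smul hK
  have h1 : (K • (1 : Matrix (Fin n) (Fin n) ℝ) - A).PosSemidef :=
    psd_of (hB.isHermitian.sub hA.isHermitian) fun w => by
      rw [caQ_sub, caQ_smul, caQ_one]; linarith [h w]
  have h2 := le_of_det_le (C := K ^ n / c₀) hA hB h1 (by
    rw [Matrix.det_smul, Matrix.det_one, mul_one, Fintype.card_fin, div_mul_eq_mul_div,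
      le_div_iff₀ hc]
    exact mul_le_mul_of_nonneg_left hd (pow_pos hK n).le)
  have h3 := caQ_nonneg h2 v.ofLp
  rw [caQ_sub, caQ_smul, caQ_smul, caQ_one] at h3
  linarith

lemma hq_add_self (u : E n → ℝ) (x a b : E n) :
    hq u x (a + b) (a + b) = hq u x a a + hq u x a b + hq u x b a + hq u x b b := by
  simp only [hq, PiLp.add_apply, ← Finset.sum_add_distrib]
  exact Finset.sum_congr rfl fun i _ => Finset.sum_congr rfl fun j _ => by ring

end Fn

open Pg Fn

theorem Nice.hq_le (hn : 2 ≤ n) (hu : Nice u C c₁ C₁) :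
    ∃ M : ℝ, ∀ x e : E n, hq u x e e ≤ M * ‖e‖ ^ 2 := by
  obtain ⟨c, hc, -, hsec⟩ := sec_norm n C
  obtain ⟨c₀, C₀, hc₀, -, htw⟩ := tw_sec hn C hc
  obtain ⟨K, hK, hpog⟩ := pog n ((1 + C) / c)
  have hcv : Cvx univ u := hu.am.toCvx
  have hsm : ∀ y, ContDiffAt ℝ ∞ u y := fun y => hcv.at (mem_univ y)
  have hC := hu.qs.one_le
  refine ⟨K ^ n / c₀ * (hessianMat u 0).trace, fun x e => ?_⟩
  have hb := hcv.breg_nonneg (mem_univ x) (mem_univ 0)
  set h := 2 * breg u x 0 + 1 with hh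
  have h0 : 0 < h := by positivity
  obtain ⟨T, hT⟩ := hsec u hu.qs 0 h h0
  set v := aff u 0 T h⁻¹ (-(h⁻¹ • (fderiv ℝ u 0).comp (T : E n →L[ℝ] E n))) (-(h⁻¹ * u 0)) with hv
  have hvz : ∀ z, v z = h⁻¹ * breg u (T z) 0 := fun z => by
    simp only [hv, aff, breg, zero_add, sub_zero, neg_apply, smul_apply,
      ContinuousLinearMap.comp_apply, ContinuousLinearEquiv.coe_coe, smul_eq_mul]
    ring
  have hle : ∀ z, v z ≤ 1 ↔ T z ∈ sec u 0 h := fun z => by
    rw [hvz, inv_mul_le_iff₀ h0, mul_one]; rfl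
  have hcvv : Cvx univ v := by
    simpa using hcv.aff 0 T (inv_pos.2 h0) (-(h⁻¹ • (fderiv ℝ u 0).comp (T : E n →L[ℝ] E n)))
      (-(h⁻¹ * u 0))
  have hdet' : ∀ z, hdet v z = h⁻¹ ^ n * cdet T ^ 2 * hdet u 0 := fun z => by
    rw [hv, hdet_aff (hsm _), hu.hdet_const hn]
  have hhq : ∀ z a b, hq v z a b = h⁻¹ * hq u (T z) (T a) (T b) := fun z a b => by
    rw [hv, hq_aff (hsm _), zero_add]
  have hp := hpog v hcvv (fun z => by rw [hdet', hdet'])
    (by
      have : {z | v z ≤ 1} = T.toHomeomorph ⁻¹' sec u 0 h := Set.ext hle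
      rw [this]
      exact T.toHomeomorph.isCompact_preimage.2 (isCompact_sec hcv 0 h))
    (fun z => by
      rw [hvz]; exact mul_nonneg (inv_pos.2 h0).le (hcv.breg_nonneg (mem_univ _) (mem_univ _)))
    (fun z hz => by
      have h1 := norm_adj_gradient_le hu.qs hc hT ((hle z).1 hz)
      refine ContinuousLinearMap.opNorm_le_bound _ (by positivity) fun w => ?_
      have h2 : fderiv ℝ v z w = h⁻¹ * ⟪adj T (gradient u (T z) - gradient u 0), w⟫ := by
        rw [hv, fderiv_aff (hsm _), adj, ContinuousLinearMap.adjoint_inner_left, inner_sub_left,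
          inner_gradient, inner_gradient]
        simp only [zero_add, add_apply, neg_apply, smul_apply, ContinuousLinearMap.comp_apply,
          smul_eq_mul]
        ring
      rw [h2, norm_mul, Real.norm_eq_abs, abs_of_pos (inv_pos.2 h0), inv_mul_le_iff₀ h0]
      refine (norm_inner_le_norm _ _).trans ?_
      rw [← mul_assoc]
      refine mul_le_mul_of_nonneg_right ?_ (norm_nonneg _)
      rw [← mul_div_assoc, le_div_iff₀ hc]
      linarith)
  have hv0 : v 0 ≤ 1 / 2 := by rw [hvz, map_zero, breg_self, mul_zero]; norm_num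
  have hvx : v (T.symm x) ≤ 1 / 2 := by
    rw [hvz, T.apply_symm_apply, inv_mul_le_iff₀ h0]; linarith
  have hlow : c₀ ≤ (hessianMat v 0).det := by
    have h1 := (htw u hu.am hu.qs 0 h h0 T hT).2 0 (by rw [breg_self]; positivity)
    change c₀ ≤ hdet v 0
    rw [hdet', mul_assoc, inv_pow, le_inv_mul_iff₀ (pow_pos h0 n)]
    linarith
  have h1 := lower_of_det (hcvv.pos 0 (mem_univ _)) hK hc₀ (hp 0 hv0) hlow (T.symm e)
  have h2 := (hp _ hvx (T.symm e)).trans h1
  change hq v _ _ _ ≤ _ * hq v 0 (T.symm e) (T.symm e) at h2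
  rw [hhq, hhq, T.apply_symm_apply, T.apply_symm_apply, map_zero, mul_left_comm] at h2
  refine (le_of_mul_le_mul_left h2 (inv_pos.2 h0)).trans ?_
  rw [mul_assoc]
  exact mul_le_mul_of_nonneg_left (hq_le_trace (hcv.pos 0 (mem_univ _)) e) (by positivity)

theorem Nice.hess_const (hn : 2 ≤ n) (hu : Nice u C c₁ C₁) (x : E n) :
    hessianMat u x = hessianMat u 0 := by
  obtain ⟨M, hM⟩ := hu.hq_le hn
  have hcv : Cvx univ u := hu.am.toCvx
  have hsm : ∀ y, ContDiffAt ℝ ∞ u y := fun y => hcv.at (mem_univ y)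
  have hd := hu.hdet_const hn
  let Q : E n → ℝ := fun e => ⨆ y, hq u y e e
  have hbdd : ∀ e : E n, BddAbove (range fun y => hq u y e e) := fun e =>
    ⟨M * ‖e‖ ^ 2, by rintro _ ⟨y, rfl⟩; exact hM y e⟩
  have hQ : ∀ y e, hq u y e e ≤ Q e := fun y e => le_ciSup (hbdd e) y
  have happrox : ∀ {ι : Type} [Fintype ι] (d : ι → E n), ∃ y : ℕ → E n,
      ∀ i, Tendsto (fun k => hq u (y k) (d i) (d i)) atTop (𝓝 (Q (d i))) := by
    intro ι _ d
    have : ∀ k : ℕ, ∃ y, ∀ i, Q (d i) - hq u y (d i) (d i) < 1 / ((k : ℝ) + 1) := fun k => by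
      refine hu.weak_harnack hn (fun i y => Q (d i) - hq u y (d i) (d i))
        (fun i => contDiff_iff_contDiffAt.2 fun y => contDiffAt_const.sub (contDiffAt_hq (hsm y) _ _))
        (fun i y => sub_nonneg.2 (hQ _ _))
        (fun i => ⟨Q (d i), fun y => sub_le_self _ (hq_nonneg (hcv.pos y (mem_univ _)) _)⟩)
        (fun i y => ?_) (fun i ε hε => ?_) Nat.one_div_pos_of_nat
      · rw [Dh, Lop_sub contDiffAt_const (two_of_top (contDiffAt_hq (hsm y) _ _)), Lop_const,
          Lop_hq_const hcv hd, Gam, mu_const hd]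
        have := trace_sq_nonneg (hcv.pos y (mem_univ _)) (d3_symm (hsm y) (d i))
        simpa using this
      · obtain ⟨y, hy⟩ := exists_lt_of_lt_ciSup (f := fun y => hq u y (d i) (d i))
          (sub_lt_self (Q (d i)) hε)
        exact ⟨y, by linarith⟩
    choose y hy using this
    refine ⟨y, fun i => ?_⟩
    have h1 : Tendsto (fun k : ℕ => Q (d i) - 1 / ((k : ℝ) + 1)) atTop (𝓝 (Q (d i) - 0)) :=
      tendsto_const_nhds.sub tendsto_one_div_add_atTop_nhds_zero_nat
    rw [sub_zero] at h1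
    exact tendsto_of_tendsto_of_tendsto_of_le_of_le h1 tendsto_const_nhds
      (fun k => by have := hy k i; simp only; linarith) fun k => hQ _ _
  let B : Matrix (Fin n) (Fin n) ℝ := fun i j => (Q (eb i + eb j) - Q (eb i) - Q (eb j)) / 2
  have hseq : ∀ e : E n, ∃ y : ℕ → E n, Tendsto (fun k => hessianMat u (y k)) atTop (𝓝 B) ∧
      Tendsto (fun k => hq u (y k) e e) atTop (𝓝 (Q e)) := by
    intro e
    obtain ⟨y, hy⟩ := happrox (ι := Option (Fin n ⊕ Fin n × Fin n))
      fun o => o.elim e (Sum.elim eb fun p => eb p.1 + eb p.2)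
    refine ⟨y, tendsto_pi_nhds.2 fun i => tendsto_pi_nhds.2 fun j => ?_, hy none⟩
    have h1 := (((hy (some (.inr (i, j)))).sub (hy (some (.inl i)))).sub
      (hy (some (.inl j)))).div_const 2
    refine h1.congr fun k => ?_
    simp only [Option.elim, Sum.elim_inl, Sum.elim_inr, hq_add_self, hq_eb_eb]
    rw [hessianMat_symm (two_of_top (hsm _)) j i]
    ring
  have hBQ : ∀ e : E n, caQ B e.ofLp e.ofLp = Q e := by
    intro e
    obtain ⟨y, h1, h2⟩ := hseq e
    have hc : Continuous fun A : Matrix (Fin n) (Fin n) ℝ => caQ A e.ofLp e.ofLp := by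
      unfold caQ; fun_prop
    exact tendsto_nhds_unique ((hc.tendsto B).comp h1) h2
  have hBd : B.det = hdet u 0 := by
    obtain ⟨y, h1, -⟩ := hseq 0
    have hc : Continuous fun A : Matrix (Fin n) (Fin n) ℝ => A.det := continuous_id.matrix_det
    refine tendsto_nhds_unique ((hc.tendsto B).comp h1) (tendsto_const_nhds.congr fun k => ?_)
    exact (hd (y k)).symm
  have hBh : B.IsHermitian := by
    ext i j
    simp only [B, Matrix.conjTranspose_apply, star_trivial, add_comm (eb j) (eb i)]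
    ring
  have key : ∀ y, hessianMat u y = B := fun y =>
    eq_of_det_le (hcv.pos y (mem_univ _))
      (psd_of (hBh.sub (hcv.pos y (mem_univ _)).isHermitian) fun e => by
        rw [caQ_sub, hBQ]; exact sub_nonneg.2 (hQ y e))
      (by rw [hBd, ← hd y]; exact le_rfl)
  rw [key, key]

theorem bernstein (hn : 3 ≤ n) (hn' : n ≤ 9) {Ω : Set (E n)} (hne : Ω.Nonempty) (hu : AM Ω u) :
    Ω = univ ∧ ∀ x, hessianMat u x = hessianMat u 0 := by
  obtain ⟨C, hC, hq⟩ := quasi hn hn'
  have hΩ := eq_univ_of_quasi hu.toCvx hne (hq Ω u hu)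
  subst hΩ
  have hQ : QS u C := ⟨hu.toCvx, hC, fun x y => hq _ u hu x trivial y trivial⟩
  obtain ⟨c₁, C₁, hN⟩ := exists_nice (by omega) hu hQ
  exact ⟨rfl, hN.hess_const (by omega)⟩

end Crest.Agent.R236

end
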