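import Mathlib

/-!
Row 236: the real algebra behind the key inequality.
-/

set_option autoImplicit false

namespace Crest.Agent.R236

lemma quad3_nonneg {c₁ c₂ c₃ c₄ c₅ c₆ : ℝ} (h1 : 0 < c₁) (h2 : 0 < 4 * c₁ * c₄ - c₂ ^ 2)
    (h3 : 0 ≤ (4 * c₁ * c₄ - c₂ ^ 2) * (4 * c₁ * c₆ - c₃ ^ 2) - (2 * c₁ * c₅ - c₂ * c₃) ^ 2)
    (a b c : ℝ) :
    0 ≤ c₁ * a ^ 2 + c₂ * (a * b) + c₃ * (a * c) + c₄ * b ^ 2 + c₅ * (b * c) + c₆ * c ^ 2 := by
  have key : 4 * c₁ * (4 * c₁ * c₄ - c₂ ^ 2) *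
      (c₁ * a ^ 2 + c₂ * (a * b) + c₃ * (a * c) + c₄ * b ^ 2 + c₅ * (b * c) + c₆ * c ^ 2) =
      (4 * c₁ * c₄ - c₂ ^ 2) * (2 * c₁ * a + c₂ * b + c₃ * c) ^ 2 +
      ((4 * c₁ * c₄ - c₂ ^ 2) * b + (2 * c₁ * c₅ - c₂ * c₃) * c) ^ 2 +
      ((4 * c₁ * c₄ - c₂ ^ 2) * (4 * c₁ * c₆ - c₃ ^ 2) - (2 * c₁ * c₅ - c₂ * c₃) ^ 2) * c ^ 2 := by
    ring
  have hp : 0 < 4 * c₁ * (4 * c₁ * c₄ - c₂ ^ 2) := by positivity
  refine nonneg_of_mul_nonneg_right ?_ hp |> fun h => h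
  all_goals
    rw [key]
    positivity

/-- the six numbers form a Gram matrix -/
def IsGram (bb bm bl mm lm ll : ℝ) : Prop :=
  ∀ c₁ c₂ c₃ c₄ c₅ c₆ : ℝ, (∀ a b c : ℝ, 0 ≤ c₁ * a ^ 2 + c₂ * (a * b) + c₃ * (a * c) +
    c₄ * b ^ 2 + c₅ * (b * c) + c₆ * c ^ 2) →
    0 ≤ c₁ * bb + c₂ * bm + c₃ * bl + c₄ * mm + c₅ * lm + c₆ * ll

lemma IsGram.bb_nonneg {bb bm bl mm lm ll : ℝ} (h : IsGram bb bm bl mm lm ll) : 0 ≤ bb := by
  have := h 1 0 0 0 0 0 fun a b c => by nlinarith [sq_nonneg a]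
  linarith

lemma alg_one {n : ℕ} (hn : 3 ≤ n) (hn' : n ≤ 9) {bb bm bl mm lm ll R S T X r v : ℝ}
    (hG : IsGram bb bm bl mm lm ll) (hbl : bl = S + R - 4 * T) (hR : 0 ≤ R) (hS : 0 ≤ S)
    (hT : T ≤ R) (hX : 0 ≤ X) (hr : 0 ≤ r) (hv : 0 ≤ v) {p q Y g c₁ : ℝ}
    (hp : p = ((n : ℝ) + 2) / 2) (hq : q = -(((n : ℝ) - 2) / 2 + 2 / 100)) (hY : Y = 1 / 100 - X)
    (hg : g = ((n : ℝ) - 2) / n) (hc : c₁ = 2 * (1 + g) / ((n : ℝ) + 2)) :
    (1 + c₁ * X) * (r ^ 4 * ((n * R - bb) + p * bm + q * bl + Y * bb) - 4 * v * r ^ 3 * bb)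
      + 4 * c₁ * v * (r ^ 3 * ((n * R - bb) + p * bm + q * bl + (Y + 1) * bb) - 3 * v * r ^ 2 * bb)
      + (1 + g) * (r ^ 4 * (-((n : ℝ) + 1) * mm + p * mm + q * lm + Y * bm) - 4 * v * r ^ 3 * bm)
      + g * (r ^ 4 * ((n * S - ((n : ℝ) + 2) * lm - ll) + p * lm + q * ll + Y * bl)
        - 4 * v * r ^ 3 * bl)
      ≤ ((1 + X) * r ^ 4 + 4 * v * r ^ 3) * (-(1 / 10) * S + 31 * R) := by
  have hbb := hG.bb_nonneg
  have hQ : 0 ≤ (1 - 1 / 100) * bb + (-(((n : ℝ) + 2) / 2) - (1 / 100) * (1 + g)) * bm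
      + (-(((n : ℝ) - 2) / 2) - 1 / 10 - (1 / 100) * g + 2 / 100) * bl + ((n : ℝ) - 1) * mm
      + (3 * ((n : ℝ) - 2) / 2 + (2 / 100) * (1 + g)) * lm
      + (((n : ℝ) - 2) / 2 + (2 / 100) * g) * ll := by
    refine hG _ _ _ _ _ _ (quad3_nonneg ?_ ?_ ?_)
    · norm_num
    · rw [hg]; interval_cases n <;> norm_num
    · rw [hg]; interval_cases n <;> norm_num
  have hr4 : 0 ≤ r ^ 4 := by positivity
  have hz : 0 ≤ X * r ^ 4 + 4 * v * r ^ 3 := by positivity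
  have hw : 0 ≤ X ^ 2 * r ^ 4 + 8 * X * v * r ^ 3 + 12 * v ^ 2 * r ^ 2 + X * r ^ 4 := by positivity
  have h1 := mul_nonneg hr4 hQ
  have h2 := mul_nonneg hr4 (sub_nonneg.2 hT)
  have h3 := mul_nonneg hr4 hR
  have h4 := mul_nonneg hz hbb
  have h5 := mul_nonneg hw hbb
  have h6 := mul_nonneg hz hS
  have h7 := mul_nonneg hz hR
  have h8 := mul_nonneg hz (sub_nonneg.2 hT)
  subst hbl hp hq hY hc
  subst hg
  interval_cases n <;> push_cast at h1 ⊢ <;> linarith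

lemma alg_two {n : ℕ} (hn : 3 ≤ n) (hn' : n ≤ 9) {bb bm bl mm lm ll R S T X r v : ℝ}
    (hG : IsGram bb bm bl mm lm ll) (hbl : bl = S + R - 4 * T) (hS : 0 ≤ S)
    (hT : T ≤ S) (hX : 0 ≤ X) (hr : 0 ≤ r) (hv : 0 ≤ v) (hc : 4 * T ≤ S ∨ v ≤ r) {p q c : ℝ}
    (hp : p = ((n : ℝ) + 2) / 2) (hq : q = -(((n : ℝ) - 2) / 2 + 1 / 100))
    (hcL : c = 50 * ((n : ℝ) + 2) - 1) :
    (1 + 100 * X) * (r ^ 3 * ((n * R - bb) + p * bm + q * bl + -X * bb) - 3 * v * r ^ 2 * bb)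
      + 300 * v * (r ^ 2 * ((n * R - bb) + p * bm + q * bl + (-X + 1) * bb) - 2 * v * r * bb)
      + (1 + c) * (r ^ 3 * (-((n : ℝ) + 1) * mm + p * mm + q * lm + -X * bm) - 3 * v * r ^ 2 * bm)
      + c * (r ^ 3 * ((n * S - ((n : ℝ) + 2) * lm - ll) + p * lm + q * ll + -X * bl)
        - 3 * v * r ^ 2 * bl)
      ≤ r ^ 3 * (-R + (14000 + 2700 * X) * S) := by
  have hbb := hG.bb_nonneg
  have hQ : 0 ≤ 1 * bb + (-(((n : ℝ) + 2) / 2)) * bm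
      + (-(((n : ℝ) + 2) / 2) + 1 / 100 - 1) * bl + ((1 + c) * n / 2) * mm
      + ((1 + c) * (((n : ℝ) - 2) / 2 + 1 / 100) + c * (((n : ℝ) + 2) / 2)) * lm
      + (c * ((n : ℝ) / 2 + 1 / 100)) * ll := by
    refine hG _ _ _ _ _ _ (quad3_nonneg ?_ ?_ ?_)
    · norm_num
    · rw [hcL]; interval_cases n <;> norm_num
    · rw [hcL]; interval_cases n <;> norm_num
  have hr3 : 0 ≤ r ^ 3 := by positivity
  have hz : 0 ≤ X * r ^ 3 + 3 * v * r ^ 2 := by positivity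
  have hw : 0 ≤ (X ^ 2 + X) * r ^ 3 + 6 * X * v * r ^ 2 + 6 * v ^ 2 * r := by positivity
  have h9 : (X * r ^ 3 + 3 * v * r ^ 2) * (4 * T - S) ≤ r ^ 3 * (3 * (X + 3) * S) := by
    rcases hc with hc | hc
    · exact (mul_nonpos_of_nonneg_of_nonpos hz (by linarith)).trans (by positivity)
    · have h1 : X * r ^ 3 + 3 * v * r ^ 2 ≤ r ^ 3 * (X + 3) := by
        have := mul_le_mul_of_nonneg_right hc (sq_nonneg r)
        nlinarith
      calc (X * r ^ 3 + 3 * v * r ^ 2) * (4 * T - S) ≤ (X * r ^ 3 + 3 * v * r ^ 2) * (3 * S) :=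
            mul_le_mul_of_nonneg_left (by linarith) hz
        _ ≤ r ^ 3 * (X + 3) * (3 * S) := mul_le_mul_of_nonneg_right h1 (by positivity)
        _ = _ := by ring
  have h1 := mul_nonneg hr3 hQ
  have h2 := mul_nonneg hr3 (sub_nonneg.2 hT)
  have h3 := mul_nonneg hr3 hS
  have h4 := mul_nonneg hz hbb
  have h5 := mul_nonneg hw hbb
  have h6 := mul_nonneg (mul_nonneg hr3 hS) hX
  subst hbl hp hq hcL
  interval_cases n <;> push_cast at h1 ⊢ <;> linarith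

lemma alg_comb {e₁ e₂ E ρ R S X r v : ℝ} (hE : 0 ≤ E) (hρ : 0 ≤ ρ) (hR : 0 ≤ R) (hS : 0 ≤ S)
    (hX : 0 ≤ X) (hr : 0 ≤ r) (hr1 : r ≤ 1) (hv : 0 ≤ v) (hv1 : v ≤ 1)
    (hc : 620 * R ≤ S ∨ ρ ≤ 620)
    (h₁ : e₁ ≤ ((1 + X) * r ^ 4 + 4 * v * r ^ 3) * (-(1 / 10) * S + 31 * R))
    (h₂ : e₂ ≤ r ^ 3 * (-R + (14000 + 2700 * X) * S)) :
    E * ρ * e₁ + (31 * 620 * (5 + X)) * (E * e₂) ≤
      (31 * 620 * (5 + X) * (14000 + 2700 * X)) * (E * S) - (1 / 20) * (E * ρ * S * r ^ 4) := by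
  have hr3 : r ^ 3 ≤ 1 := pow_le_one₀ hr hr1
  have hr30 : 0 ≤ r ^ 3 := by positivity
  set A := (1 + X) * r ^ 4 + 4 * v * r ^ 3 with hA
  have hA0 : r ^ 4 ≤ A := by
    have : 0 ≤ X * r ^ 4 + 4 * v * r ^ 3 := by positivity
    rw [hA]; linarith
  have hA0' : 0 ≤ A := le_trans (by positivity) hA0
  have hA1 : A ≤ (5 + X) * r ^ 3 := by
    have h1 : r ^ 4 ≤ r ^ 3 := by
      calc r ^ 4 = r ^ 3 * r := by ring
        _ ≤ r ^ 3 * 1 := mul_le_mul_of_nonneg_left hr1 hr30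
        _ = _ := mul_one _
    have h2 := mul_le_mul_of_nonneg_left h1 (show 0 ≤ 1 + X by linarith)
    have h3 := mul_le_mul_of_nonneg_right hv1 hr30
    rw [hA]; nlinarith
  have h3 : ρ * e₁ ≤ -(1 / 20) * (ρ * S * r ^ 4) + 31 * 620 * (5 + X) * (r ^ 3 * R) := by
    have h4 : ρ * e₁ ≤ ρ * (A * (-(1 / 10) * S + 31 * R)) := mul_le_mul_of_nonneg_left h₁ hρ
    have h5 : ρ * S * r ^ 4 ≤ ρ * S * A := mul_le_mul_of_nonneg_left hA0 (by positivity)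
    have h6 : 0 ≤ 31 * 620 * (5 + X) * (r ^ 3 * R) := by positivity
    rcases hc with hc | hc
    · have h7 : ρ * A * (620 * R) ≤ ρ * A * S := mul_le_mul_of_nonneg_left hc (by positivity)
      nlinarith
    · have h7 : ρ * (A * R) ≤ 620 * ((5 + X) * r ^ 3 * R) :=
        mul_le_mul hc (mul_le_mul_of_nonneg_right hA1 hR) (by positivity) (by norm_num)
      have h8 : 0 ≤ ρ * S * A := by positivity
      nlinarith
  have h4 : e₂ ≤ -(r ^ 3 * R) + (14000 + 2700 * X) * S := by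
    have : r ^ 3 * ((14000 + 2700 * X) * S) ≤ 1 * ((14000 + 2700 * X) * S) :=
      mul_le_mul_of_nonneg_right hr3 (by positivity)
    nlinarith
  have h5 := mul_le_mul_of_nonneg_left h3 hE
  have h6 := mul_le_mul_of_nonneg_left h4 (show 0 ≤ 31 * 620 * (5 + X) * E by positivity)
  nlinarith

/-- powers of the positive part are differentiable -/
lemma hasDerivAt_max_pow (m : ℕ) (s : ℝ) :
    HasDerivAt (fun t : ℝ => max t 0 ^ (m + 2)) (((m : ℝ) + 2) * max s 0 ^ (m + 1)) s := by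
  rcases lt_trichotomy s 0 with hs | hs | hs
  · have : (fun t : ℝ => max t 0 ^ (m + 2)) =ᶠ[nhds s] fun _ => 0 := by
      filter_upwards [gt_mem_nhds hs] with t ht
      simp [max_eq_right ht.le]
    rw [max_eq_right hs.le]
    simpa using (hasDerivAt_const s (0 : ℝ)).congr_of_eventuallyEq this
  · subst hs
    rw [hasDerivAt_iff_isLittleO_nhds_zero]
    simp only [zero_add, max_self, ne_eq, Nat.add_eq_zero_iff, OfNat.ofNat_ne_zero, and_false,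
      not_false_eq_true, zero_pow, sub_zero, one_ne_zero, mul_zero, smul_zero]
    have h1 : (fun t : ℝ => max t 0 ^ (m + 2)) =O[nhds 0] fun t : ℝ => t ^ (m + 2) := by
      refine Asymptotics.IsBigO.of_bound 1 (Filter.Eventually.of_forall fun t => ?_)
      rw [one_mul, norm_pow, norm_pow]
      refine pow_le_pow_left₀ (norm_nonneg _) ?_ _
      rw [Real.norm_eq_abs, Real.norm_eq_abs, abs_of_nonneg (le_max_right _ _)]
      exact max_le (le_abs_self t) (abs_nonneg t)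
    exact h1.trans_isLittleO (Asymptotics.isLittleO_pow_id (by omega))
  · have : (fun t : ℝ => max t 0 ^ (m + 2)) =ᶠ[nhds s] fun t => t ^ (m + 2) := by
      filter_upwards [lt_mem_nhds hs] with t ht
      simp [max_eq_left ht.le]
    rw [max_eq_left hs.le]
    have h := (hasDerivAt_pow (m + 2) s).congr_of_eventuallyEq this
    simpa using h

lemma contDiff_max_pow (m : ℕ) : ContDiff ℝ 1 fun t : ℝ => max t 0 ^ (m + 2) := by
  rw [contDiff_one_iff_deriv]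
  refine ⟨fun s => (hasDerivAt_max_pow m s).differentiableAt, ?_⟩
  have : deriv (fun t : ℝ => max t 0 ^ (m + 2)) = fun s => ((m : ℝ) + 2) * max s 0 ^ (m + 1) :=
    funext fun s => (hasDerivAt_max_pow m s).deriv
  rw [this]
  fun_prop

end Crest.Agent.R236
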