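import Crest.Agent.R236.Conv
import Crest.Agent.R236.KeyAlg

/-!
Energy estimates on sections: weighted integration by parts with a polynomial cut-off.
-/

set_option autoImplicit false

open scoped ContDiff RealInnerProductSpace Topology
open MeasureTheory Set Filter
open Crest.GeometryTopology.CoordMetric Crest.GeometryTopology.AffineMaximal

noncomputable section

namespace Crest.Agent.R236

namespace HA

variable {n : ℕ} {u : E n → ℝ}

/-- From an integral identity and a pointwise inequality to an integral bound. -/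
lemma master {K S : Set (E n)} (hK : MeasurableSet K) (hS : MeasurableSet S) (hSK : S ⊆ K)
    {F A B : E n → ℝ} (hF : IntegrableOn F K) (hF0 : ∫ x in K, F x = 0) (hB : IntegrableOn B K)
    (hB0 : ∀ x ∈ K, 0 ≤ B x) {α β I : ℝ} (hα : 0 < α) (hβ : 0 ≤ β)
    (hI : ∫⁻ x in K, ENNReal.ofReal (B x) ≤ ENNReal.ofReal I)
    (h1 : ∀ x ∈ K, 0 ≤ F x + β * B x) (h2 : ∀ x ∈ S, α * A x ≤ F x + β * B x) :
    ∫⁻ x in S, ENNReal.ofReal (A x) ≤ ENNReal.ofReal (β / α * I) := by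
  have hi : IntegrableOn (fun x => α⁻¹ * (F x + β * B x)) K :=
    (hF.add (hB.const_mul β)).const_mul α⁻¹
  calc ∫⁻ x in S, ENNReal.ofReal (A x)
      ≤ ∫⁻ x in S, ENNReal.ofReal (α⁻¹ * (F x + β * B x)) := by
        refine setLIntegral_mono' hS fun x hx => ENNReal.ofReal_le_ofReal ?_
        rw [le_inv_mul_iff₀ hα]
        exact h2 x hx
    _ ≤ ∫⁻ x in K, ENNReal.ofReal (α⁻¹ * (F x + β * B x)) := lintegral_mono_set hSK
    _ = ENNReal.ofReal (∫ x in K, α⁻¹ * (F x + β * B x)) := by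
        refine (ofReal_integral_eq_lintegral_ofReal hi ?_).symm
        exact (ae_restrict_iff' hK).2 (Eventually.of_forall fun x hx =>
          mul_nonneg (inv_nonneg.2 hα.le) (h1 x hx))
    _ = ENNReal.ofReal (β / α) * ENNReal.ofReal (∫ x in K, B x) := by
        rw [integral_const_mul, integral_add hF (hB.const_mul β), hF0, integral_const_mul,
          ← ENNReal.ofReal_mul (div_nonneg hβ hα.le)]
        congr 1
        ring
    _ ≤ ENNReal.ofReal (β / α) * ENNReal.ofReal I := by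
        rw [ofReal_integral_eq_lintegral_ofReal hB
          ((ae_restrict_iff' hK).2 (Eventually.of_forall hB0))]
        exact mul_le_mul_right hI _
    _ = ENNReal.ofReal (β / α * I) := (ENNReal.ofReal_mul (div_nonneg hβ hα.le)).symm

/-- the weight `det · ρ^θ` -/
def wt (u : E n → ℝ) (θ : ℝ) (y : E n) : ℝ := hdet u y * Real.exp (θ * mu u y)

/-- the integrand of the weighted identity -/
def FF (u : E n → ℝ) (θ a : ℝ) (k g f : E n → ℝ) (y : E n) : ℝ :=
  wt u θ y * (max (a - k y) 0 ^ 2 * g y * (Lop u f y + θ * Gam u (mu u) f y)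
    + max (a - k y) 0 ^ 2 * Gam u g f y - 2 * max (a - k y) 0 * g y * Gam u k f y)

lemma wibp (hu : Cvx univ u) {K : Set (E n)} (hK : IsCompact K) (θ a : ℝ) {k g f : E n → ℝ}
    (hk : ∀ y, ContDiffAt ℝ ∞ k y) (hg : ∀ y, ContDiffAt ℝ ∞ g y) (hf : ∀ y, ContDiffAt ℝ ∞ f y)
    (h0 : ∀ y, y ∉ K → a ≤ k y) :
    IntegrableOn (FF u θ a k g f) K ∧ ∫ y in K, FF u θ a k g f y = 0 := by
  have hm : ∀ y, ContDiffAt ℝ ∞ (mu u) y := fun y =>
    contDiffAt_mu (hu.at (mem_univ y)) (hu.pos y (mem_univ y))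
  set φ : E n → ℝ := fun y => Real.exp (θ * mu u y) * (max (a - k y) 0 ^ (0 + 2) * g y) with hφ
  have hφ1 : ContDiffOn ℝ 1 φ univ := fun y _ =>
    ((one_of_top (contDiffAt_const.mul (hm y)).exp).mul
      (((contDiff_max_pow 0).contDiffAt.comp y (one_of_top (contDiffAt_const.sub (hk y)))).mul
        (one_of_top (hg y)))).contDiffWithinAt
  have hf2 : ContDiffOn ℝ 2 f univ := fun y _ => (two_of_top (hf y)).contDiffWithinAt
  have e : FF u θ a k g f = fun y => hdet u y * (φ y * Lop u f y + Gam u φ f y) := by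
    funext y
    have d1 := (diff_of_top (hm y)).hasFDerivAt
    have d2 := (diff_of_top (hk y)).hasFDerivAt
    have d3 := (diff_of_top (hg y)).hasFDerivAt
    have d4 := (diff_of_top (hf y)).hasFDerivAt
    have d5 := ((d1.const_mul θ).exp).fun_mul
      (((hasDerivAt_max_pow 0 (a - k y)).comp_hasFDerivAt y (d2.const_sub a)).fun_mul d3)
    have d6 : Gam u φ f y = _ := Gam_eq d5 d4
    rw [d6]
    simp only [gamB_add_left, gamB_smul_left, gamB_neg_left, FF, wt, Gam, hφ, Function.comp_apply,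
      Nat.cast_zero, zero_add]
    ring
  rw [e]
  refine ⟨ibp_integrableOn hu isOpen_univ subset_rfl hK (subset_univ _) hφ1 hf2,
    ibp hu isOpen_univ subset_rfl hK (subset_univ _) hφ1 hf2 fun y _ hy => Or.inl ?_⟩
  simp only [hφ, max_eq_right (sub_nonpos.2 (h0 y hy))]
  simp

lemma Gam_one_left (f : E n → ℝ) (y : E n) : Gam u (fun _ => (1 : ℝ)) f y = 0 := by
  simp [Gam]

lemma integrableOn_Gam (hu : Cvx univ u) {K : Set (E n)} (hK : IsCompact K) {k : E n → ℝ}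
    (hk : ∀ y, ContDiffAt ℝ ∞ k y) : IntegrableOn (Gam u k k) K :=
  ContinuousOn.integrableOn_compact hK fun y _ =>
    (continuousAt_Gam (hu.at (mem_univ y)) (hu.pos y (mem_univ y)) (one_of_top (hk y))
      (one_of_top (hk y))).continuousWithinAt

variable {K S : Set (E n)} {θ w₁ w₂ a I : ℝ} {k g : E n → ℝ}

/-- energy of a function with `𝓛_θ k = n` -/
lemma level (hu : Cvx univ u) (hK : IsCompact K) (hS : MeasurableSet S) (hSK : S ⊆ K)
    (hw₁ : 0 < w₁) (hl : ∀ y, w₁ ≤ wt u θ y) (hr : ∀ y, wt u θ y ≤ w₂)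
    (hk : ∀ y, ContDiffAt ℝ ∞ k y) (hL : ∀ y, Lop u k y + θ * Gam u (mu u) k y = n)
    (hk0 : ∀ y, 0 ≤ k y) (ha : 0 < a) (h0 : ∀ y, y ∉ K → 2 * a ≤ k y) (h1 : ∀ y ∈ S, k y ≤ a)
    (hI : volume K ≤ ENNReal.ofReal I) :
    ∫⁻ y in S, ENNReal.ofReal (Gam u k k y) ≤ ENNReal.ofReal (2 * n * (w₂ / w₁) * a * I) := by
  obtain ⟨hi, hz⟩ := wibp hu hK θ (2 * a) hk (g := fun _ => 1) (fun _ => contDiffAt_const) hk h0
  have hw₂ : 0 < w₂ := hw₁.trans_le ((hl 0).trans (hr 0))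
  have key : ∀ y, 2 * wt u θ y * max (2 * a - k y) 0 * Gam u k k y ≤
      -FF u θ (2 * a) k (fun _ => 1) k y + w₂ * (2 * a) ^ 2 * n * 1 := by
    intro y
    have hP0 : 0 ≤ max (2 * a - k y) 0 := le_max_right _ _
    have hP1 : max (2 * a - k y) 0 ≤ 2 * a := max_le (by linarith [hk0 y]) (by linarith)
    have h2 : wt u θ y * max (2 * a - k y) 0 ^ 2 * n ≤ w₂ * (2 * a) ^ 2 * n :=
      mul_le_mul_of_nonneg_right (mul_le_mul (hr y) (pow_le_pow_left₀ hP0 hP1 2) (by positivity)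
        hw₂.le) (Nat.cast_nonneg n)
    simp only [FF, hL, Gam_one_left]
    linarith
  have hG : ∀ y, 0 ≤ Gam u k k y := fun y => gamB_nonneg (hu.pos y (mem_univ y)) _
  have := master (A := Gam u k k) (B := fun _ => (1 : ℝ)) (α := 2 * w₁ * a)
    (β := w₂ * (2 * a) ^ 2 * n) (I := I) hK.measurableSet hS hSK hi.neg
    (by simp only [Pi.neg_apply]; rw [integral_neg, hz, neg_zero])
    (integrableOn_const hK.measure_lt_top.ne) (fun _ _ => zero_le_one) (by positivity)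
    (by positivity) (by simpa using hI) (fun y _ => le_trans ?_ (key y))
    (fun y hy => le_trans ?_ (key y))
  · refine this.trans_eq ?_
    congr 1
    field_simp
  · exact mul_nonneg (mul_nonneg (mul_nonneg zero_le_two (hw₁.le.trans (hl y)))
      (le_max_right _ _)) (hG y)
  · refine mul_le_mul_of_nonneg_right ?_ (hG y)
    have h2 : a ≤ max (2 * a - k y) 0 := le_max_of_le_left (by linarith [h1 y hy])
    exact mul_le_mul (mul_le_mul_of_nonneg_left (hl y) zero_le_two) h2 ha.le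
      (mul_nonneg zero_le_two (hw₁.le.trans (hl y)))

/-- Caccioppoli inequality for `𝓛_θ g = 0` -/
lemma harm (hu : Cvx univ u) (hK : IsCompact K) (hS : MeasurableSet S) (hSK : S ⊆ K)
    (hw₁ : 0 < w₁) (hl : ∀ y, w₁ ≤ wt u θ y) (hr : ∀ y, wt u θ y ≤ w₂)
    (hk : ∀ y, ContDiffAt ℝ ∞ k y) (hg : ∀ y, ContDiffAt ℝ ∞ g y)
    (hL : ∀ y, Lop u g y + θ * Gam u (mu u) g y = 0) {m : ℝ} (hm : ∀ y ∈ K, |g y| ≤ m)
    (ha : 0 < a) (h0 : ∀ y, y ∉ K → 2 * a ≤ k y) (h1 : ∀ y ∈ S, k y ≤ a)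
    (hI : ∫⁻ y in K, ENNReal.ofReal (Gam u k k y) ≤ ENNReal.ofReal I) :
    ∫⁻ y in S, ENNReal.ofReal (Gam u g g y) ≤
      ENNReal.ofReal (4 * (w₂ / w₁) * m ^ 2 / a ^ 2 * I) := by
  obtain ⟨hi, hz⟩ := wibp hu hK θ (2 * a) hk hg hg h0
  have hw₂ : 0 < w₂ := hw₁.trans_le ((hl 0).trans (hr 0))
  have hG : ∀ (f : E n → ℝ) y, 0 ≤ Gam u f f y := fun f y => gamB_nonneg (hu.pos y (mem_univ y)) _
  have key : ∀ y ∈ K, 1 / 2 * wt u θ y * max (2 * a - k y) 0 ^ 2 * Gam u g g y ≤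
      FF u θ (2 * a) k g g y + 2 * w₂ * m ^ 2 * Gam u k k y := by
    intro y hy
    have hW : 0 ≤ wt u θ y := hw₁.le.trans (hl y)
    have h2 := gamB_nonneg (hu.pos y (mem_univ y))
      (max (2 * a - k y) 0 • fderiv ℝ g y - (2 * g y) • fderiv ℝ k y)
    simp only [gamB_sub_left, gamB_sub_right, gamB_smul_left, gamB_smul_right] at h2
    rw [gamB_comm (hu.pos y (mem_univ y)) (fderiv ℝ g y) (fderiv ℝ k y)] at h2
    have h3 := mul_nonneg hW h2
    have h4 : wt u θ y * g y ^ 2 * Gam u k k y ≤ w₂ * m ^ 2 * Gam u k k y :=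
      mul_le_mul_of_nonneg_right (mul_le_mul (hr y) (sq_le_sq' (abs_le.1 (hm y hy)).1
        (abs_le.1 (hm y hy)).2) (sq_nonneg _) hw₂.le) (hG k y)
    simp only [FF, hL]
    simp only [Gam] at h4 ⊢
    linarith
  have := master (A := Gam u g g) (B := Gam u k k) (α := 1 / 2 * w₁ * a ^ 2)
    (β := 2 * w₂ * m ^ 2) (I := I) hK.measurableSet hS hSK hi hz (integrableOn_Gam hu hK hk)
    (fun y _ => hG k y) (by positivity) (by positivity) hI (fun y hy => le_trans ?_ (key y hy))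
    (fun y hy => le_trans ?_ (key y (hSK hy)))
  · refine this.trans_eq ?_
    congr 1
    field_simp
    ring
  · exact mul_nonneg (mul_nonneg (mul_nonneg (by norm_num) (hw₁.le.trans (hl y)))
      (sq_nonneg _)) (hG g y)
  · refine mul_le_mul_of_nonneg_right ?_ (hG g y)
    have h2 : a ≤ max (2 * a - k y) 0 := le_max_of_le_left (by linarith [h1 y hy])
    exact mul_le_mul (mul_le_mul_of_nonneg_left (hl y) (by norm_num))
      (pow_le_pow_left₀ ha.le h2 2) (sq_nonneg _)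
      (mul_nonneg (by norm_num) (hw₁.le.trans (hl y)))

/-- Caccioppoli inequality for `μ` -/
lemma muE (hn : 1 ≤ n) (hu : AM univ u) (hK : IsCompact K) (hS : MeasurableSet S) (hSK : S ⊆ K)
    (hw₁ : 0 < w₁) (hl : ∀ y, w₁ ≤ wt u 0 y) (hr : ∀ y, wt u 0 y ≤ w₂)
    (hk : ∀ y, ContDiffAt ℝ ∞ k y)
    (ha : 0 < a) (h0 : ∀ y, y ∉ K → 2 * a ≤ k y) (h1 : ∀ y ∈ S, k y ≤ a)
    (hI : ∫⁻ y in K, ENNReal.ofReal (Gam u k k y) ≤ ENNReal.ofReal I) :
    ∫⁻ y in S, ENNReal.ofReal (Gam u (mu u) (mu u) y) ≤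
      ENNReal.ofReal (w₂ / w₁ / a ^ 2 * I) := by
  have hc := hu.toCvx
  have hm : ∀ y, ContDiffAt ℝ ∞ (mu u) y := fun y =>
    contDiffAt_mu (hc.at (mem_univ y)) (hc.pos y (mem_univ y))
  obtain ⟨hi, hz⟩ := wibp hc hK 0 (2 * a) hk (g := fun _ => 1) (fun _ => contDiffAt_const) hm h0
  have hw₂ : 0 < w₂ := hw₁.trans_le ((hl 0).trans (hr 0))
  have hG : ∀ (f : E n → ℝ) y, 0 ≤ Gam u f f y := fun f y => gamB_nonneg (hc.pos y (mem_univ y)) _
  have key : ∀ y, wt u 0 y * max (2 * a - k y) 0 ^ 2 * Gam u (mu u) (mu u) y ≤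
      -FF u 0 (2 * a) k (fun _ => 1) (mu u) y + w₂ * Gam u k k y := by
    intro y
    have hW : 0 ≤ wt u 0 y := hw₁.le.trans (hl y)
    have h2 := gamB_nonneg (hc.pos y (mem_univ y))
      (max (2 * a - k y) 0 • fderiv ℝ (mu u) y + fderiv ℝ k y)
    simp only [gamB_add_left, gamB_add_right, gamB_smul_left, gamB_smul_right] at h2
    rw [gamB_comm (hc.pos y (mem_univ y)) (fderiv ℝ (mu u) y) (fderiv ℝ k y)] at h2
    have h3 := mul_nonneg hW h2
    have h4 : wt u 0 y * Gam u k k y ≤ w₂ * Gam u k k y :=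
      mul_le_mul_of_nonneg_right (hr y) (hG k y)
    have h5 : 0 ≤ ((n : ℝ) - 1) * (wt u 0 y * max (2 * a - k y) 0 ^ 2 * Gam u (mu u) (mu u) y) :=
      mul_nonneg (sub_nonneg.2 (by exact_mod_cast hn))
        (mul_nonneg (mul_nonneg hW (sq_nonneg _)) (hG _ y))
    simp only [FF, hu.eqn y (mem_univ y), Gam_one_left]
    simp only [Gam] at h4 h5 ⊢
    linarith
  have := master (A := Gam u (mu u) (mu u)) (B := Gam u k k) (α := w₁ * a ^ 2)
    (β := w₂) (I := I) hK.measurableSet hS hSK hi.neg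
    (by simp only [Pi.neg_apply]; rw [integral_neg, hz, neg_zero]) (integrableOn_Gam hc hK hk)
    (fun y _ => hG k y) (by positivity) hw₂.le hI (fun y _ => le_trans ?_ (key y))
    (fun y hy => le_trans ?_ (key y))
  · refine this.trans_eq ?_
    congr 1
    field_simp
  · exact mul_nonneg (mul_nonneg (hw₁.le.trans (hl y)) (sq_nonneg _)) (hG _ y)
  · refine mul_le_mul_of_nonneg_right ?_ (hG _ y)
    have h2 : a ≤ max (2 * a - k y) 0 := le_max_of_le_left (by linarith [h1 y hy])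
    exact mul_le_mul (hl y) (pow_le_pow_left₀ ha.le h2 2) (sq_nonneg _) (hw₁.le.trans (hl y))

lemma wt_zero (y : E n) : wt u 0 y = hdet u y := by simp [wt]

lemma wt_N (hu : Cvx univ u) (y : E n) : wt u ((n : ℝ) + 2) y = 1 := by
  have h : (n : ℝ) + 2 ≠ 0 := by positivity
  rw [wt, hu.exp_mu (mem_univ y), neg_div, div_self h, Real.rpow_neg_one,
    mul_inv_cancel₀ (hu.hdet_pos (mem_univ y)).ne']

end HA

end Crest.Agent.R236

end
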