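import Crest.Agent.R236.TWSec
import Crest.Agent.R236.HarAAux

/-!
Energy estimates on sections.
-/

set_option autoImplicit false

open scoped ContDiff RealInnerProductSpace Topology
open MeasureTheory Set Filter
open Crest.GeometryTopology.CoordMetric Crest.GeometryTopology.AffineMaximal

noncomputable section

namespace Crest.Agent.R236

variable {n : ℕ}

variable {u : E n → ℝ} {C c₁ C₁ : ℝ}

theorem Nice.energy (hn : 2 ≤ n) (hu : Nice u C c₁ C₁) : ∃ K : ℝ, 0 < K ∧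
    ∀ (x₀ : E n) (H : ℝ), 0 < H →
      (∫⁻ x in sec u x₀ H, ENNReal.ofReal
          (Gam u (fun y => breg u y x₀) (fun y => breg u y x₀) x) ≤
        ENNReal.ofReal (K * H ^ ((n : ℝ) / 2 + 1))) ∧
      (∫⁻ x in sec u x₀ H, ENNReal.ofReal
          (Gam u (fun y => breg u x₀ y) (fun y => breg u x₀ y) x) ≤
        ENNReal.ofReal (K * H ^ ((n : ℝ) / 2 + 1))) ∧
      (∫⁻ x in sec u x₀ H, ENNReal.ofReal (Gam u (mu u) (mu u) x) ≤
        ENNReal.ofReal (K * H ^ ((n : ℝ) / 2 - 1))) ∧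
      (∀ (L : E n →L[ℝ] ℝ) (m : ℝ), (∀ x ∈ sec u x₀ (2 * H), |L (x - x₀)| ≤ m) →
        ∫⁻ x in sec u x₀ H, ENNReal.ofReal (gamB u x L L) ≤
          ENNReal.ofReal (K * m ^ 2 * H ^ ((n : ℝ) / 2 - 1))) ∧
      (∀ (v : E n) (m : ℝ),
        (∀ x ∈ sec u x₀ (2 * H), |fderiv ℝ u x v - fderiv ℝ u x₀ v| ≤ m) →
        ∫⁻ x in sec u x₀ H, ENNReal.ofReal (hq u x v v) ≤
          ENNReal.ofReal (K * m ^ 2 * H ^ ((n : ℝ) / 2 - 1))) := by
  obtain ⟨cV, CV, -, hCV, hvol⟩ := hu.volume_sec hn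
  have hc : Cvx univ u := hu.am.toCvx
  have hC : 1 ≤ C := hu.qs.one_le
  have hat : ∀ y, ContDiffAt ℝ ∞ u y := fun y => hc.at (mem_univ y)
  have hA : ∀ y, (hessianMat u y).PosDef := fun y => hc.pos y (mem_univ y)
  have hc₁ := hu.pos
  have hcC : c₁ ≤ C₁ := (hu.lower 0).trans (hu.upper 0)
  have hn0 : (0 : ℝ) < n := by exact_mod_cast (by omega : 0 < n)
  set p : ℝ := (n : ℝ) / 2 with hp
  set R : ℝ := C₁ / c₁ with hR
  have hR1 : 1 ≤ R := (one_le_div hc₁).2 hcC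
  have hl0 : ∀ y, c₁ ≤ HA.wt u 0 y := fun y => by rw [HA.wt_zero]; exact hu.lower y
  have hr0 : ∀ y, HA.wt u 0 y ≤ C₁ := fun y => by rw [HA.wt_zero]; exact hu.upper y
  have hlN : ∀ y, 1 ≤ HA.wt u ((n : ℝ) + 2) y := fun y => (HA.wt_N hc y).ge
  have hrN : ∀ y, HA.wt u ((n : ℝ) + 2) y ≤ 1 := fun y => (HA.wt_N hc y).le
  set K₁ : ℝ := 2 * n * R * (CV * 2 ^ p) with hK₁
  set K₂ : ℝ := 2 * n * C * (CV * (2 * C ^ 2) ^ p) with hK₂
  set K₃ : ℝ := R * (K₁ * 2 ^ (p + 1)) with hK₃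
  have hK₁0 : 0 < K₁ := by positivity
  have hK₂0 : 0 < K₂ := by positivity
  have hK₃0 : 0 < K₃ := by positivity
  have hsub : ∀ (x₀ : E n) (H : ℝ), 0 < H → sec u x₀ H ⊆ sec u x₀ (2 * H) :=
    fun x₀ H hH y (hy : breg u y x₀ ≤ H) => show breg u y x₀ ≤ 2 * H by linarith
  have hout : ∀ (x₀ : E n) (H : ℝ) (y : E n), y ∉ sec u x₀ (2 * H) → 2 * H ≤ breg u y x₀ :=
    fun x₀ H y hy => (not_le.1 hy).le
  have E1 : ∀ (x₀ : E n) (H : ℝ), 0 < H →
      ∫⁻ x in sec u x₀ H, ENNReal.ofReal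
          (Gam u (fun y => breg u y x₀) (fun y => breg u y x₀) x) ≤
        ENNReal.ofReal (K₁ * H ^ (p + 1)) := by
    intro x₀ H hH
    refine (HA.level hc (isCompact_sec hc x₀ (2 * H)) (isCompact_sec hc x₀ H).measurableSet
      (hsub x₀ H hH) hc₁ hl0 hr0 (fun y => contDiffAt_breg_left (hat y) x₀)
      (fun y => by rw [Lop_breg_left (hat y) (hA y)]; ring)
      (fun y => hc.breg_nonneg (mem_univ _) (mem_univ _)) hH (hout x₀ H) (fun y hy => hy)
      (hvol x₀ (2 * H) (by positivity)).2).trans_eq ?_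
    congr 1
    rw [Real.mul_rpow zero_le_two hH.le, Real.rpow_add_one hH.ne', hK₁]
    ring
  refine ⟨K₁ + K₂ + 4 * K₃, by positivity, fun x₀ H hH => ?_⟩
  have hH1 : 0 < H ^ (p + 1) := by positivity
  have hH2 : 0 < H ^ (p - 1) := by positivity
  have hH3 : (2 * H) ^ (p + 1) = 2 ^ (p + 1) * (H ^ (p - 1) * H ^ 2) := by
    rw [Real.mul_rpow zero_le_two hH.le, ← Real.rpow_natCast H 2, ← Real.rpow_add hH]
    congr 2
    push_cast
    ring
  have hKc := isCompact_sec hc x₀ (2 * H)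
  have hSm := (isCompact_sec hc x₀ H).measurableSet
  have hb : ∀ y, ContDiffAt ℝ ∞ (fun y => breg u y x₀) y :=
    fun y => contDiffAt_breg_left (hat y) x₀
  have E2 := E1 x₀ (2 * H) (by positivity)
  refine ⟨(E1 x₀ H hH).trans (ENNReal.ofReal_le_ofReal ?_), ?_, ?_, fun L m hm => ?_,
    fun v m hm => ?_⟩
  · exact mul_le_mul_of_nonneg_right (by linarith) hH1.le
  · have hC0 : 0 < C := by linarith
    have hC2 : 1 ≤ C ^ 2 := one_le_pow₀ hC
    refine (HA.level (a := C * H) hc (isCompact_sec hc x₀ (2 * C ^ 2 * H)) hSm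
      (fun y (hy : breg u y x₀ ≤ H) => show breg u y x₀ ≤ 2 * C ^ 2 * H by nlinarith)
      one_pos hlN hrN (fun y => contDiffAt_breg_right (hat y) x₀) (fun y => ?_)
      (fun y => hc.breg_nonneg (mem_univ _) (mem_univ _)) (by positivity) (fun y hy => ?_)
      (fun y (hy : breg u y x₀ ≤ H) => ?_)
      (hvol x₀ (2 * C ^ 2 * H) (by positivity)).2).trans (ENNReal.ofReal_le_ofReal ?_)
    · rw [Lop_breg_right (hat y) (hA y), Gam, gamB_comm (hA y), gamB_breg_right (hat y) (hA y)]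
      ring
    · have h1 : 2 * C ^ 2 * H < breg u y x₀ := not_le.1 hy
      have h2 := hu.qs.quasi y x₀
      by_contra h3
      have h4 := mul_le_mul_of_nonneg_left (not_le.1 h3).le hC0.le
      nlinarith
    · exact (hu.qs.quasi x₀ y).trans (mul_le_mul_of_nonneg_left hy hC0.le)
    · have h1 : 2 * n * (1 / 1) * (C * H) * (CV * (2 * C ^ 2 * H) ^ p) = K₂ * H ^ (p + 1) := by
        rw [Real.mul_rpow (by positivity) hH.le, Real.rpow_add_one hH.ne', hK₂]
        ring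
      rw [h1]
      exact mul_le_mul_of_nonneg_right (by linarith) hH1.le
  · refine (HA.muE (by omega) hu.am hKc hSm (hsub x₀ H hH) hc₁ hl0 hr0 hb hH (hout x₀ H)
      (fun y hy => hy) E2).trans (ENNReal.ofReal_le_ofReal ?_)
    have h1 : C₁ / c₁ / H ^ 2 * (K₁ * (2 * H) ^ (p + 1)) = K₃ * H ^ (p - 1) := by
      rw [hH3, hK₃, ← hR]
      field_simp
    rw [h1]
    exact mul_le_mul_of_nonneg_right (by linarith) hH2.le
  · have hd : ∀ y, HasFDerivAt (fun y => L y - L x₀) L y := fun y => L.hasFDerivAt.sub_const _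
    have e : (fun x => ENNReal.ofReal (gamB u x L L)) = fun x =>
        ENNReal.ofReal (Gam u (fun y => L y - L x₀) (fun y => L y - L x₀) x) := by
      funext x
      rw [Gam_eq (hd x) (hd x)]
    rw [e]
    refine (HA.harm (m := m) hc hKc hSm (hsub x₀ H hH) hc₁ hl0 hr0 hb
      (fun y => L.contDiff.contDiffAt.sub contDiffAt_const) (fun y => ?_)
      (fun y hy => by rw [← map_sub]; exact hm y hy) hH (hout x₀ H)
      (fun y hy => hy) E2).trans (ENNReal.ofReal_le_ofReal ?_)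
    · rw [Lop_sub L.contDiff.contDiffAt contDiffAt_const, Lop_clm, Lop_const]
      ring
    · have h1 : 4 * (C₁ / c₁) * m ^ 2 / H ^ 2 * (K₁ * (2 * H) ^ (p + 1)) =
          4 * K₃ * m ^ 2 * H ^ (p - 1) := by
        rw [hH3, hK₃, ← hR]
        field_simp
      rw [h1]
      exact mul_le_mul_of_nonneg_right (mul_le_mul_of_nonneg_right (by linarith) (sq_nonneg m))
        hH2.le
  · have hd : ∀ y, HasFDerivAt (fun y => dv v u y - dv v u x₀) (fderiv ℝ (dv v u) y) y :=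
      fun y => (diff_of_top (contDiffAt_dv (hat y) v)).hasFDerivAt.sub_const _
    have e : (fun x => ENNReal.ofReal (hq u x v v)) = fun x =>
        ENNReal.ofReal (Gam u (fun y => dv v u y - dv v u x₀)
          (fun y => dv v u y - dv v u x₀) x) := by
      funext x
      rw [Gam_eq (hd x) (hd x), gamB_dv (hat x) (hA x), fderiv_dv_apply (hat x)]
    rw [e]
    refine (HA.harm (m := m) (g := fun y => dv v u y - dv v u x₀) hc hKc hSm (hsub x₀ H hH)
      one_pos hlN hrN hb (fun y => (contDiffAt_dv (hat y) v).sub contDiffAt_const) (fun y => ?_)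
      (fun y hy => hm y hy) hH (hout x₀ H)
      (fun y hy => hy) E2).trans (ENNReal.ofReal_le_ofReal ?_)
    · rw [Lop_sub (two_of_top (contDiffAt_dv (hat y) v)) contDiffAt_const, Lop_const,
        Lop_dv (hat y) (hA y), Gam, (hd y).fderiv, gamB_comm (hA y), gamB_dv (hat y) (hA y)]
      ring
    · have h1 : 4 * (1 / 1) * m ^ 2 / H ^ 2 * (K₁ * (2 * H) ^ (p + 1)) =
          4 * (K₁ * 2 ^ (p + 1)) * m ^ 2 * H ^ (p - 1) := by
        rw [hH3]
        field_simp
      have h2 : K₁ * 2 ^ (p + 1) ≤ K₃ := le_mul_of_one_le_left (by positivity) hR1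
      rw [h1]
      exact mul_le_mul_of_nonneg_right (mul_le_mul_of_nonneg_right (by linarith) (sq_nonneg m))
        hH2.le

end Crest.Agent.R236

end
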