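import Crest.Agent.R236.TWSec

/-!
The subharmonic kernel.
-/

set_option autoImplicit false

open scoped ContDiff RealInnerProductSpace Topology
open MeasureTheory Set Filter
open Crest.GeometryTopology.CoordMetric Crest.GeometryTopology.AffineMaximal

noncomputable section

namespace Crest.Agent.R236

variable {n : ℕ}

variable {u : E n → ℝ} {C c₁ C₁ : ℝ}

lemma hb_pos_left (hu : Cvx univ u) (x₀ : E n) {η : ℝ} (hη : 0 < η) (x : E n) :
    0 < breg u x x₀ + η :=
  add_pos_of_nonneg_of_pos (hu.breg_nonneg (mem_univ _) (mem_univ _)) hη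

lemma hb_pos_right (hu : Cvx univ u) (x₀ : E n) {η : ℝ} (hη : 0 < η) (x : E n) :
    0 < breg u x₀ x + η :=
  add_pos_of_nonneg_of_pos (hu.breg_nonneg (mem_univ _) (mem_univ _)) hη

lemma hb_contDiffAt_zeta (hu : Cvx univ u) (x₀ : E n) {η : ℝ} (hη : 0 < η) (x : E n) :
    ContDiffAt ℝ ∞ (zeta u x₀ η) x := by
  have hs := hu.at (mem_univ x)
  exact ((((contDiffAt_breg_left hs x₀).add contDiffAt_const).log (hb_pos_left hu x₀ hη x).ne').add
    (((contDiffAt_breg_right hs x₀).add contDiffAt_const).log (hb_pos_right hu x₀ hη x).ne')).add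
    (contDiffAt_mu hs (hu.pos x (mem_univ x)))

lemma Nice.contDiff_zeta (hu : Nice u C c₁ C₁) (x₀ : E n) {η : ℝ} (hη : 0 < η) :
    ContDiff ℝ ∞ (zeta u x₀ η) :=
  contDiff_iff_contDiffAt.2 fun x => hb_contDiffAt_zeta hu.am.toCvx x₀ hη x

/-- `ζ ≤ s` forces `b + η ≤ K exp (s / 2)`, and conversely -/
lemma Nice.zeta_compare (hu : Nice u C c₁ C₁) : ∃ K : ℝ, ∀ (x₀ : E n) (η : ℝ), 0 < η → ∀ x,
    |zeta u x₀ η x - 2 * Real.log (breg u x x₀ + η)| ≤ K := by
  obtain ⟨M, hM⟩ := hu.abs_mu_le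
  refine ⟨Real.log C + M, fun x₀ η hη x => ?_⟩
  have hC := hu.qs.one_le
  have hC0 : 0 < C := by linarith
  have h1 := hb_pos_left hu.am.toCvx x₀ hη x
  have h2 := hb_pos_right hu.am.toCvx x₀ hη x
  have h3 : breg u x x₀ + η ≤ C * (breg u x₀ x + η) := by
    have := hu.qs.quasi x x₀
    nlinarith
  have h4 : breg u x₀ x + η ≤ C * (breg u x x₀ + η) := by
    have := hu.qs.quasi x₀ x
    nlinarith
  have h5 := Real.log_le_log h1 h3
  have h6 := Real.log_le_log h2 h4
  rw [Real.log_mul hC0.ne' h2.ne'] at h5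
  rw [Real.log_mul hC0.ne' h1.ne'] at h6
  have h7 := abs_le.1 (hM x)
  rw [zeta, abs_le]
  constructor <;> linarith [h7.1, h7.2]

/-- the basic identity -/
theorem Dh_zeta (hu : AM univ u) (x₀ : E n) {η : ℝ} (hη : 0 < η) (x : E n) :
    Dh u (zeta u x₀ η) x ≤ ((n : ℝ) - 2) / 4 * Gam u (zeta u x₀ η) (zeta u x₀ η) x +
      2 * n * η / ((breg u x x₀ + η) * (breg u x₀ x + η)) := by
  have hs := hu.toCvx.at (mem_univ x)
  have hA := hu.pos x (mem_univ x)
  have h1 := hb_pos_left hu.toCvx x₀ hη x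
  have h2 := hb_pos_right hu.toCvx x₀ hη x
  have cb := contDiffAt_breg_left hs x₀
  have ct := contDiffAt_breg_right hs x₀
  have cm := contDiffAt_mu hs hA
  have cb' : ContDiffAt ℝ ∞ (fun y => breg u y x₀ + η) x := cb.add contDiffAt_const
  have ct' : ContDiffAt ℝ ∞ (fun y => breg u x₀ y + η) x := ct.add contDiffAt_const
  set p := fderiv ℝ (fun y => breg u y x₀) x with hp
  set q := fderiv ℝ (fun y => breg u x₀ y) x with hq'
  set m := fderiv ℝ (mu u) x with hm
  have db : HasFDerivAt (fun y => breg u y x₀ + η) p x := (diff_of_top cb).hasFDerivAt.add_const η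
  have dt : HasFDerivAt (fun y => breg u x₀ y + η) q x := (diff_of_top ct).hasFDerivAt.add_const η
  have dm : HasFDerivAt (mu u) m x := (diff_of_top cm).hasFDerivAt
  have dz : HasFDerivAt (zeta u x₀ η)
      ((breg u x x₀ + η)⁻¹ • p + (breg u x₀ x + η)⁻¹ • q + m) x :=
    ((db.log h1.ne').add (dt.log h2.ne')).add dm
  have Lb : Lop u (fun y => breg u y x₀ + η) x = n := by
    rw [Lop_add (two_of_top cb) contDiffAt_const, Lop_const, add_zero, Lop_breg_left hs hA]
  have Lt : Lop u (fun y => breg u x₀ y + η) x = n - ((n : ℝ) + 2) * gamB u x q m := by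
    rw [Lop_add (two_of_top ct) contDiffAt_const, Lop_const, add_zero, Lop_breg_right hs hA,
      hq', gamB_breg_right hs hA]
  have Lz : Lop u (zeta u x₀ η) x = (n / (breg u x x₀ + η) - gamB u x p p / (breg u x x₀ + η) ^ 2)
      + ((n - ((n : ℝ) + 2) * gamB u x q m) / (breg u x₀ x + η)
        - gamB u x q q / (breg u x₀ x + η) ^ 2) + -((n : ℝ) + 1) * gamB u x m m := by
    have e : zeta u x₀ η = fun y => (Real.log (breg u y x₀ + η) + Real.log (breg u x₀ y + η))
      + mu u y := rfl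
    rw [e, Lop_add (two_of_top ((cb'.log h1.ne').add (ct'.log h2.ne'))) (two_of_top cm),
      Lop_add (two_of_top (cb'.log h1.ne')) (two_of_top (ct'.log h2.ne')),
      Lop_log (two_of_top cb') h1.ne', Lop_log (two_of_top ct') h2.ne', Lb, Lt,
      Gam_eq db db, Gam_eq dt dt, hu.eqn x (mem_univ x), Gam_eq dm dm]
  have hqp : gamB u x q p = (breg u x x₀ + η) + (breg u x₀ x + η) - 2 * η := by
    rw [hq', gamB_breg_right hs hA, hp, (hasFDerivAt_breg_left hs x₀).fderiv, ← breg_add_breg]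
    ring
  have hd := gamB_nonneg hA ((breg u x x₀ + η)⁻¹ • p - (breg u x₀ x + η)⁻¹ • q - m)
  rw [Dh, Lz, Gam_eq dm dz, Gam_eq dz dz]
  simp only [gamB_add_left, gamB_add_right, gamB_sub_left, gamB_sub_right, gamB_smul_left,
    gamB_smul_right] at hd ⊢
  rw [gamB_comm hA p q, gamB_comm hA m p, gamB_comm hA m q, hqp] at hd ⊢
  generalize breg u x x₀ + η = B at *
  generalize breg u x₀ x + η = T at *
  have hn : (0 : ℝ) ≤ ((n : ℝ) + 2) / 4 := by positivity
  have h3 := mul_nonneg hn hd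
  rw [← sub_nonneg]
  refine h3.trans (le_of_eq ?_)
  field_simp
  ring

/-! ### the profile `Φ` -/

/-- the weight in the profile -/
def hbW (k s t : ℝ) : ℝ := Real.exp (-(k * t)) * (1 - stp (t - s))

/-- the profile -/
def hbPhi (k s r : ℝ) : ℝ := ∫ t in r..(s + 1), hbW k s t

lemma hbW_contDiff (k s : ℝ) : ContDiff ℝ 1 (hbW k s) := by
  have h : ContDiff ℝ 1 stp := Real.smoothTransition.contDiff (n := 1)
  unfold hbW
  fun_prop

lemma hbW_nonneg (k s t : ℝ) : 0 ≤ hbW k s t :=
  mul_nonneg (Real.exp_pos _).le (sub_nonneg.2 (Real.smoothTransition.le_one _))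

lemma hbW_le (k s t : ℝ) : hbW k s t ≤ Real.exp (-(k * t)) :=
  mul_le_of_le_one_right (Real.exp_pos _).le (sub_le_self _ (Real.smoothTransition.nonneg _))

lemma hbW_zero (k s : ℝ) {t : ℝ} (ht : s + 1 ≤ t) : hbW k s t = 0 := by
  have h : stp (t - s) = 1 := Real.smoothTransition.one_of_one_le (by linarith)
  rw [hbW, h, sub_self, mul_zero]

lemma hbW_deriv (k s t : ℝ) :
    HasDerivAt (hbW k s) (-(k * hbW k s t) - Real.exp (-(k * t)) * deriv stp (t - s)) t := by
  have h1 : HasDerivAt (fun t : ℝ => Real.exp (-(k * t))) (Real.exp (-(k * t)) * -k) t := by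
    simpa using ((hasDerivAt_id t).const_mul k).neg.exp
  have h2 : HasDerivAt stp (deriv stp (t - s)) (t - s) :=
    ((Real.smoothTransition.contDiff (n := 1)).differentiable one_ne_zero _).hasDerivAt
  have h3 : HasDerivAt (fun t : ℝ => stp (t - s)) (deriv stp (t - s)) t :=
    HasDerivAt.comp_sub_const t s h2
  refine (h1.mul (h3.const_sub 1)).congr_deriv ?_
  rw [hbW]
  ring

lemma hbPhi_deriv (k s r : ℝ) : HasDerivAt (hbPhi k s) (-hbW k s r) r := by
  have hc := (hbW_contDiff k s).continuous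
  exact intervalIntegral.integral_hasDerivAt_left (hc.intervalIntegrable _ _)
    (hc.stronglyMeasurableAtFilter _ _) hc.continuousAt

lemma hbPhi_deriv' (k s : ℝ) : deriv (hbPhi k s) = fun r => -hbW k s r :=
  funext fun r => (hbPhi_deriv k s r).deriv

lemma hbPhi_contDiff (k s : ℝ) : ContDiff ℝ 2 (hbPhi k s) := by
  rw [show (2 : WithTop ℕ∞) = 1 + 1 from rfl, contDiff_succ_iff_deriv]
  refine ⟨fun r => (hbPhi_deriv k s r).differentiableAt, by simp, ?_⟩
  rw [hbPhi_deriv']
  exact (hbW_contDiff k s).neg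

lemma hbPhi_zero (k s : ℝ) {r : ℝ} (hr : s + 1 ≤ r) : hbPhi k s r = 0 := by
  rw [hbPhi, intervalIntegral.integral_congr (g := fun _ => 0), intervalIntegral.integral_zero]
  intro t ht
  rw [uIcc_of_ge hr] at ht
  exact hbW_zero k s ht.1

lemma hbPhi_nonneg (k s r : ℝ) : 0 ≤ hbPhi k s r := by
  rcases le_total r (s + 1) with h | h
  · exact intervalIntegral.integral_nonneg h fun t _ => hbW_nonneg k s t
  · exact (hbPhi_zero k s h).ge

lemma hb_stp_deriv_nonneg (t : ℝ) : 0 ≤ deriv stp t :=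
  Real.smoothTransition.monotone.deriv_nonneg

lemma hb_stp_deriv_zero {t : ℝ} (ht : 1 < t) : deriv stp t = 0 := by
  have h : stp =ᶠ[𝓝 t] fun _ => 1 :=
    (eventually_gt_nhds ht).mono fun r hr => Real.smoothTransition.one_of_one_le hr.le
  rw [h.deriv_eq, deriv_const]

lemma hb_stp_deriv_continuous : Continuous (deriv stp) :=
  (Real.smoothTransition.contDiff (n := 1)).continuous_deriv_one

/-- chain rule for `Dh` -/
lemma hb_Dh_comp {f : E n → ℝ} {x : E n} {ψ : ℝ → ℝ} (hψ : ContDiffAt ℝ 2 ψ (f x))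
    (hf : ContDiffAt ℝ 2 f x) :
    Dh u (fun y => ψ (f y)) x = deriv ψ (f x) * Dh u f x + deriv (deriv ψ) (f x) * Gam u f f x := by
  have h1 : HasFDerivAt (fun y => ψ (f y)) (deriv ψ (f x) • fderiv ℝ f x) x :=
    (hψ.differentiableAt (by simp)).hasDerivAt.comp_hasFDerivAt x
      (hf.differentiableAt (by simp)).hasFDerivAt
  rw [Dh, Dh, Lop_comp hψ hf, Gam, Gam, Gam, h1.fderiv, gamB_smul_right]
  ring

/-- integration by parts with the weight `W = exp (-2 μ)` -/
lemma hb_weight (hu : Cvx univ u) {φ g : E n → ℝ} (hφ : ContDiff ℝ 1 φ) (y : E n) :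
    hdet u y * (Real.exp (n * mu u y) * φ y * Lop u g y
      + Gam u (fun z => Real.exp (n * mu u z) * φ z) g y) =
    Real.exp (-2 * mu u y) * (φ y * Dh u g y + Gam u φ g y) := by
  have hs := hu.at (mem_univ y)
  have hA := hu.pos y (mem_univ y)
  have dm := (diff_of_top (contDiffAt_mu hs hA)).hasFDerivAt
  have dφ := (hφ.differentiable one_ne_zero y).hasFDerivAt
  have h1 := ((dm.const_mul (n : ℝ)).exp).mul dφ
  have h2 : hdet u y * Real.exp (n * mu u y) = Real.exp (-2 * mu u y) := by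
    have h3 : hdet u y = Real.exp (-((n : ℝ) + 2) * mu u y) := by
      rw [hu.exp_mu (mem_univ y), neg_neg, div_self (by positivity), Real.rpow_one]
    rw [h3, ← Real.exp_add]
    congr 1
    ring
  have h4 : fderiv ℝ (fun z => Real.exp (n * mu u z) * φ z) y = _ := h1.fderiv
  rw [Gam, h4, ← h2, Dh, Gam, Gam]
  simp only [gamB_add_left, gamB_smul_left]
  ring

lemma hb_ibp (hu : Cvx univ u) {K : Set (E n)} (hK : IsCompact K) {φ g : E n → ℝ}
    (hφ : ContDiff ℝ 1 φ) (hg : ContDiff ℝ 2 g) (h0 : ∀ y, y ∉ K → φ y = 0 ∨ fderiv ℝ g y = 0) :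
    ∫ y in K, Real.exp (-2 * mu u y) * (φ y * Dh u g y + Gam u φ g y) = 0 := by
  have hm : ContDiff ℝ 1 (mu u) := contDiff_iff_contDiffAt.2 fun y =>
    one_of_top (contDiffAt_mu (hu.at (mem_univ y)) (hu.pos y (mem_univ y)))
  have h := ibp hu isOpen_univ Subset.rfl hK (subset_univ _)
    (φ := fun z => Real.exp (n * mu u z) * φ z) (f := g)
    (((contDiff_const.mul hm).exp.mul hφ).contDiffOn) hg.contDiffOn
    (fun y _ hy => (h0 y hy).imp_left fun h => by rw [h, mul_zero])
  simp only [hb_weight hu hφ] at h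
  exact h

lemma hb_continuous_mu (hu : Cvx univ u) : Continuous (mu u) :=
  continuous_iff_continuousAt.2 fun y =>
    (contDiffAt_mu (hu.at (mem_univ y)) (hu.pos y (mem_univ y))).continuousAt

lemma hb_continuous_Gam (hu : Cvx univ u) {f g : E n → ℝ} (hf : ContDiff ℝ 1 f)
    (hg : ContDiff ℝ 1 g) : Continuous (Gam u f g) :=
  continuous_iff_continuousAt.2 fun y =>
    continuousAt_Gam (hu.at (mem_univ y)) (hu.pos y (mem_univ y)) hf.contDiffAt hg.contDiffAt

lemma hb_continuous_Dh (hu : Cvx univ u) {f : E n → ℝ} (hf : ContDiff ℝ 2 f) :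
    Continuous (Dh u f) := by
  have hm : ContDiff ℝ 1 (mu u) := contDiff_iff_contDiffAt.2 fun y =>
    one_of_top (contDiffAt_mu (hu.at (mem_univ y)) (hu.pos y (mem_univ y)))
  have h1 : Continuous (Lop u f) := continuous_iff_continuousAt.2 fun y =>
    continuousAt_Lop (hu.at (mem_univ y)) (hu.pos y (mem_univ y)) hf.contDiffAt
  exact h1.add (continuous_const.mul (hb_continuous_Gam hu hm (hf.of_le (by norm_num))))

/-- Green's identity -/
lemma hb_green (hu : Cvx univ u) {K : Set (E n)} (hK : IsCompact K) {f g : E n → ℝ}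
    (hf : ContDiff ℝ 2 f) (hg : ContDiff ℝ 2 g) (h0 : ∀ y, y ∉ K → g y = 0 ∧ fderiv ℝ g y = 0) :
    ∫ y in K, Real.exp (-2 * mu u y) * (f y * Dh u g y) =
      ∫ y in K, Real.exp (-2 * mu u y) * (g y * Dh u f y) := by
  have hf1 : ContDiff ℝ 1 f := hf.of_le (by norm_num)
  have hg1 : ContDiff ℝ 1 g := hg.of_le (by norm_num)
  have h1 := hb_ibp hu hK hf1 hg fun y hy => Or.inr (h0 y hy).2
  have h2 := hb_ibp hu hK hg1 hf fun y hy => Or.inl (h0 y hy).1
  have hW : Continuous fun y => Real.exp (-2 * mu u y) :=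
    (continuous_const.mul (hb_continuous_mu hu)).rexp
  have i1 : IntegrableOn (fun y => Real.exp (-2 * mu u y) * (f y * Dh u g y)) K :=
    (hW.mul (hf.continuous.mul (hb_continuous_Dh hu hg))).continuousOn.integrableOn_compact hK
  have i2 : IntegrableOn (fun y => Real.exp (-2 * mu u y) * (g y * Dh u f y)) K :=
    (hW.mul (hg.continuous.mul (hb_continuous_Dh hu hf))).continuousOn.integrableOn_compact hK
  have i3 : IntegrableOn (fun y => Real.exp (-2 * mu u y) * Gam u f g y) K :=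
    (hW.mul (hb_continuous_Gam hu hf1 hg1)).continuousOn.integrableOn_compact hK
  have e : ∀ y, Gam u g f y = Gam u f g y := fun y => gamB_comm (hu.pos y (mem_univ y)) _ _
  simp only [mul_add, e] at h1 h2
  rw [integral_add i1 i3] at h1
  rw [integral_add i2 i3] at h2
  linarith

theorem Nice.kernel (hn : 2 ≤ n) (hu : Nice u C c₁ C₁) : ∃ K : ℝ, 0 < K ∧
    ∀ (x₀ : E n) (η : ℝ), 0 < η → ∀ (s : ℝ) (f : E n → ℝ), ContDiff ℝ ∞ f → (∀ x, 0 ≤ f x) →
      (∀ x, Dh u f x ≤ 0) →
      ∫⁻ x, ENNReal.ofReal (f x * deriv stp (zeta u x₀ η x - s) *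
          Gam u (zeta u x₀ η) (zeta u x₀ η) x) ≤
        ENNReal.ofReal (K * η * Real.exp (((n : ℝ) - 2) / 4 * s)) *
          ∫⁻ x, ENNReal.ofReal (f x * (breg u x x₀ + η) ^ (-((n : ℝ) / 2 + 1))) := by
  obtain ⟨M, hM⟩ := hu.abs_mu_le
  obtain ⟨Z, hZ⟩ := hu.zeta_compare
  have hn' : (2 : ℝ) ≤ n := by exact_mod_cast hn
  set k : ℝ := ((n : ℝ) - 2) / 4 with hk
  have hk0 : 0 ≤ k := by rw [hk]; linarith
  refine ⟨2 * n * Real.exp (5 * M + k + (k + 1) * Z), by positivity,
    fun x₀ η hη s f hf hf0 hfs => ?_⟩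
  have hc := hu.am.toCvx
  set ζ := zeta u x₀ η with hζ
  have cζ : ContDiff ℝ ∞ ζ := hu.contDiff_zeta x₀ hη
  have cζ2 : ContDiff ℝ 2 ζ := contDiff_iff_contDiffAt.2 fun y => two_of_top cζ.contDiffAt
  have cζ1 : ContDiff ℝ 1 ζ := cζ2.of_le (by norm_num)
  have cf2 : ContDiff ℝ 2 f := contDiff_iff_contDiffAt.2 fun y => two_of_top hf.contDiffAt
  have cb : Continuous fun y => breg u y x₀ + η := continuous_iff_continuousAt.2 fun y =>
    (contDiffAt_breg_left (hc.at (mem_univ y)) x₀).continuousAt.add continuousAt_const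
  set K : Set (E n) := {y | ζ y ≤ s + 1} with hKdef
  have hK : IsCompact K := by
    refine (hc.proper x₀ (mem_univ _) (Real.exp ((s + 1 + Z) / 2))).of_isClosed_subset
      (isClosed_le cζ.continuous continuous_const) fun y hy => ⟨mem_univ _, ?_⟩
    have h1 := abs_le.1 (hZ x₀ η hη y)
    have h2 : ζ y ≤ s + 1 := hy
    have h3 : Real.log (breg u y x₀ + η) ≤ (s + 1 + Z) / 2 := by linarith [h1.1]
    have h4 := (Real.log_le_iff_le_exp (hb_pos_left hc x₀ hη y)).1 h3
    linarith
  set g : E n → ℝ := fun y => hbPhi k s (ζ y) with hg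
  have cg : ContDiff ℝ 2 g := (hbPhi_contDiff k s).comp cζ2
  have hgreen := hb_green hc hK cf2 cg fun y hy => by
    have h1 : s + 1 ≤ ζ y := (not_le.1 hy).le
    refine ⟨hbPhi_zero k s h1, ?_⟩
    have h2 : HasFDerivAt g (-hbW k s (ζ y) • fderiv ℝ ζ y) y :=
      (hbPhi_deriv k s (ζ y)).comp_hasFDerivAt y (cζ1.differentiable one_ne_zero y).hasFDerivAt
    rw [h2.fderiv, hbW_zero k s h1, neg_zero, zero_smul]
  have hneg : ∫ y in K, Real.exp (-2 * mu u y) * (f y * Dh u g y) ≤ 0 := by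
    rw [hgreen]
    exact integral_nonpos fun y => mul_nonpos_of_nonneg_of_nonpos (Real.exp_pos _).le
      (mul_nonpos_of_nonneg_of_nonpos (hbPhi_nonneg k s _) (hfs y))
  set F : E n → ℝ := fun x => f x * deriv stp (ζ x - s) * Gam u ζ ζ x with hF
  set H : E n → ℝ := fun x => f x * (breg u x x₀ + η) ^ (-((n : ℝ) / 2 + 1)) with hH
  have cF : Continuous F := (hf.continuous.mul
    (hb_stp_deriv_continuous.comp (cζ.continuous.sub continuous_const))).mul
      (hb_continuous_Gam hc cζ1 cζ1)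
  have cH : Continuous H :=
    hf.continuous.mul (cb.rpow_const fun y => Or.inl (hb_pos_left hc x₀ hη y).ne')
  have G0 : ∀ y, 0 ≤ Gam u ζ ζ y := fun y => gamB_nonneg (hc.pos y (mem_univ y)) _
  have F0 : ∀ y, 0 ≤ F y := fun y => mul_nonneg (mul_nonneg (hf0 y) (hb_stp_deriv_nonneg _)) (G0 y)
  have H0 : ∀ y, 0 ≤ H y := fun y =>
    mul_nonneg (hf0 y) (Real.rpow_nonneg (hb_pos_left hc x₀ hη y).le _)
  set a : ℝ := Real.exp (-(2 * M) - k * (s + 1)) with ha
  set b : ℝ := 2 * n * η * Real.exp (3 * M + (k + 1) * Z) with hb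
  have hpt : ∀ y ∈ K, a * F y - b * H y ≤ Real.exp (-2 * mu u y) * (f y * Dh u g y) := by
    intro y hy
    have hy' : ζ y ≤ s + 1 := hy
    have h1 := hb_pos_left hc x₀ hη y
    have h2 := hb_pos_right hc x₀ hη y
    have hm := abs_le.1 (hM y)
    have hz := abs_le.1 (hZ x₀ η hη y)
    have e1 : Dh u g y = -hbW k s (ζ y) * Dh u ζ y + (k * hbW k s (ζ y) +
        Real.exp (-(k * ζ y)) * deriv stp (ζ y - s)) * Gam u ζ ζ y := by
      rw [hg, hb_Dh_comp (hbPhi_contDiff k s).contDiffAt cζ2.contDiffAt, hbPhi_deriv',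
        (hbW_deriv k s (ζ y)).fun_neg.deriv]
      ring
    have e2 := Dh_zeta hu.am x₀ hη y
    rw [← hk, ← hζ] at e2
    set Q : ℝ := 2 * n * η / ((breg u y x₀ + η) * (breg u x₀ y + η)) with hQ
    have hQ0 : 0 ≤ Q := by positivity
    have e3 : Real.exp (-(k * ζ y)) * deriv stp (ζ y - s) * Gam u ζ ζ y
        - Real.exp (-(k * ζ y)) * Q ≤ Dh u g y := by
      have h3 := mul_le_mul_of_nonneg_left e2 (hbW_nonneg k s (ζ y))
      have h4 := mul_le_mul_of_nonneg_right (hbW_le k s (ζ y)) hQ0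
      rw [e1]
      linarith
    have e4 : a ≤ Real.exp (-2 * mu u y) * Real.exp (-(k * ζ y)) := by
      rw [← Real.exp_add, ha]
      refine Real.exp_le_exp.2 ?_
      have := mul_le_mul_of_nonneg_left hy' hk0
      linarith [hm.2]
    have e5 : Real.exp (-2 * mu u y) * (Real.exp (-(k * ζ y)) * Q) ≤
        b * (breg u y x₀ + η) ^ (-((n : ℝ) / 2 + 1)) := by
      have h3 : Q = 2 * n * η * Real.exp (mu u y - ζ y) := by
        have h4 : mu u y - ζ y = -(Real.log (breg u y x₀ + η) + Real.log (breg u x₀ y + η)) := by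
          rw [hζ, zeta]; ring
        rw [h4, Real.exp_neg, Real.exp_add, Real.exp_log h1, Real.exp_log h2, hQ, div_eq_mul_inv]
      rw [h3, hb, Real.rpow_def_of_pos h1]
      have h5 : Real.exp (-2 * mu u y) * Real.exp (-(k * ζ y)) * Real.exp (mu u y - ζ y) ≤
          Real.exp (3 * M + (k + 1) * Z) *
            Real.exp (Real.log (breg u y x₀ + η) * -((n : ℝ) / 2 + 1)) := by
        rw [← Real.exp_add, ← Real.exp_add, ← Real.exp_add]
        refine Real.exp_le_exp.2 ?_
        have h6 : (n : ℝ) / 2 + 1 = 2 * (k + 1) := by rw [hk]; ring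
        have h7 := mul_le_mul_of_nonneg_left hz.1 (by linarith : 0 ≤ k + 1)
        have hM0 : 0 ≤ M := (abs_nonneg _).trans (hM y)
        rw [h6]
        nlinarith [hm.1]
      have h8 := mul_le_mul_of_nonneg_left h5 (by positivity : 0 ≤ 2 * (n : ℝ) * η)
      calc _ = 2 * n * η * (Real.exp (-2 * mu u y) * Real.exp (-(k * ζ y)) *
              Real.exp (mu u y - ζ y)) := by ring
        _ ≤ _ := h8
        _ = _ := by ring
    have e6 := mul_le_mul_of_nonneg_right e4 (F0 y)
    have e7 := mul_le_mul_of_nonneg_left e5 (hf0 y)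
    have e8 := mul_le_mul_of_nonneg_left (mul_le_mul_of_nonneg_left e3 (hf0 y))
      (Real.exp_pos (-2 * mu u y)).le
    refine le_trans ?_ e8
    simp only [hF, hH] at e6 ⊢
    linarith
  have iF : IntegrableOn F K := cF.continuousOn.integrableOn_compact hK
  have iH : IntegrableOn H K := cH.continuousOn.integrableOn_compact hK
  have hint : a * ∫ y in K, F y ≤ b * ∫ y in K, H y := by
    have h1 := setIntegral_mono_on ((iF.const_mul a).sub (iH.const_mul b))
      ((((continuous_const.mul (hb_continuous_mu hc)).rexp).mul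
        (hf.continuous.mul (hb_continuous_Dh hc cg))).continuousOn.integrableOn_compact hK)
      hK.measurableSet hpt
    have h2 := h1.trans hneg
    simp only [Pi.sub_apply] at h2
    rw [integral_sub (iF.const_mul a) (iH.const_mul b), integral_const_mul,
      integral_const_mul] at h2
    linarith
  have ha0 : 0 < a := Real.exp_pos _
  have hint' : ∫ y in K, F y ≤
      2 * n * Real.exp (5 * M + k + (k + 1) * Z) * η * Real.exp (k * s) * ∫ y in K, H y := by
    refine le_of_mul_le_mul_left (hint.trans (le_of_eq ?_)) ha0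
    have h1 : Real.exp (3 * M + (k + 1) * Z) =
        a * (Real.exp (5 * M + k + (k + 1) * Z) * Real.exp (k * s)) := by
      rw [ha, ← Real.exp_add, ← Real.exp_add]
      congr 1
      ring
    rw [hb, h1]
    ring
  have hsupp : ∫⁻ x, ENNReal.ofReal (F x) = ∫⁻ x in K, ENNReal.ofReal (F x) := by
    refine (setLIntegral_eq_of_support_subset fun y hy => ?_).symm
    by_contra hyK
    have h1 : s + 1 < ζ y := not_le.1 hyK
    apply hy
    simp only [hF]
    rw [hb_stp_deriv_zero (by linarith), mul_zero, zero_mul, ENNReal.ofReal_zero]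
  calc ∫⁻ x, ENNReal.ofReal (F x) = ENNReal.ofReal (∫ y in K, F y) := by
        rw [hsupp, ofReal_integral_eq_lintegral_ofReal iF (Eventually.of_forall F0)]
    _ ≤ ENNReal.ofReal (2 * n * Real.exp (5 * M + k + (k + 1) * Z) * η * Real.exp (k * s) *
          ∫ y in K, H y) := ENNReal.ofReal_le_ofReal hint'
    _ = ENNReal.ofReal (2 * n * Real.exp (5 * M + k + (k + 1) * Z) * η * Real.exp (k * s)) *
          ∫⁻ y in K, ENNReal.ofReal (H y) := by
        rw [ENNReal.ofReal_mul (by positivity),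
          ofReal_integral_eq_lintegral_ofReal iH (Eventually.of_forall H0)]
    _ ≤ _ := by
        gcongr
        exact Measure.restrict_le_self

end Crest.Agent.R236

end
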