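import Crest.Agent.R236.HarA
import Crest.Agent.R236.HarB

/-!
Mass of the kernels: lower bound and independence of the base point.
-/

set_option autoImplicit false

open scoped ContDiff RealInnerProductSpace Topology
open MeasureTheory Set Filter
open Crest.GeometryTopology.CoordMetric Crest.GeometryTopology.AffineMaximal

noncomputable section

namespace Crest.Agent.R236

variable {n : ℕ}

variable {u : E n → ℝ} {C c₁ C₁ : ℝ}

namespace HarC

lemma stp_cd : ContDiff ℝ ∞ stp := Real.smoothTransition.contDiff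

lemma dstp_cd : ContDiff ℝ ∞ (deriv stp) := (contDiff_infty_iff_deriv.1 stp_cd).2

lemma dstp_nonneg (t : ℝ) : 0 ≤ deriv stp t := Real.smoothTransition.monotone.deriv_nonneg

lemma dstp_of_nonpos {t : ℝ} (ht : t ≤ 0) : deriv stp t = 0 := by
  refine IsLocalMin.deriv_eq_zero (Filter.Eventually.of_forall fun s => ?_)
  show Real.smoothTransition t ≤ Real.smoothTransition s
  rw [Real.smoothTransition.zero_of_nonpos ht]
  exact Real.smoothTransition.nonneg s

lemma dstp_of_one_le {t : ℝ} (ht : 1 ≤ t) : deriv stp t = 0 := by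
  refine IsLocalMax.deriv_eq_zero (Filter.Eventually.of_forall fun s => ?_)
  show Real.smoothTransition s ≤ Real.smoothTransition t
  rw [Real.smoothTransition.one_of_one_le ht]
  exact Real.smoothTransition.le_one s

lemma exists_L : ∃ L : ℝ, 0 < L ∧ (∀ t, deriv stp t ≤ L) ∧
    ∀ s t, deriv stp s ≤ deriv stp t + L * |s - t| := by
  have hs : HasCompactSupport (deriv stp) := by
    refine HasCompactSupport.intro (K := Icc 0 1) isCompact_Icc fun t ht => ?_
    rcases le_total t 0 with h | h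
    · exact dstp_of_nonpos h
    · refine dstp_of_one_le ?_
      by_contra hc
      exact ht ⟨h, (not_le.1 hc).le⟩
  obtain ⟨L, hL⟩ := ContDiff.lipschitzWith_of_hasCompactSupport hs dstp_cd (by simp)
  have h1 : ∀ s t, deriv stp s ≤ deriv stp t + ((L : ℝ) + 1) * |s - t| := fun s t => by
    have := hL.dist_le_mul s t
    rw [Real.dist_eq, Real.dist_eq] at this
    have h2 := le_abs_self (deriv stp s - deriv stp t)
    have h3 := abs_nonneg (s - t)
    nlinarith
  refine ⟨L + 1, by positivity, fun t => ?_, h1⟩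
  rcases le_total t 0 with h | h
  · rw [dstp_of_nonpos h]; positivity
  rcases le_total 1 t with h' | h'
  · rw [dstp_of_one_le h']; positivity
  have := h1 t 0
  rw [dstp_of_nonpos le_rfl, sub_zero, abs_of_nonneg h, zero_add] at this
  exact this.trans (mul_le_of_le_one_right (by positivity) h')

lemma lint_le_of_int {K : Set (E n)} (hK : IsCompact K) {f g J : E n → ℝ}
    (hf : ContinuousOn f K) (hg : ContinuousOn g K) (hf0 : ∀ x ∈ K, 0 ≤ f x)
    (hg0 : ∀ x ∈ K, 0 ≤ g x) (hJ : IntegrableOn J K) (h0 : ∫ x in K, J x = 0)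
    (h : ∀ x ∈ K, f x ≤ g x + J x) :
    ∫⁻ x in K, ENNReal.ofReal (f x) ≤ ∫⁻ x in K, ENNReal.ofReal (g x) := by
  have iL := hf.integrableOn_compact (μ := volume) hK
  have iR := hg.integrableOn_compact (μ := volume) hK
  have hm := hK.measurableSet
  rw [← ofReal_integral_eq_lintegral_ofReal iL, ← ofReal_integral_eq_lintegral_ofReal iR]
  · refine ENNReal.ofReal_le_ofReal ?_
    have := setIntegral_mono_on iL (iR.add hJ) hm h
    simp only [Pi.add_apply] at this
    rwa [integral_add iR hJ, h0, add_zero] at this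
  · filter_upwards [ae_restrict_mem hm] with x hx using hg0 x hx
  · filter_upwards [ae_restrict_mem hm] with x hx using hf0 x hx

lemma le_of_ofReal_le {a p q : ℝ} {M : ENNReal} (hp : 0 < p) (hq : 0 ≤ q)
    (h : ENNReal.ofReal a ≤ ENNReal.ofReal p * M + ENNReal.ofReal q) :
    ENNReal.ofReal ((a - q) / p) ≤ M := by
  rcases eq_or_ne M ⊤ with rfl | hM
  · exact le_top
  lift M to NNReal using hM
  rw [← ENNReal.ofReal_coe_nnreal, ← ENNReal.ofReal_mul hp.le,
    ← ENNReal.ofReal_add (by positivity) hq, ENNReal.ofReal_le_ofReal_iff (by positivity)] at h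
  rw [← ENNReal.ofReal_coe_nnreal]
  refine ENNReal.ofReal_le_ofReal ?_
  rw [div_le_iff₀ hp]
  linarith

lemma gam_add_le {x : E n} (hA : (hessianMat u x).PosDef) (p q : E n →L[ℝ] ℝ) :
    gamB u x (p + q) (p + q) ≤ 2 * gamB u x p p + 2 * gamB u x q q := by
  have := gamB_nonneg hA (p - q)
  simp only [gamB_add_left, gamB_add_right, gamB_sub_left, gamB_sub_right] at this ⊢
  linarith

lemma gam_le_param {x : E n} (hA : (hessianMat u x).PosDef) (p q : E n →L[ℝ] ℝ) {t : ℝ}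
    (ht : 0 < t) : gamB u x p q ≤ t / 2 * gamB u x p p + 1 / (2 * t) * gamB u x q q := by
  have := gamB_nonneg hA (t • p - q)
  simp only [gamB_sub_left, gamB_sub_right, gamB_smul_left, gamB_smul_right,
    gamB_comm hA q p] at this
  have h2 : t / 2 * gamB u x p p + 1 / (2 * t) * gamB u x q q - gamB u x p q =
      1 / (2 * t) * (t * (t * gamB u x p p) - t * gamB u x p q -
        (t * gamB u x p q - gamB u x q q)) := by
    field_simp
    ring
  have h3 : 0 ≤ 1 / (2 * t) := by positivity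
  nlinarith [mul_nonneg h3 this]

variable (hu : Nice u C c₁ C₁)
include hu

lemma at' (x : E n) : ContDiffAt ℝ ∞ u x := hu.am.toCvx.at trivial

lemma pd (x : E n) : (hessianMat u x).PosDef := hu.am.pos x trivial

lemma cont_Gam {f g : E n → ℝ} (hf : ∀ x, ContDiffAt ℝ ∞ f x) (hg : ∀ x, ContDiffAt ℝ ∞ g x) :
    Continuous (Gam u f g) := continuous_iff_continuousAt.2 fun x =>
  continuousAt_Gam (at' hu x) (pd hu x) (one_of_top (hf x)) (one_of_top (hg x))

lemma Gam_nonneg (f : E n → ℝ) (x : E n) : 0 ≤ Gam u f f x := gamB_nonneg (pd hu x) _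

lemma b_nonneg (x y : E n) : 0 ≤ breg u x y := hu.am.toCvx.breg_nonneg trivial trivial

lemma cd_b (x₀ x : E n) : ContDiffAt ℝ ∞ (fun y => breg u y x₀) x :=
  contDiffAt_breg_left (at' hu x) x₀

lemma cd_t (x₀ x : E n) : ContDiffAt ℝ ∞ (fun y => breg u x₀ y) x :=
  contDiffAt_breg_right (at' hu x) x₀

lemma cd_mu (x : E n) : ContDiffAt ℝ ∞ (mu u) x := contDiffAt_mu (at' hu x) (pd hu x)

lemma cont_ker (x₀ : E n) {η : ℝ} (hη : 0 < η) (s : ℝ) : Continuous fun x =>
    deriv stp (zeta u x₀ η x - s) * Gam u (zeta u x₀ η) (zeta u x₀ η) x := by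
  have hz := hu.contDiff_zeta x₀ hη
  exact (dstp_cd.continuous.comp (hz.continuous.sub continuous_const)).mul
    (cont_Gam hu (fun _ => hz.contDiffAt) fun _ => hz.contDiffAt)

/-- the level sets of `ζ` and of `b + 1` -/
lemma exists_K : ∃ K : ℝ, 1 ≤ K ∧ ∀ H : ℝ, 0 < H → ∀ x,
    (zeta u 0 1 x ≤ 2 * Real.log H + 1 → breg u x 0 + 1 ≤ K * H) ∧
    (2 * Real.log H ≤ zeta u 0 1 x → H ≤ K * (breg u x 0 + 1)) ∧
    (K * (breg u x 0 + 1) ≤ H → zeta u 0 1 x ≤ 2 * Real.log H) := by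
  obtain ⟨K, hK⟩ := hu.zeta_compare
  have hK0 : 0 ≤ K := (abs_nonneg _).trans (hK 0 1 one_pos 0)
  have hE := Real.exp_pos ((K + 1) / 2)
  refine ⟨Real.exp ((K + 1) / 2), Real.one_le_exp (by linarith), fun H hH x => ?_⟩
  have hb : 0 < breg u x 0 + 1 := by linarith [b_nonneg hu x 0]
  have h := abs_le.1 (hK 0 1 one_pos x)
  refine ⟨fun h1 => ?_, fun h1 => ?_, fun h1 => ?_⟩
  · rw [← Real.log_le_log_iff hb (by positivity), Real.log_mul hE.ne' hH.ne', Real.log_exp]
    linarith [h.1]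
  · rw [← Real.log_le_log_iff hH (by positivity), Real.log_mul hE.ne' hb.ne', Real.log_exp]
    linarith [h.2]
  · rw [← Real.log_le_log_iff (by positivity) hH, Real.log_mul hE.ne' hb.ne', Real.log_exp] at h1
    linarith [h.2]

end HarC

open HarC

theorem Nice.mass_lower (hn : 2 ≤ n) (hu : Nice u C c₁ C₁) : ∃ c H₀ : ℝ, 0 < c ∧ 0 < H₀ ∧
    ∀ H : ℝ, H₀ ≤ H → ENNReal.ofReal (c * H ^ ((n : ℝ) / 2 - 1)) ≤
      ∫⁻ x, ENNReal.ofReal (deriv stp (zeta u 0 1 x - 2 * Real.log H) *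
        Gam u (zeta u 0 1) (zeta u 0 1) x) := by
  obtain ⟨K, hK1, hK⟩ := exists_K hu
  obtain ⟨L, hL0, hL, -⟩ := exists_L
  obtain ⟨KE, hKE, hE⟩ := hu.energy hn
  obtain ⟨cV, CV, hcV, -, hV⟩ := hu.volume_sec hn
  have hc₁ := hu.pos
  have hC₁ : 0 < C₁ := hc₁.trans_le ((hu.lower 0).trans (hu.upper 0))
  have hn0 : (0 : ℝ) < n := by exact_mod_cast (by omega : 0 < n)
  have hK0 : 0 < K := by linarith
  set a : ℝ := c₁ * n * (cV * (1 / (2 * K)) ^ ((n : ℝ) / 2)) with ha
  have ha0 : 0 < a := by positivity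
  set q : ℝ := C₁ * L * (KE * K ^ ((n : ℝ) / 2 + 1)) with hq
  have hq0 : 0 < q := by positivity
  refine ⟨a ^ 2 / (C₁ * q), 2 * K, by positivity, by positivity, fun H hH => ?_⟩
  have hH0 : 0 < H := by linarith
  set t : ℝ := q / a * H with ht
  have ht0 : 0 < t := by positivity
  have hz := hu.contDiff_zeta 0 one_pos
  set s := 2 * Real.log H with hs
  set φ : E n → ℝ := fun x => 1 - stp (zeta u 0 1 x - s) with hφ
  have hφc : ContDiff ℝ ∞ φ := contDiff_const.sub (stp_cd.comp (hz.sub contDiff_const))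
  have hφ0 : ∀ x, 0 ≤ φ x := fun x => sub_nonneg.2 (Real.smoothTransition.le_one _)
  have hS := isCompact_sec hu.am.toCvx 0 (K * H)
  have hφ1 : ContDiffOn ℝ 1 φ univ := fun x _ => (one_of_top hφc.contDiffAt).contDiffWithinAt
  have hb2 : ContDiffOn ℝ 2 (fun y => breg u y 0) univ := fun x _ =>
    (two_of_top (cd_b hu 0 x)).contDiffWithinAt
  have h0 := ibp hu.am.toCvx isOpen_univ subset_rfl hS (subset_univ _) hφ1 hb2 fun x _ hx => by
    left
    have h1 : s + 1 ≤ zeta u 0 1 x := by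
      by_contra hc
      have := (hK H hH0 x).1 (not_le.1 hc).le
      exact hx (show breg u x 0 ≤ K * H by linarith)
    simp only [hφ]
    rw [show stp (zeta u 0 1 x - s) = 1 from Real.smoothTransition.one_of_one_le (by linarith),
      sub_self]
  have hJ := ibp_integrableOn hu.am.toCvx isOpen_univ subset_rfl hS (subset_univ _) hφ1 hb2
  have cb := cont_Gam hu (cd_b hu 0) (cd_b hu 0)
  have ck := cont_ker hu 0 one_pos s
  have h1 := lint_le_of_int hS (f := fun x => c₁ * n * φ x)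
    (g := fun x => C₁ * t / 2 * (deriv stp (zeta u 0 1 x - s) * Gam u (zeta u 0 1) (zeta u 0 1) x)
      + C₁ * L / (2 * t) * Gam u (fun y => breg u y 0) (fun y => breg u y 0) x)
    (continuous_const.mul hφc.continuous).continuousOn
    ((continuous_const.mul ck).add (continuous_const.mul cb)).continuousOn
    (fun x _ => by have := hφ0 x; positivity)
    (fun x _ => by
      have := dstp_nonneg (zeta u 0 1 x - s)
      have := Gam_nonneg hu (zeta u 0 1) x
      have := Gam_nonneg hu (fun y => breg u y 0) x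
      positivity) hJ h0 fun x _ => by
      have hd : HasFDerivAt φ (-(deriv stp (zeta u 0 1 x - s) • fderiv ℝ (zeta u 0 1) x)) x :=
        (((stp_cd.differentiable (by simp)) _).hasDerivAt.comp_hasFDerivAt x
          ((diff_of_top hz.contDiffAt).hasFDerivAt.sub_const s)).const_sub 1
      have e1 : Gam u φ (fun y => breg u y 0) x =
          -(deriv stp (zeta u 0 1 x - s) * Gam u (zeta u 0 1) (fun y => breg u y 0) x) := by
        rw [Gam, hd.fderiv, gamB_neg_left, gamB_smul_left]; rfl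
      have e2 : Gam u (zeta u 0 1) (fun y => breg u y 0) x ≤
          t / 2 * Gam u (zeta u 0 1) (zeta u 0 1) x +
          1 / (2 * t) * Gam u (fun y => breg u y 0) (fun y => breg u y 0) x :=
        gam_le_param (pd hu x) _ _ ht0
      rw [e1, Lop_breg_left (at' hu x) (pd hu x)]
      have p1 := dstp_nonneg (zeta u 0 1 x - s)
      have p2 := Gam_nonneg hu (zeta u 0 1) x
      have p3 := Gam_nonneg hu (fun y => breg u y 0) x
      have p4 := hL (zeta u 0 1 x - s)
      have p5 := hu.lower x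
      have p6 := hu.upper x
      have p7 := hφ0 x
      set d := deriv stp (zeta u 0 1 x - s)
      set Gz := Gam u (zeta u 0 1) (zeta u 0 1) x
      set Gb := Gam u (fun y => breg u y 0) (fun y => breg u y 0) x
      set Gc := Gam u (zeta u 0 1) (fun y => breg u y 0) x
      have q1 : d * Gc ≤ t / 2 * (d * Gz) + L * (1 / (2 * t) * Gb) := by
        have r1 := mul_le_mul_of_nonneg_left e2 p1
        have r2 : d * (1 / (2 * t) * Gb) ≤ L * (1 / (2 * t) * Gb) :=
          mul_le_mul_of_nonneg_right p4 (by positivity)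
        nlinarith
      have q2 : hdet u x * (d * Gc) ≤ C₁ * (t / 2 * (d * Gz) + L * (1 / (2 * t) * Gb)) :=
        (mul_le_mul_of_nonneg_left q1 (by linarith)).trans
          (mul_le_mul_of_nonneg_right p6 (by positivity))
      have q3 : c₁ * (n * φ x) ≤ hdet u x * (n * φ x) :=
        mul_le_mul_of_nonneg_right p5 (by positivity)
      have q4 : C₁ * (t / 2 * (d * Gz) + L * (1 / (2 * t) * Gb)) =
          C₁ * t / 2 * (d * Gz) + C₁ * L / (2 * t) * Gb := by ring
      nlinarith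
  have h2 : ENNReal.ofReal (a * H ^ ((n : ℝ) / 2)) ≤
      ∫⁻ x in sec u 0 (K * H), ENNReal.ofReal (c₁ * n * φ x) := by
    have hh : 0 < H / (2 * K) := by positivity
    calc ENNReal.ofReal (a * H ^ ((n : ℝ) / 2))
        = ENNReal.ofReal (c₁ * n) * ENNReal.ofReal (cV * (H / (2 * K)) ^ ((n : ℝ) / 2)) := by
          rw [← ENNReal.ofReal_mul (by positivity), div_eq_mul_one_div H,
            Real.mul_rpow hH0.le (by positivity), ha]
          congr 1
          ring
      _ ≤ ENNReal.ofReal (c₁ * n) * volume (sec u 0 (H / (2 * K))) := by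
          gcongr
          exact (hV 0 _ hh).1
      _ = ∫⁻ _ in sec u 0 (H / (2 * K)), ENNReal.ofReal (c₁ * n) := by
          rw [setLIntegral_const]
      _ = ∫⁻ x in sec u 0 (H / (2 * K)), ENNReal.ofReal (c₁ * n * φ x) := by
          refine setLIntegral_congr_fun (isCompact_sec hu.am.toCvx 0 _).measurableSet
            fun x hx => ?_
          have hx' : breg u x 0 ≤ H / (2 * K) := hx
          rw [le_div_iff₀ (by positivity)] at hx'
          have := (hK H hH0 x).2.2 (by nlinarith)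
          simp only [hφ]
          rw [show stp (zeta u 0 1 x - s) = 0 from
            Real.smoothTransition.zero_of_nonpos (by linarith), sub_zero, mul_one]
      _ ≤ _ := by
          refine lintegral_mono_set fun x hx => le_trans (show breg u x 0 ≤ _ from hx) ?_
          rw [div_le_iff₀ (by positivity)]
          nlinarith [mul_le_mul_of_nonneg_left hK1 hH0.le, mul_pos hK0 hH0]
  have h3 : ∫⁻ x in sec u 0 (K * H), ENNReal.ofReal (C₁ * t / 2 *
        (deriv stp (zeta u 0 1 x - s) * Gam u (zeta u 0 1) (zeta u 0 1) x)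
      + C₁ * L / (2 * t) * Gam u (fun y => breg u y 0) (fun y => breg u y 0) x) ≤
      ENNReal.ofReal (C₁ * t / 2) * (∫⁻ x, ENNReal.ofReal (deriv stp (zeta u 0 1 x - s) *
        Gam u (zeta u 0 1) (zeta u 0 1) x)) + ENNReal.ofReal (a / 2 * H ^ ((n : ℝ) / 2)) := by
    refine (lintegral_mono fun x => ENNReal.ofReal_add_le).trans ?_
    rw [lintegral_add_left (ck.measurable.const_mul _).ennreal_ofReal]
    refine add_le_add ?_ ?_
    · refine (setLIntegral_le_lintegral _ _).trans (le_of_eq ?_)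
      rw [← lintegral_const_mul' _ _ ENNReal.ofReal_ne_top]
      exact lintegral_congr fun x => ENNReal.ofReal_mul (by positivity)
    · simp_rw [ENNReal.ofReal_mul (show 0 ≤ C₁ * L / (2 * t) by positivity)]
      rw [lintegral_const_mul' _ _ ENNReal.ofReal_ne_top]
      refine (mul_le_mul_right (hE 0 (K * H) (by positivity)).1 _).trans (le_of_eq ?_)
      rw [← ENNReal.ofReal_mul (by positivity), Real.mul_rpow hK0.le hH0.le,
        Real.rpow_add_one hH0.ne', ht, hq]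
      congr 1
      field_simp
  refine le_trans (le_of_eq ?_) (le_of_ofReal_le (by positivity) (by positivity)
    (h2.trans (h1.trans h3)))
  congr 1
  rw [Real.rpow_sub_one hH0.ne', ht]
  field_simp
  ring

namespace HarC

lemma abs_log_sub_le {a b δ : ℝ} (hb : 0 < b) (hδ : δ ≤ 1 / 2) (h : |a - b| ≤ δ * b) :
    |Real.log a - Real.log b| ≤ 2 * δ := by
  have h1 := abs_le.1 h
  have hδ0 : 0 ≤ δ := nonneg_of_mul_nonneg_left ((abs_nonneg _).trans h) hb
  have ha : 0 < a := by nlinarith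
  rw [abs_le]
  constructor
  · have := Real.log_le_sub_one_of_pos (div_pos hb ha)
    rw [Real.log_div hb.ne' ha.ne'] at this
    have h2 : b / a ≤ 1 + 2 * δ := by
      rw [div_le_iff₀ ha]
      nlinarith [mul_nonneg hδ0 hb.le, mul_nonneg (mul_nonneg hδ0 hb.le) (sub_nonneg.2 hδ)]
    linarith
  · have := Real.log_le_sub_one_of_pos (div_pos ha hb)
    rw [Real.log_div ha.ne' hb.ne'] at this
    have h2 : a / b ≤ 1 + δ := by
      rw [div_le_iff₀ hb]
      linarith
    linarith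

lemma inv_bounds {a b δ w : ℝ} (hb : 0 < b) (hδ : δ ≤ 1 / 2) (h : |a - b| ≤ δ * b)
    (hw : b⁻¹ ≤ w) : (a⁻¹) ^ 2 ≤ 4 * w ^ 2 ∧ (a⁻¹ - b⁻¹) ^ 2 ≤ 4 * δ ^ 2 * w ^ 2 := by
  have h1 := abs_le.1 h
  have hδ0 : 0 ≤ δ := nonneg_of_mul_nonneg_left ((abs_nonneg _).trans h) hb
  have ha2 : b / 2 ≤ a := by nlinarith
  have ha : 0 < a := by linarith
  have h2 : a⁻¹ ≤ 2 * w := by
    calc a⁻¹ ≤ (b / 2)⁻¹ := inv_anti₀ (by positivity) ha2
      _ = 2 * b⁻¹ := by field_simp
      _ ≤ 2 * w := by linarith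
  have h3 : (a⁻¹) ^ 2 ≤ 4 * w ^ 2 := by
    have := pow_le_pow_left₀ (by positivity) h2 2
    linarith
  refine ⟨h3, ?_⟩
  have h4 : a⁻¹ - b⁻¹ = -((a - b) / b) * a⁻¹ := by field_simp; ring
  have h5 : ((a - b) / b) ^ 2 ≤ δ ^ 2 := by
    refine sq_le_sq' ?_ ?_
    · rw [le_div_iff₀ hb]; linarith
    · rw [div_le_iff₀ hb]; linarith
  rw [h4, mul_pow, neg_sq]
  calc ((a - b) / b) ^ 2 * a⁻¹ ^ 2 ≤ δ ^ 2 * (4 * w ^ 2) :=
        mul_le_mul h5 h3 (by positivity) (by positivity)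
    _ = _ := by ring

lemma d_zeta (hu : Nice u C c₁ C₁) (x₀ : E n) {η : ℝ} (hη : 0 < η) (x : E n) :
    fderiv ℝ (zeta u x₀ η) x = (breg u x x₀ + η)⁻¹ • fderiv ℝ (fun y => breg u y x₀) x +
      (breg u x₀ x + η)⁻¹ • fderiv ℝ (fun y => breg u x₀ y) x + fderiv ℝ (mu u) x := by
  have h1 : breg u x x₀ + η ≠ 0 := by linarith [b_nonneg hu x x₀] |> fun h : 0 < _ => h.ne'
  have h2 : breg u x₀ x + η ≠ 0 := by linarith [b_nonneg hu x₀ x] |> fun h : 0 < _ => h.ne'
  exact (((((diff_of_top (cd_b hu x₀ x)).hasFDerivAt.add_const η).log h1).add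
    (((diff_of_top (cd_t hu x₀ x)).hasFDerivAt.add_const η).log h2)).add
    (diff_of_top (cd_mu hu x)).hasFDerivAt).fderiv

lemma d_b_eq (hu : Nice u C c₁ C₁) (x₁ x : E n) : fderiv ℝ (fun y => breg u y x₁) x =
    fderiv ℝ (fun y => breg u y 0) x + (fderiv ℝ u 0 - fderiv ℝ u x₁) := by
  rw [(hasFDerivAt_breg_left (at' hu x) x₁).fderiv, (hasFDerivAt_breg_left (at' hu x) 0).fderiv]
  abel

lemma d_t_eq (hu : Nice u C c₁ C₁) (x₁ x : E n) : fderiv ℝ (fun y => breg u x₁ y) x =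
    fderiv ℝ (fun y => breg u 0 y) x - fderiv ℝ (dv x₁ u) x := by
  have : (fun y => breg u x₁ y) = fun y => breg u 0 y - dv x₁ u y + (u x₁ - u 0) := by
    funext y
    simp only [breg, dv, map_sub, map_zero]
    ring
  rw [this]
  exact (((diff_of_top (cd_t hu 0 x)).hasFDerivAt.sub
    (diff_of_top (contDiffAt_dv (at' hu x) x₁)).hasFDerivAt).add_const _).fderiv

lemma pointwise (hu : Nice u C c₁ C₁) (x₁ : E n) {η : ℝ} (hη : 0 < η) {L δ w s a : ℝ}
    (hL0 : 0 < L) (hL : ∀ t, deriv stp t ≤ L) (hL' : ∀ s t, deriv stp s ≤ deriv stp t + L * |s - t|)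
    (hδ0 : 0 < δ) (hδ : δ ≤ 1 / 2) (ha0 : 0 ≤ a) (ha1 : a ≤ 1) {x : E n}
    (hB : |breg u x x₁ + η - (breg u x 0 + 1)| ≤ δ * (breg u x 0 + 1))
    (hT : |breg u x₁ x + η - (breg u 0 x + 1)| ≤ δ * (breg u 0 x + 1))
    (hw1 : (breg u x 0 + 1)⁻¹ ≤ w) (hw2 : (breg u 0 x + 1)⁻¹ ≤ w) :
    a * deriv stp (zeta u 0 1 x - s) * Gam u (zeta u 0 1) (zeta u 0 1) x ≤
      2 * (a * deriv stp (zeta u x₁ η x - s) * Gam u (zeta u x₁ η) (zeta u x₁ η) x) +
      (48 * L * δ * w ^ 2 * Gam u (fun y => breg u y 0) (fun y => breg u y 0) x +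
        48 * L * δ * w ^ 2 * Gam u (fun y => breg u 0 y) (fun y => breg u 0 y) x +
        8 * L * δ * Gam u (mu u) (mu u) x +
        32 * L * w ^ 2 * gamB u x (fderiv ℝ u 0 - fderiv ℝ u x₁) (fderiv ℝ u 0 - fderiv ℝ u x₁) +
        32 * L * w ^ 2 * hq u x x₁ x₁) := by
  have hA := pd hu x
  have hB0 : 0 < breg u x 0 + 1 := by linarith [b_nonneg hu x 0]
  have hT0 : 0 < breg u 0 x + 1 := by linarith [b_nonneg hu 0 x]
  obtain ⟨i1, i2⟩ := inv_bounds hB0 hδ hB hw1
  obtain ⟨i3, i4⟩ := inv_bounds hT0 hδ hT hw2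
  have l1 := abs_log_sub_le hB0 hδ hB
  have l2 := abs_log_sub_le hT0 hδ hT
  have hd : |zeta u 0 1 x - s - (zeta u x₁ η x - s)| ≤ 4 * δ := by
    have h1 := abs_le.1 l1
    have h2 := abs_le.1 l2
    rw [abs_le, zeta, zeta]
    constructor <;> linarith
  have hq1 : hq u x x₁ x₁ = gamB u x (fderiv ℝ (dv x₁ u) x) (fderiv ℝ (dv x₁ u) x) := by
    rw [gamB_dv (at' hu x) hA, fderiv_dv_apply (at' hu x)]
  have j1 : ((breg u x 0 + 1)⁻¹) ^ 2 ≤ w ^ 2 := pow_le_pow_left₀ (by positivity) hw1 2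
  have j2 : ((breg u 0 x + 1)⁻¹) ^ 2 ≤ w ^ 2 := pow_le_pow_left₀ (by positivity) hw2 2
  have z0 := d_zeta hu 0 one_pos x
  have z1 := d_zeta hu x₁ hη x
  rw [d_b_eq hu x₁ x, d_t_eq hu x₁ x] at z1
  rw [hq1]
  simp only [Gam]
  set pb := fderiv ℝ (fun y => breg u y 0) x
  set pt := fderiv ℝ (fun y => breg u 0 y) x
  set pm := fderiv ℝ (mu u) x
  set l := fderiv ℝ u 0 - fderiv ℝ u x₁
  set m := fderiv ℝ (dv x₁ u) x
  set p0 := fderiv ℝ (zeta u 0 1) x
  set p1 := fderiv ℝ (zeta u x₁ η) x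
  set B0 := (breg u x 0 + 1)⁻¹
  set T0 := (breg u 0 x + 1)⁻¹
  set B1 := (breg u x x₁ + η)⁻¹
  set T1 := (breg u x₁ x + η)⁻¹
  have n1 := gamB_nonneg hA pb
  have n2 := gamB_nonneg hA pt
  have n3 := gamB_nonneg hA pm
  have n4 := gamB_nonneg hA l
  have n5 := gamB_nonneg hA m
  have n6 := gamB_nonneg hA p0
  have n7 := gamB_nonneg hA p1
  have hs : ∀ (c : ℝ) (p : E n →L[ℝ] ℝ), gamB u x (c • p) (c • p) = c ^ 2 * gamB u x p p :=
    fun c p => by rw [gamB_smul_left, gamB_smul_right]; ring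
  have g0 : gamB u x p0 p0 ≤ 4 * (w ^ 2 * gamB u x pb pb) + 4 * (w ^ 2 * gamB u x pt pt)
      + 2 * gamB u x pm pm := by
    have a1 := gam_add_le hA (B0 • pb + T0 • pt) pm
    have a2 := gam_add_le hA (B0 • pb) (T0 • pt)
    rw [hs, hs] at a2
    rw [← z0] at a1
    have a3 := mul_le_mul_of_nonneg_right j1 n1
    have a4 := mul_le_mul_of_nonneg_right j2 n2
    linarith
  have hdd : p0 = p1 + ((-(B1 - B0)) • pb + (-B1) • l + ((-(T1 - T0)) • pt + T1 • m)) := by
    rw [z0, z1]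
    module
  have g1 : gamB u x p0 p0 ≤ 2 * gamB u x p1 p1 + 32 * (δ ^ 2 * w ^ 2 * gamB u x pb pb)
      + 32 * (δ ^ 2 * w ^ 2 * gamB u x pt pt) + 32 * (w ^ 2 * gamB u x l l)
      + 32 * (w ^ 2 * gamB u x m m) := by
    have a1 := gam_add_le hA p1
      ((-(B1 - B0)) • pb + (-B1) • l + ((-(T1 - T0)) • pt + T1 • m))
    rw [← hdd] at a1
    have a2 := gam_add_le hA ((-(B1 - B0)) • pb + (-B1) • l) ((-(T1 - T0)) • pt + T1 • m)
    have a3 := gam_add_le hA ((-(B1 - B0)) • pb) ((-B1) • l)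
    have a4 := gam_add_le hA ((-(T1 - T0)) • pt) (T1 • m)
    rw [hs, hs, neg_sq, neg_sq] at a3
    rw [hs, hs, neg_sq] at a4
    have b1 := mul_le_mul_of_nonneg_right i2 n1
    have b2 := mul_le_mul_of_nonneg_right i1 n4
    have b3 := mul_le_mul_of_nonneg_right i4 n2
    have b4 := mul_le_mul_of_nonneg_right i3 n5
    linarith
  have d0 := dstp_nonneg (zeta u 0 1 x - s)
  have d1 := dstp_nonneg (zeta u x₁ η x - s)
  have d2 := hL (zeta u x₁ η x - s)
  have d3 : deriv stp (zeta u 0 1 x - s) ≤ deriv stp (zeta u x₁ η x - s) + L * (4 * δ) :=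
    (hL' _ (zeta u x₁ η x - s)).trans (by gcongr)
  set e0 := deriv stp (zeta u 0 1 x - s)
  set e1 := deriv stp (zeta u x₁ η x - s)
  set R := 32 * (δ ^ 2 * w ^ 2 * gamB u x pb pb)
      + 32 * (δ ^ 2 * w ^ 2 * gamB u x pt pt) + 32 * (w ^ 2 * gamB u x l l)
      + 32 * (w ^ 2 * gamB u x m m) with hR
  have hR0 : 0 ≤ R := by positivity
  have k1 : a * e0 * gamB u x p0 p0 ≤ a * (e1 + L * (4 * δ)) * gamB u x p0 p0 := by gcongr
  have k2 : a * e1 * gamB u x p0 p0 ≤ a * e1 * (2 * gamB u x p1 p1 + R) :=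
    mul_le_mul_of_nonneg_left (by rw [hR]; linarith) (by positivity)
  have k3 : a * e1 * R ≤ 1 * L * R := by gcongr
  have k4 : a * (L * (4 * δ)) * gamB u x p0 p0 ≤ 1 * (L * (4 * δ)) *
      (4 * (w ^ 2 * gamB u x pb pb) + 4 * (w ^ 2 * gamB u x pt pt) + 2 * gamB u x pm pm) := by
    gcongr
  have k5 : δ ^ 2 ≤ δ := by nlinarith
  have k6 : L * (δ ^ 2 * w ^ 2 * gamB u x pb pb) ≤ L * (δ * w ^ 2 * gamB u x pb pb) := by gcongr
  have k7 : L * (δ ^ 2 * w ^ 2 * gamB u x pt pt) ≤ L * (δ * w ^ 2 * gamB u x pt pt) := by gcongr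
  rw [hR] at k3
  nlinarith

lemma exists_small (hu : Nice u C c₁ C₁) (x₁ : E n) {K δ : ℝ} (hK : 0 < K) (hδ : 0 < δ) (c : ℝ) :
    ∃ H₀ : ℝ, 0 < H₀ ∧ ∀ H : ℝ, H₀ ≤ H → c ≤ δ * H ∧ ∀ x ∈ sec u 0 (2 * (K * H)),
      |(fderiv ℝ u 0 - fderiv ℝ u x₁) (x - 0)| ≤ δ * H ∧
      |fderiv ℝ u x x₁ - fderiv ℝ u 0 x₁| ≤ δ * H := by
  have hC : 0 < C := lt_of_lt_of_le one_pos hu.qs.one_le
  set l := fderiv ℝ u 0 - fderiv ℝ u x₁
  obtain ⟨M₁, hM₁⟩ := superlinear hu.qs 0 (4 * K * ‖l‖ / δ)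
  obtain ⟨M₂, hM₂⟩ := superlinear_dual hu.am.toCvx 0 x₁ (4 * C * K / δ)
  refine ⟨|c| / δ + |M₁| / (2 * K) + |M₂| / (2 * C * K) + 1, by positivity, fun H hH => ?_⟩
  have p1 : 0 ≤ |c| / δ := by positivity
  have p2 : 0 ≤ |M₁| / (2 * K) := by positivity
  have p3 : 0 ≤ |M₂| / (2 * C * K) := by positivity
  have q1 : |c| ≤ H * δ := by rw [← div_le_iff₀ hδ]; linarith
  have q2 : |M₁| ≤ H * (2 * K) := by rw [← div_le_iff₀ (by positivity)]; linarith
  have q3 : |M₂| ≤ H * (2 * C * K) := by rw [← div_le_iff₀ (by positivity)]; linarith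
  refine ⟨by linarith [le_abs_self c], fun x hx => ⟨?_, ?_⟩⟩
  · have h1 := hM₁ x
    have h2 : breg u x 0 ≤ 2 * (K * H) := hx
    have h3 : |l (x - 0)| ≤ ‖l‖ * ‖x - 0‖ := l.le_opNorm _
    have h4 : 4 * K * ‖l‖ / δ * ‖x - 0‖ ≤ 4 * K * H := by linarith [le_abs_self M₁]
    rw [div_mul_eq_mul_div, div_le_iff₀ hδ] at h4
    have h5 : 4 * K * (‖l‖ * ‖x - 0‖) ≤ 4 * K * (δ * H) := by linarith
    exact h3.trans (le_of_mul_le_mul_left h5 (by positivity))
  · have h1 := hM₂ x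
    have h2 : breg u 0 x ≤ C * (2 * (K * H)) :=
      (hu.qs.quasi 0 x).trans (mul_le_mul_of_nonneg_left hx hC.le)
    have h4 : 4 * C * K / δ * |fderiv ℝ u x x₁ - fderiv ℝ u 0 x₁| ≤ 4 * C * K * H := by
      linarith [le_abs_self M₂]
    rw [div_mul_eq_mul_div, div_le_iff₀ hδ] at h4
    have h5 : 4 * C * K * |fderiv ℝ u x x₁ - fderiv ℝ u 0 x₁| ≤ 4 * C * K * (δ * H) := by linarith
    exact le_of_mul_le_mul_left h5 (by positivity)

lemma lint_add_le {S : Set (E n)} {f g : E n → ℝ} {a b : ℝ} (hf : Measurable f) (ha : 0 ≤ a)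
    (hb : 0 ≤ b) (h1 : ∫⁻ x in S, ENNReal.ofReal (f x) ≤ ENNReal.ofReal a)
    (h2 : ∫⁻ x in S, ENNReal.ofReal (g x) ≤ ENNReal.ofReal b) :
    ∫⁻ x in S, ENNReal.ofReal (f x + g x) ≤ ENNReal.ofReal (a + b) := by
  refine (lintegral_mono fun x => ENNReal.ofReal_add_le).trans ?_
  rw [lintegral_add_left hf.ennreal_ofReal, ENNReal.ofReal_add ha hb]
  exact add_le_add h1 h2

lemma lint_mul_le {S : Set (E n)} {f : E n → ℝ} {a c : ℝ} (hc : 0 ≤ c)
    (h1 : ∫⁻ x in S, ENNReal.ofReal (f x) ≤ ENNReal.ofReal a) :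
    ∫⁻ x in S, ENNReal.ofReal (c * f x) ≤ ENNReal.ofReal (c * a) := by
  simp_rw [ENNReal.ofReal_mul hc]
  rw [lintegral_const_mul' _ _ ENNReal.ofReal_ne_top]
  exact mul_le_mul_right h1 _

end HarC

theorem Nice.mass_compare (hn : 2 ≤ n) (hu : Nice u C c₁ C₁) (x₁ : E n) {η : ℝ} (hη : 0 < η)
    {ε : ℝ} (hε : 0 < ε) : ∃ H₀ : ℝ, 0 < H₀ ∧ ∀ H : ℝ, H₀ ≤ H →
      ∀ f : E n → ℝ, Continuous f → (∀ x, 0 ≤ f x) → (∀ x, f x ≤ 1) →
      ∫⁻ x, ENNReal.ofReal (f x * deriv stp (zeta u 0 1 x - 2 * Real.log H) *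
          Gam u (zeta u 0 1) (zeta u 0 1) x) ≤
        2 * (∫⁻ x, ENNReal.ofReal (f x * deriv stp (zeta u x₁ η x - 2 * Real.log H) *
          Gam u (zeta u x₁ η) (zeta u x₁ η) x)) +
        ENNReal.ofReal (ε * H ^ ((n : ℝ) / 2 - 1)) := by
  obtain ⟨K, hK1, hK⟩ := exists_K hu
  obtain ⟨L, hL0, hL, hL'⟩ := exists_L
  obtain ⟨KE, hKE, hE⟩ := hu.energy hn
  have hC1 := hu.qs.one_le
  have hC : 0 < C := by linarith
  have hK0 : 0 < K := by linarith
  set Q : ℝ := L * KE * (96 * C ^ 2 * K ^ 4 + 24) * K ^ ((n : ℝ) / 2 - 1) with hQ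
  have hQ0 : 0 < Q := by positivity
  set δ : ℝ := min (1 / 2) (ε / Q) with hδ
  have hδ0 : 0 < δ := by positivity
  have hδ1 : δ ≤ 1 / 2 := min_le_left _ _
  have hδ2 : δ * Q ≤ ε := by rw [← le_div_iff₀ hQ0]; exact min_le_right _ _
  obtain ⟨H₀, hH₀, hsm⟩ := exists_small hu x₁ hK0 (show 0 < δ / (2 * C * K) by positivity)
    (max |u 0 - u x₁ + fderiv ℝ u x₁ x₁ + η - 1| |u x₁ - u 0 - fderiv ℝ u 0 x₁ + η - 1|)
  refine ⟨H₀, hH₀, fun H hH f hf hf0 hf1 => ?_⟩
  have hH0 : 0 < H := by linarith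
  obtain ⟨hc, hs⟩ := hsm H hH
  obtain ⟨E1, E2, E3, E4, E5⟩ := hE 0 (K * H) (by positivity)
  replace E4 := E4 _ _ fun x hx => (hs x hx).1
  replace E5 := E5 _ _ fun x hx => (hs x hx).2
  set w : ℝ := C * K / H with hw
  have cb := (cont_Gam hu (cd_b hu 0) (cd_b hu 0)).measurable
  have ct := (cont_Gam hu (cd_t hu 0) (cd_t hu 0)).measurable
  have cm := (cont_Gam hu (cd_mu hu) (cd_mu hu)).measurable
  have cl : Measurable fun x =>
      gamB u x (fderiv ℝ u 0 - fderiv ℝ u x₁) (fderiv ℝ u 0 - fderiv ℝ u x₁) :=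
    (continuous_iff_continuousAt.2 fun x => continuousAt_gamB (at' hu x) (pd hu x)
      continuousAt_const continuousAt_const).measurable
  have hI := lint_add_le ((((cb.const_mul _).add (ct.const_mul _)).add (cm.const_mul _)).add
    (cl.const_mul _)) (by positivity) (by positivity) (lint_add_le (((cb.const_mul _).add
      (ct.const_mul _)).add (cm.const_mul _)) (by positivity) (by positivity)
      (lint_add_le ((cb.const_mul _).add (ct.const_mul _)) (by positivity) (by positivity)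
        (lint_add_le (cb.const_mul _) (by positivity) (by positivity)
          (lint_mul_le (c := 48 * L * δ * w ^ 2) (by positivity) E1)
          (lint_mul_le (c := 48 * L * δ * w ^ 2) (by positivity) E2))
        (lint_mul_le (c := 8 * L * δ) (by positivity) E3))
      (lint_mul_le (c := 32 * L * w ^ 2) (by positivity) E4))
    (lint_mul_le (c := 32 * L * w ^ 2) (by positivity) E5)
  have hS := (isCompact_sec hu.am.toCvx 0 (K * H)).measurableSet
  have m1 : Measurable fun x => 2 * ENNReal.ofReal (f x *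
      deriv stp (zeta u x₁ η x - 2 * Real.log H) * Gam u (zeta u x₁ η) (zeta u x₁ η) x) := by
    simp_rw [mul_assoc]
    exact (hf.measurable.mul (cont_ker hu x₁ hη _).measurable).ennreal_ofReal.const_mul _
  rw [← lintegral_const_mul' _ _ (by norm_num)]
  refine le_trans ?_ (add_le_add le_rfl (hI.trans (ENNReal.ofReal_le_ofReal ?_)))
  · rw [← lintegral_indicator hS, ← lintegral_add_left m1]
    refine lintegral_mono fun x => ?_
    by_cases h1 : zeta u 0 1 x ≤ 2 * Real.log H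
    · rw [dstp_of_nonpos (by linarith)]; simp
    by_cases h2 : 2 * Real.log H + 1 ≤ zeta u 0 1 x
    · rw [dstp_of_one_le (by linarith)]; simp
    have h3 := (hK H hH0 x).1 (not_le.1 h2).le
    have h4 := (hK H hH0 x).2.1 (not_le.1 h1).le
    have b0 := b_nonneg hu x 0
    have t0 := b_nonneg hu 0 x
    have hx : x ∈ sec u 0 (K * H) := show breg u x 0 ≤ K * H by linarith
    have hx2 : x ∈ sec u 0 (2 * (K * H)) :=
      show breg u x 0 ≤ 2 * (K * H) by linarith [mul_pos hK0 hH0]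
    have h5 : H ≤ C * K * (breg u x 0 + 1) :=
      h4.trans (by nlinarith [mul_nonneg hK0.le (show 0 ≤ breg u x 0 + 1 by linarith)])
    have h6 : H ≤ C * K * (breg u 0 x + 1) := by
      have := hu.qs.quasi x 0
      refine h4.trans ?_
      rw [mul_comm C K, mul_assoc]
      exact mul_le_mul_of_nonneg_left (by linarith) hK0.le
    have hsm2 : ∀ B : ℝ, H ≤ C * K * B → 2 * (δ / (2 * C * K) * H) ≤ δ * B := fun B hB => by
      calc 2 * (δ / (2 * C * K) * H) ≤ 2 * (δ / (2 * C * K) * (C * K * B)) := by gcongr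
        _ = δ * B := by field_simp
    have hwB : ∀ B : ℝ, 0 < B → H ≤ C * K * B → B⁻¹ ≤ w := fun B hB0 hB => by
      rw [hw, inv_eq_one_div, div_le_div_iff₀ hB0 hH0]
      linarith
    obtain ⟨s1, s2⟩ := hs x hx2
    have hB : |breg u x x₁ + η - (breg u x 0 + 1)| ≤ δ * (breg u x 0 + 1) := by
      refine le_trans ?_ (hsm2 _ h5)
      have e : breg u x x₁ + η - (breg u x 0 + 1) = (fderiv ℝ u 0 - fderiv ℝ u x₁) (x - 0) +
          (u 0 - u x₁ + fderiv ℝ u x₁ x₁ + η - 1) := by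
        simp only [breg, map_sub, sub_zero, sub_apply]
        ring
      rw [e]
      refine (abs_add_le _ _).trans ?_
      linarith [(le_max_left _ _).trans hc]
    have hT : |breg u x₁ x + η - (breg u 0 x + 1)| ≤ δ * (breg u 0 x + 1) := by
      refine le_trans ?_ (hsm2 _ h6)
      have e : breg u x₁ x + η - (breg u 0 x + 1) = -(fderiv ℝ u x x₁ - fderiv ℝ u 0 x₁) +
          (u x₁ - u 0 - fderiv ℝ u 0 x₁ + η - 1) := by
        simp only [breg, map_sub, map_zero]
        ring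
      rw [e]
      refine (abs_add_le _ _).trans ?_
      rw [abs_neg]
      linarith [(le_max_right _ _).trans hc]
    have hp := pointwise hu x₁ hη (s := 2 * Real.log H) hL0 hL hL' hδ0 hδ1 (hf0 x) (hf1 x) hB hT
      (hwB _ (by linarith) h5) (hwB _ (by linarith) h6)
    rw [indicator_of_mem hx]
    refine (ENNReal.ofReal_le_ofReal hp).trans (ENNReal.ofReal_add_le.trans (le_of_eq ?_))
    rw [ENNReal.ofReal_mul (p := 2) (by norm_num), ENNReal.ofReal_ofNat]
    rfl
  · have e1 : (K * H) ^ ((n : ℝ) / 2 + 1) = (K * H) ^ ((n : ℝ) / 2 - 1) * (K * H) ^ 2 := by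
      rw [← Real.rpow_natCast, ← Real.rpow_add (by positivity)]
      congr 1
      push_cast
      ring
    have hP : 0 < K ^ ((n : ℝ) / 2 - 1) := by positivity
    have hP' : 0 < H ^ ((n : ℝ) / 2 - 1) := by positivity
    rw [e1, Real.mul_rpow hK0.le hH0.le]
    refine le_trans ?_ (mul_le_mul_of_nonneg_right hδ2 hP'.le)
    have e2 : δ * Q * H ^ ((n : ℝ) / 2 - 1) = (96 * C ^ 2 * K ^ 4 * δ + 8 * δ + 16 * δ) *
        (L * KE * K ^ ((n : ℝ) / 2 - 1) * H ^ ((n : ℝ) / 2 - 1)) := by rw [hQ]; ring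
    rw [e2]
    refine le_trans (le_of_eq (b := (96 * C ^ 2 * K ^ 4 * δ + 8 * δ + 16 * δ ^ 2) *
        (L * KE * K ^ ((n : ℝ) / 2 - 1) * H ^ ((n : ℝ) / 2 - 1))) ?_) ?_
    · rw [hw]
      field_simp
      ring
    · refine mul_le_mul_of_nonneg_right ?_ (by positivity)
      nlinarith

end Crest.Agent.R236

end
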