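import Crest.Agent.R236.Key
import Crest.Agent.R236.Cen

/-!
The bootstrap.
-/

set_option autoImplicit false

open scoped ContDiff RealInnerProductSpace Topology
open MeasureTheory Set Filter
open Crest.GeometryTopology.CoordMetric Crest.GeometryTopology.AffineMaximal

noncomputable section

namespace Crest.Agent.R236

variable {n : ℕ}

namespace Jrec

/-- bound on the section -/
def J (n : ℕ) (c X : ℝ) : Prop := ∃ C : ℝ, 0 < C ∧
  ∀ (Ω : Set (E n)) (u : E n → ℝ), AM Ω u → ∀ x₀ ∈ Ω, ∀ h : ℝ, 0 < h →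
    ∀ (y : E n) (T : E n ≃L[ℝ] E n), IsCtr c (dsec Ω u x₀ (2 * h)) y T →
    ∫⁻ x in {x | x ∈ Ω ∧ breg u x₀ x ≤ h},
        ENNReal.ofReal (alpha u x₀ h y x ^ (-X) * √(hdet u x)) ≤
      ENNReal.ofReal (C * h ^ ((n : ℝ) / 2))

/-- global weighted bound -/
def S (n : ℕ) (c X : ℝ) : Prop := ∃ C : ℝ, 0 < C ∧
  ∀ (Ω : Set (E n)) (u : E n → ℝ), AM Ω u → ∀ x₀ ∈ Ω, ∀ h : ℝ, 0 < h →
    ∀ (y : E n) (T : E n ≃L[ℝ] E n), IsCtr c (dsec Ω u x₀ (2 * h)) y T →
    ∫⁻ x in Ω, ENNReal.ofReal (alpha u x₀ h y x ^ (1 / 100 - X) *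
        theta u x₀ h x ^ (-(2 / 100 + (n : ℝ) / 2)) * √(hdet u x)) ≤
      ENNReal.ofReal (C * h ^ ((n : ℝ) / 2))

lemma isOpen_lt {Ω : Set (E n)} {u : E n → ℝ} (hu : Cvx Ω u) (x₀ : E n) (h t : ℝ) :
    IsOpen {x | x ∈ Ω ∧ theta u x₀ h x < t} :=
  (continuousOn_theta hu x₀ h).isOpen_inter_preimage hu.isOpen isOpen_Iio

lemma J_of_S {c X : ℝ} (hc : 0 < c) (H : S n c X) : J n c (X - 1 / 100) := by
  obtain ⟨C, hC, H⟩ := H
  set b : ℝ := 2 / 100 + (n : ℝ) / 2 with hb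
  have hb0 : 0 ≤ b := by positivity
  refine ⟨3 ^ b * C, by positivity, fun Ω u hu x₀ hx₀ h hh y T hT => ?_⟩
  calc _ ≤ ∫⁻ x in {x | x ∈ Ω ∧ theta u x₀ h x < 3},
        ENNReal.ofReal (alpha u x₀ h y x ^ (-(X - 1 / 100)) * √(hdet u x)) := by
        refine lintegral_mono_set fun x hx => ⟨hx.1, ?_⟩
        have : theta u x₀ h x = (breg u x₀ x + h) / h := rfl
        rw [this, div_lt_iff₀ hh]
        linarith [hx.2]
    _ ≤ ∫⁻ x in {x | x ∈ Ω ∧ theta u x₀ h x < 3}, ENNReal.ofReal (3 ^ b) *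
        ENNReal.ofReal (alpha u x₀ h y x ^ (1 / 100 - X) * theta u x₀ h x ^ (-b) *
          √(hdet u x)) := by
        refine setLIntegral_mono' (isOpen_lt hu.toCvx x₀ h 3).measurableSet fun x hx => ?_
        rw [← ENNReal.ofReal_mul (by positivity)]
        refine ENNReal.ofReal_le_ofReal ?_
        have h1 := one_le_theta hu.toCvx hx₀ hh hx.1
        have h2 := one_le_alpha hu.toCvx hx₀ hh hc hT hx.1
        have h3 : 1 ≤ 3 ^ b * theta u x₀ h x ^ (-b) := by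
          rw [Real.rpow_neg (by linarith), ← div_eq_mul_inv, one_le_div (by positivity)]
          exact Real.rpow_le_rpow (by linarith) hx.2.le hb0
        have h4 : 0 ≤ alpha u x₀ h y x ^ (1 / 100 - X) * √(hdet u x) := by positivity
        rw [neg_sub]
        nlinarith
    _ ≤ ENNReal.ofReal (3 ^ b) * ENNReal.ofReal (C * h ^ ((n : ℝ) / 2)) := by
        rw [lintegral_const_mul' _ _ ENNReal.ofReal_ne_top]
        gcongr
        exact (lintegral_mono_set fun x hx => hx.1).trans (H Ω u hu x₀ hx₀ h hh y T hT)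
    _ = _ := by rw [← ENNReal.ofReal_mul (by positivity), mul_assoc]

lemma S_of_J (hn : 3 ≤ n) (hn' : n ≤ 9) {c X : ℝ} (hc : 0 < c) (hX : 0 ≤ X)
    (hctr : ∀ D : Set (E n), IsCompact D → Convex ℝ D → (interior D).Nonempty →
      ∃ (o : E n) (T : E n ≃L[ℝ] E n), IsCtr c D o T) (H : J n c X) : S n c X := by
  obtain ⟨C, hC, H⟩ := H
  obtain ⟨C₁, hC₁, hkey⟩ := key hn hn' hX
  set K : ℝ := 4 + 6 / c with hK
  have hK0 : 0 < K := by positivity
  set r : ℝ := 2 ^ (-(1 / 100) : ℝ) with hr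
  have hr0 : 0 ≤ r := by positivity
  have hr1 : r < 1 := Real.rpow_lt_one_of_one_lt_of_neg one_lt_two (by norm_num)
  have hr2 : 0 < (1 - r)⁻¹ := inv_pos.2 (by linarith)
  set a : ℝ := 1 / 100 + (n : ℝ) / 2 with ha
  have ha0 : 0 ≤ a := by positivity
  refine ⟨C₁ * (K ^ X * C * 2 ^ ((n : ℝ) / 2) * (1 - r)⁻¹), by positivity,
    fun Ω u hu x₀ hx₀ h hh y T hT => ?_⟩
  have hv := hu.toCvx
  refine (hkey Ω u hu x₀ hx₀ h hh y (fun x hx => one_le_alpha hv hx₀ hh hc hT hx)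
    (isCompact_sub_alpha hv hx₀ hh hc hT)).trans ?_
  rw [mul_assoc C₁, ENNReal.ofReal_mul hC₁.le]
  gcongr
  let P : ℕ → Set (E n) := fun i =>
    {x | x ∈ Ω ∧ theta u x₀ h x < 2 ^ (i + 1)} \ {x | x ∈ Ω ∧ theta u x₀ h x < 2 ^ i}
  have hP : ∀ i, ∫⁻ x in P i, ENNReal.ofReal (alpha u x₀ h y x ^ (-X) * theta u x₀ h x ^ (-a) *
      √(hdet u x)) ≤
      ENNReal.ofReal (K ^ X * C * 2 ^ ((n : ℝ) / 2) * h ^ ((n : ℝ) / 2) * r ^ i) := by
    intro i
    have ht : (1 : ℝ) ≤ 2 ^ (i + 1) := one_le_pow₀ one_le_two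
    have hth : 0 < 2 ^ (i + 1) * h := by positivity
    obtain ⟨y', T', hT'⟩ := hctr _ (hv.isCompact_dsec hx₀ (2 * (2 ^ (i + 1) * h)))
      (convex_dsec _ _ _ _) (hv.interior_dsec hx₀ (by positivity))
    have hy' : y' ∈ dsec Ω u x₀ (2 * (2 ^ (i + 1) * h)) := by
      simpa using hT'.inner 0 (by simpa using hc.le)
    calc _ ≤ ∫⁻ x in P i, ENNReal.ofReal (K ^ X * ((2 : ℝ) ^ i) ^ (-a)) *
          ENNReal.ofReal (alpha u x₀ (2 ^ (i + 1) * h) y' x ^ (-X) * √(hdet u x)) := by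
          refine setLIntegral_mono' ((isOpen_lt hv x₀ h _).measurableSet.diff
            (isOpen_lt hv x₀ h _).measurableSet) fun x hx => ?_
          rw [← ENNReal.ofReal_mul (by positivity)]
          refine ENNReal.ofReal_le_ofReal ?_
          have hx1 : x ∈ Ω := hx.1.1
          have h1 : (2 : ℝ) ^ i ≤ theta u x₀ h x := not_lt.1 fun h' => hx.2 ⟨hx1, h'⟩
          have h2 := one_le_alpha hv hx₀ hh hc hT hx1
          have h3 := one_le_alpha hv hx₀ hth hc hT' hx1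
          have h4 := alpha_le_alpha hv hx₀ hh hc hT ht hy' hx1
          have h5 : theta u x₀ h x ^ (-a) ≤ ((2 : ℝ) ^ i) ^ (-a) :=
            Real.rpow_le_rpow_of_nonpos (by positivity) h1 (by linarith)
          have h6 : alpha u x₀ h y x ^ (-X) ≤ K ^ X * alpha u x₀ (2 ^ (i + 1) * h) y' x ^ (-X) := by
            have := Real.rpow_le_rpow_of_nonpos (by linarith) h4 (show -X ≤ 0 by linarith)
            rw [Real.mul_rpow hK0.le (by linarith), Real.rpow_neg hK0.le,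
              inv_mul_le_iff₀ (by positivity)] at this
            exact this
          have h7 : 0 ≤ theta u x₀ h x ^ (-a) := Real.rpow_nonneg ((by positivity : (0 : ℝ) ≤ 2 ^ i).trans h1) _
          calc _ ≤ K ^ X * alpha u x₀ (2 ^ (i + 1) * h) y' x ^ (-X) * ((2 : ℝ) ^ i) ^ (-a) *
                √(hdet u x) := by gcongr
            _ = _ := by ring
      _ ≤ ENNReal.ofReal (K ^ X * ((2 : ℝ) ^ i) ^ (-a)) *
          ENNReal.ofReal (C * (2 ^ (i + 1) * h) ^ ((n : ℝ) / 2)) := by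
          rw [lintegral_const_mul' _ _ ENNReal.ofReal_ne_top]
          gcongr
          refine le_trans (lintegral_mono_set ?_) (H Ω u hu x₀ hx₀ _ hth y' T' hT')
          refine fun x hx => ⟨hx.1.1, ?_⟩
          have h1 : (breg u x₀ x + h) / h < 2 ^ (i + 1) := hx.1.2
          rw [div_lt_iff₀ hh] at h1
          linarith
      _ = _ := by
          rw [← ENNReal.ofReal_mul (by positivity)]
          congr 1
          have e : ((2 : ℝ) ^ i) ^ (-a) * ((2 : ℝ) ^ i) ^ ((n : ℝ) / 2) = r ^ i := by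
            rw [← Real.rpow_add (by positivity), hr, ← Real.rpow_natCast, ← Real.rpow_natCast,
              ← Real.rpow_mul zero_le_two, ← Real.rpow_mul zero_le_two]
            congr 1
            rw [ha]; ring
          rw [Real.mul_rpow (by positivity) hh.le, pow_succ, Real.mul_rpow (by positivity) zero_le_two,
            ← e]
          ring
  have hcov : Ω ⊆ ⋃ i, P i := fun x hx => by
    obtain ⟨i, h1, h2⟩ := exists_nat_pow_near (one_le_theta hv hx₀ hh hx) one_lt_two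
    exact mem_iUnion.2 ⟨i, ⟨hx, h2⟩, fun h' => h'.2.not_ge h1⟩
  refine (lintegral_mono_set hcov).trans ((lintegral_iUnion_le _ _).trans
    ((ENNReal.tsum_le_tsum hP).trans (le_of_eq ?_)))
  rw [← ENNReal.ofReal_tsum_of_nonneg (fun i => by positivity)
    ((summable_geometric_of_lt_one hr0 hr1).mul_left _), tsum_mul_left,
    tsum_geometric_of_lt_one hr0 hr1]
  congr 1
  ring

end Jrec

theorem jbound (hn : 3 ≤ n) (hn' : n ≤ 9) : ∃ c C : ℝ, 0 < c ∧ c ≤ 1 ∧ 0 < C ∧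
    ∀ (Ω : Set (E n)) (u : E n → ℝ), AM Ω u → ∀ x₀ ∈ Ω, ∀ h : ℝ, 0 < h →
      ∃ (y : E n) (T : E n ≃L[ℝ] E n), IsCtr c (dsec Ω u x₀ (2 * h)) y T ∧
      ∫⁻ x in Ω, ENNReal.ofReal (alpha u x₀ h y x ^ (1 / 100 : ℝ) *
          theta u x₀ h x ^ (-(2 / 100 + (n : ℝ) / 2)) * √(hdet u x)) ≤
        ENNReal.ofReal (C * h ^ ((n : ℝ) / 2)) := by
  obtain ⟨c, hc, hc1, hctr⟩ := exists_ctr n
  have step : ∀ j : ℕ, Jrec.J n c (j / 100) → Jrec.S n c 0 := by
    intro j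
    induction j with
    | zero => intro H; exact Jrec.S_of_J hn hn' hc le_rfl hctr (by simpa using H)
    | succ j ih =>
      intro H
      refine ih ?_
      convert Jrec.J_of_S hc (Jrec.S_of_J hn hn' hc (by positivity) hctr H) using 1
      push_cast; ring
  obtain ⟨C₀, hC₀, H₀⟩ := jbase (n := n) hc (X := ((50 * n + 1 : ℕ) : ℝ) / 100) (by push_cast; linarith)
  obtain ⟨C, hC, H⟩ := step (50 * n + 1) ⟨C₀, hC₀, fun Ω u hu => H₀ Ω u hu.toCvx⟩
  refine ⟨c, C, hc, hc1, hC, fun Ω u hu x₀ hx₀ h hh => ?_⟩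
  obtain ⟨y, T, hT⟩ := hctr _ (hu.toCvx.isCompact_dsec hx₀ (2 * h)) (convex_dsec _ _ _ _)
    (hu.toCvx.interior_dsec hx₀ (by positivity))
  exact ⟨y, T, hT, by simpa only [sub_zero] using H Ω u hu x₀ hx₀ h hh y T hT⟩

end Crest.Agent.R236

end
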