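import Crest.Agent.R236.CalcB
import Crest.Agent.R236.Conv
import Crest.Agent.R236.KeyAlg

/-!
The key integral inequality; here `3 ≤ n ≤ 9` is used.
-/

set_option autoImplicit false

open scoped ContDiff RealInnerProductSpace Topology
open MeasureTheory Set Filter
open Crest.GeometryTopology.CoordMetric Crest.GeometryTopology.AffineMaximal

noncomputable section

namespace Crest.Agent.R236

variable {n : ℕ}

namespace Key

/-- the hypotheses of the key inequality -/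
structure Hyp (Ω : Set (E n)) (u : E n → ℝ) (x₀ : E n) (h : ℝ) (y : E n) : Prop where
  am : AM Ω u
  mem : x₀ ∈ Ω
  hpos : 0 < h
  one_le : ∀ x ∈ Ω, 1 ≤ alpha u x₀ h y x
  cpt : ∀ K : ℝ, IsCompact (sub Ω (alpha u x₀ h y) K)

/-- `β = log α` -/
def bet (u : E n → ℝ) (x₀ : E n) (h : ℝ) (y : E n) (x : E n) : ℝ := Real.log (alpha u x₀ h y x)

/-- `λ = log θ` -/
def lam (u : E n → ℝ) (x₀ : E n) (h : ℝ) (x : E n) : ℝ := Real.log (theta u x₀ h x)

variable {Ω : Set (E n)} {u : E n → ℝ} {x₀ : E n} {h : ℝ} {y x : E n}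

lemma Hyp.at (H : Hyp Ω u x₀ h y) (hx : x ∈ Ω) : ContDiffAt ℝ ∞ u x := H.am.toCvx.at hx

lemma Hyp.pos (H : Hyp Ω u x₀ h y) (hx : x ∈ Ω) : (hessianMat u x).PosDef := H.am.pos x hx

lemma Hyp.alpha_pos (H : Hyp Ω u x₀ h y) (hx : x ∈ Ω) : 0 < alpha u x₀ h y x :=
  lt_of_lt_of_le one_pos (H.one_le x hx)

lemma Hyp.one_le_theta (H : Hyp Ω u x₀ h y) (hx : x ∈ Ω) : 1 ≤ theta u x₀ h x := by
  have := H.am.toCvx.breg_nonneg H.mem hx
  rw [theta, le_div_iff₀ H.hpos]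
  linarith

lemma Hyp.theta_pos (H : Hyp Ω u x₀ h y) (hx : x ∈ Ω) : 0 < theta u x₀ h x :=
  lt_of_lt_of_le one_pos (H.one_le_theta hx)

lemma alpha_eq (u : E n → ℝ) (x₀ : E n) (h : ℝ) (y : E n) : alpha u x₀ h y = fun x =>
    h⁻¹ * (breg u x x₀ - innerSL ℝ y x) + h⁻¹ * (⟪y, x₀⟫ + 3 * h) := by
  funext x
  simp only [alpha, innerSL_apply_apply, inner_sub_right]
  ring

lemma theta_eq (u : E n → ℝ) (x₀ : E n) (h : ℝ) : theta u x₀ h = fun x =>
    h⁻¹ * breg u x₀ x + h⁻¹ * h := by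
  funext x
  simp only [theta]
  ring

lemma Hyp.cd_alpha (H : Hyp Ω u x₀ h y) (hx : x ∈ Ω) : ContDiffAt ℝ ∞ (alpha u x₀ h y) x := by
  rw [alpha_eq]
  exact (contDiffAt_const.mul ((contDiffAt_breg_left (H.at hx) x₀).sub
    (innerSL ℝ y).contDiff.contDiffAt)).add contDiffAt_const

lemma Hyp.cd_theta (H : Hyp Ω u x₀ h y) (hx : x ∈ Ω) : ContDiffAt ℝ ∞ (theta u x₀ h) x := by
  rw [theta_eq]
  exact (contDiffAt_const.mul (contDiffAt_breg_right (H.at hx) x₀)).add contDiffAt_const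

lemma Hyp.cd_bet (H : Hyp Ω u x₀ h y) (hx : x ∈ Ω) : ContDiffAt ℝ ∞ (bet u x₀ h y) x :=
  (H.cd_alpha hx).log (H.alpha_pos hx).ne'

lemma Hyp.cd_lam (H : Hyp Ω u x₀ h y) (hx : x ∈ Ω) : ContDiffAt ℝ ∞ (lam u x₀ h) x :=
  (H.cd_theta hx).log (H.theta_pos hx).ne'

lemma Hyp.cd_mu (H : Hyp Ω u x₀ h y) (hx : x ∈ Ω) : ContDiffAt ℝ ∞ (mu u) x :=
  contDiffAt_mu (H.at hx) (H.pos hx)

lemma Hyp.d_alpha (H : Hyp Ω u x₀ h y) (hx : x ∈ Ω) : HasFDerivAt (alpha u x₀ h y)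
    (h⁻¹ • (fderiv ℝ u x - fderiv ℝ u x₀ - innerSL ℝ y)) x := by
  rw [alpha_eq]
  exact (((hasFDerivAt_breg_left (H.at hx) x₀).sub (innerSL ℝ y).hasFDerivAt).const_mul
    h⁻¹).add_const _

lemma Hyp.d_theta (H : Hyp Ω u x₀ h y) (hx : x ∈ Ω) : HasFDerivAt (theta u x₀ h)
    (h⁻¹ • fderiv ℝ (fun z => breg u x₀ z) x) x := by
  rw [theta_eq]
  exact (((diff_of_top (contDiffAt_breg_right (H.at hx) x₀)).hasFDerivAt).const_mul
    h⁻¹).add_const _

lemma Hyp.d_bet (H : Hyp Ω u x₀ h y) (hx : x ∈ Ω) : fderiv ℝ (bet u x₀ h y) x =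
    (alpha u x₀ h y x)⁻¹ • fderiv ℝ (alpha u x₀ h y) x :=
  ((diff_of_top (H.cd_alpha hx)).hasFDerivAt.log (H.alpha_pos hx).ne').fderiv

lemma Hyp.d_lam (H : Hyp Ω u x₀ h y) (hx : x ∈ Ω) : fderiv ℝ (lam u x₀ h) x =
    (theta u x₀ h x)⁻¹ • fderiv ℝ (theta u x₀ h) x :=
  ((diff_of_top (H.cd_theta hx)).hasFDerivAt.log (H.theta_pos hx).ne').fderiv

lemma Hyp.Lop_alpha (H : Hyp Ω u x₀ h y) (hx : x ∈ Ω) :
    Lop u (alpha u x₀ h y) x = h⁻¹ * n := by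
  have h1 := two_of_top (contDiffAt_breg_left (H.at hx) x₀)
  have h2 : ContDiffAt ℝ 2 (fun z => innerSL ℝ y z) x := (innerSL ℝ y).contDiff.contDiffAt
  rw [alpha_eq, Lop_add (contDiffAt_const.mul (h1.sub h2)) contDiffAt_const, Lop_const,
    Lop_const_mul _ (h1.sub h2), Lop_sub h1 h2, Lop_clm, Lop_breg_left (H.at hx) (H.pos hx)]
  ring

lemma Hyp.Lop_theta (H : Hyp Ω u x₀ h y) (hx : x ∈ Ω) :
    Lop u (theta u x₀ h) x = h⁻¹ * (n - ((n : ℝ) + 2) * fderiv ℝ (mu u) x (x - x₀)) := by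
  have h1 := two_of_top (contDiffAt_breg_right (H.at hx) x₀)
  rw [theta_eq, Lop_add (contDiffAt_const.mul h1) contDiffAt_const, Lop_const,
    Lop_const_mul _ h1, Lop_breg_right (H.at hx) (H.pos hx)]
  ring

lemma Hyp.gam_lam (H : Hyp Ω u x₀ h y) (hx : x ∈ Ω) (q : E n →L[ℝ] ℝ) :
    gamB u x (fderiv ℝ (lam u x₀ h) x) q = (h * theta u x₀ h x)⁻¹ * q (x - x₀) := by
  rw [H.d_lam hx, (H.d_theta hx).fderiv, gamB_smul_left, gamB_smul_left,
    gamB_breg_right (H.at hx) (H.pos hx), mul_inv]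
  ring

lemma Hyp.Lop_bet (H : Hyp Ω u x₀ h y) (hx : x ∈ Ω) :
    Lop u (bet u x₀ h y) x =
      n * (h * alpha u x₀ h y x)⁻¹ - Gam u (bet u x₀ h y) (bet u x₀ h y) x := by
  have h0 := (H.alpha_pos hx).ne'
  have := Lop_log (u := u) (two_of_top (H.cd_alpha hx)) h0
  rw [show bet u x₀ h y = fun z => Real.log (alpha u x₀ h y z) from rfl, this, H.Lop_alpha hx]
  rw [show (fun z => Real.log (alpha u x₀ h y z)) = bet u x₀ h y from rfl]
  simp only [Gam, H.d_bet hx, gamB_smul_left, gamB_smul_right, mul_inv]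
  field_simp

lemma Hyp.Lop_lam (H : Hyp Ω u x₀ h y) (hx : x ∈ Ω) :
    Lop u (lam u x₀ h) x = n * (h * theta u x₀ h x)⁻¹
      - ((n : ℝ) + 2) * Gam u (mu u) (lam u x₀ h) x - Gam u (lam u x₀ h) (lam u x₀ h) x := by
  have h0 := (H.theta_pos hx).ne'
  have := Lop_log (u := u) (two_of_top (H.cd_theta hx)) h0
  have h1 : Gam u (mu u) (lam u x₀ h) x =
      (h * theta u x₀ h x)⁻¹ * fderiv ℝ (mu u) x (x - x₀) := by
    rw [Gam, gamB_comm (H.pos hx), H.gam_lam hx]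
  rw [h1]
  rw [show lam u x₀ h = fun z => Real.log (theta u x₀ h z) from rfl, this, H.Lop_theta hx]
  rw [show (fun z => Real.log (theta u x₀ h z)) = lam u x₀ h from rfl]
  simp only [Gam, H.d_lam hx, gamB_smul_left, gamB_smul_right, mul_inv]
  field_simp

lemma Hyp.gam_bet_lam (H : Hyp Ω u x₀ h y) (hx : x ∈ Ω) :
    Gam u (bet u x₀ h y) (lam u x₀ h) x = (h * theta u x₀ h x)⁻¹ + (h * alpha u x₀ h y x)⁻¹
      - 4 * (h * (h * alpha u x₀ h y x)⁻¹ * (h * theta u x₀ h x)⁻¹) := by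
  have h0 := (H.theta_pos hx).ne'
  have h1 := (H.alpha_pos hx).ne'
  have h2 := H.hpos.ne'
  have h3 := breg_add_breg u x x₀
  have h4 : (fderiv ℝ u x - fderiv ℝ u x₀ - innerSL ℝ y) (x - x₀) =
      h * alpha u x₀ h y x + h * theta u x₀ h x - 4 * h := by
    rw [sub_apply, ← h3, innerSL_apply_apply, alpha, theta]
    field_simp
    ring
  rw [Gam, gamB_comm (H.pos hx), H.gam_lam hx, H.d_bet hx, (H.d_alpha hx).fderiv]
  simp only [smul_apply, smul_eq_mul, h4]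
  field_simp

/-- the test functions -/
def wt (u : E n → ℝ) (x₀ : E n) (h : ℝ) (y : E n) (K p q Y : ℝ) (m : ℕ) (x : E n) : ℝ :=
  Real.exp (p * mu u x + q * lam u x₀ h x + Y * bet u x₀ h y x) *
    max (1 - K⁻¹ * alpha u x₀ h y x) 0 ^ (m + 2)

/-- the integrand after integration by parts -/
def Jf (u : E n → ℝ) (x₀ : E n) (h : ℝ) (y : E n) (K p q Y : ℝ) (m : ℕ) (f : E n → ℝ)
    (x : E n) : ℝ :=
  hdet u x * Real.exp (p * mu u x + q * lam u x₀ h x + Y * bet u x₀ h y x) *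
    ((1 - K⁻¹ * alpha u x₀ h y x) ^ (m + 2) * (Lop u f x + p * Gam u (mu u) f x
        + q * Gam u (lam u x₀ h) f x + Y * Gam u (bet u x₀ h y) f x)
      - ((m : ℝ) + 2) * (K⁻¹ * alpha u x₀ h y x) * (1 - K⁻¹ * alpha u x₀ h y x) ^ (m + 1) *
        Gam u (bet u x₀ h y) f x)

lemma Hyp.cd_wt (H : Hyp Ω u x₀ h y) (K p q Y : ℝ) (m : ℕ) :
    ContDiffOn ℝ 1 (wt u x₀ h y K p q Y m) Ω := fun x hx => by
  refine ContDiffAt.contDiffWithinAt ?_
  have h1 := one_of_top (H.cd_mu hx)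
  have h2 := one_of_top (H.cd_lam hx)
  have h3 := one_of_top (H.cd_bet hx)
  have h4 := one_of_top (H.cd_alpha hx)
  exact (((contDiffAt_const.mul h1).add (contDiffAt_const.mul h2)).add
    (contDiffAt_const.mul h3)).exp.mul ((contDiff_max_pow m).contDiffAt.comp x
      (contDiffAt_const.sub (contDiffAt_const.mul h4)))

lemma Hyp.wt_eq (H : Hyp Ω u x₀ h y) {K : ℝ} (hK : 0 < K) (p q Y : ℝ) (m : ℕ) (f : E n → ℝ)
    (hx : x ∈ sub Ω (alpha u x₀ h y) K) :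
    hdet u x * (wt u x₀ h y K p q Y m x * Lop u f x + Gam u (wt u x₀ h y K p q Y m) f x) =
      Jf u x₀ h y K p q Y m f x := by
  have hr : 0 ≤ 1 - K⁻¹ * alpha u x₀ h y x := by
    have := hx.2
    rw [sub_nonneg, inv_mul_le_iff₀ hK]
    linarith
  have h1 := (diff_of_top (H.cd_mu hx.1)).hasFDerivAt
  have h2 := (diff_of_top (H.cd_lam hx.1)).hasFDerivAt
  have h3 := (diff_of_top (H.cd_bet hx.1)).hasFDerivAt
  have h4 := (diff_of_top (H.cd_alpha hx.1)).hasFDerivAt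
  have h5 := (((h1.const_mul p).add (h2.const_mul q)).add (h3.const_mul Y)).exp
  have h6 := (hasDerivAt_max_pow m (1 - K⁻¹ * alpha u x₀ h y x)).comp_hasFDerivAt x
    ((h4.const_mul K⁻¹).const_sub 1)
  have h7 : fderiv ℝ (wt u x₀ h y K p q Y m) x = _ := (h5.mul h6).fderiv
  have h8 : fderiv ℝ (alpha u x₀ h y) x = alpha u x₀ h y x • fderiv ℝ (bet u x₀ h y) x := by
    rw [H.d_bet hx.1, smul_smul, mul_inv_cancel₀ (H.alpha_pos hx.1).ne', one_smul]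
  rw [Gam, h7, h8]
  simp only [wt, Jf, Gam, gamB_add_left, gamB_smul_left, gamB_neg_left, max_eq_left hr,
    Function.comp, Pi.add_apply]
  ring

lemma Hyp.J_int (H : Hyp Ω u x₀ h y) {K : ℝ} (hK : 0 < K) (p q Y : ℝ) (m : ℕ) {f : E n → ℝ}
    (hf : ∀ x ∈ Ω, ContDiffAt ℝ ∞ f x) :
    IntegrableOn (Jf u x₀ h y K p q Y m f) (sub Ω (alpha u x₀ h y) K) ∧
      ∫ x in sub Ω (alpha u x₀ h y) K, Jf u x₀ h y K p q Y m f x = 0 := by
  have hf2 : ContDiffOn ℝ 2 f Ω := fun x hx => (two_of_top (hf x hx)).contDiffWithinAt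
  have hsub : sub Ω (alpha u x₀ h y) K ⊆ Ω := fun x hx => hx.1
  have hm := (H.cpt K).measurableSet
  constructor
  · refine (ibp_integrableOn H.am.toCvx H.am.isOpen subset_rfl (H.cpt K) hsub
      (H.cd_wt K p q Y m) hf2).congr_fun (fun x hx => H.wt_eq hK p q Y m f hx) hm
  · rw [← ibp H.am.toCvx H.am.isOpen subset_rfl (H.cpt K) hsub (H.cd_wt K p q Y m) hf2 ?_]
    · exact setIntegral_congr_fun hm fun x hx => (H.wt_eq hK p q Y m f hx).symm
    · intro x hx hx'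
      left
      have : K < alpha u x₀ h y x := by
        by_contra hc
        exact hx' ⟨hx, not_lt.1 hc⟩
      have h1 : 1 - K⁻¹ * alpha u x₀ h y x ≤ 0 := by
        rw [sub_nonpos, le_inv_mul_iff₀ hK]
        linarith
      simp [wt, max_eq_right h1]

/-- the left integrand -/
def gL (u : E n → ℝ) (x₀ : E n) (h : ℝ) (y : E n) (X : ℝ) (x : E n) : ℝ :=
  alpha u x₀ h y x ^ (1 / 100 - X) * theta u x₀ h x ^ (-(2 / 100 + (n : ℝ) / 2)) * √(hdet u x)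

/-- the right integrand -/
def gR (u : E n → ℝ) (x₀ : E n) (h : ℝ) (y : E n) (X : ℝ) (x : E n) : ℝ :=
  alpha u x₀ h y x ^ (-X) * theta u x₀ h x ^ (-(1 / 100 + (n : ℝ) / 2)) * √(hdet u x)

lemma Hyp.exp_eq (H : Hyp Ω u x₀ h y) (hx : x ∈ Ω) (q Y : ℝ) :
    hdet u x * Real.exp (((n : ℝ) + 2) / 2 * mu u x + q * lam u x₀ h x + Y * bet u x₀ h y x) *
      (h * theta u x₀ h x)⁻¹ =
      h⁻¹ * (alpha u x₀ h y x ^ Y * theta u x₀ h x ^ (q - 1) * √(hdet u x)) := by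
  have hd := H.am.toCvx.hdet_pos hx
  have hN : (n : ℝ) + 2 ≠ 0 := by positivity
  rw [Real.exp_add, Real.exp_add, H.am.toCvx.exp_mu hx, Real.rpow_def_of_pos (H.alpha_pos hx),
    Real.rpow_sub_one (H.theta_pos hx).ne', Real.rpow_def_of_pos (H.theta_pos hx),
    Real.sqrt_eq_rpow, show -(((n : ℝ) + 2) / 2) / ((n : ℝ) + 2) = 1 / 2 - 1 by field_simp; ring,
    Real.rpow_sub_one hd.ne', lam, bet, mul_comm q, mul_comm Y, mul_inv]
  field_simp

lemma Hyp.cont_g (H : Hyp Ω u x₀ h y) (a b : ℝ) :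
    ContinuousOn (fun x => alpha u x₀ h y x ^ a * theta u x₀ h x ^ b * √(hdet u x)) Ω :=
  fun x hx => ContinuousAt.continuousWithinAt <|
    (((H.cd_alpha hx).continuousAt.rpow_const (Or.inl (H.alpha_pos hx).ne')).mul
      ((H.cd_theta hx).continuousAt.rpow_const (Or.inl (H.theta_pos hx).ne'))).mul
      (contDiffAt_hdet (H.at hx)).continuousAt.sqrt

lemma Hyp.g_nonneg (H : Hyp Ω u x₀ h y) (a b : ℝ) (hx : x ∈ Ω) :
    0 ≤ alpha u x₀ h y x ^ a * theta u x₀ h x ^ b * √(hdet u x) := by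
  have h1 := H.alpha_pos hx
  have h2 := H.theta_pos hx
  positivity

/-- the sum of all integrands -/
def Jt (u : E n → ℝ) (x₀ : E n) (h : ℝ) (y : E n) (K X : ℝ) (x : E n) : ℝ :=
  let p : ℝ := ((n : ℝ) + 2) / 2
  let q₁ : ℝ := -(((n : ℝ) - 2) / 2 + 2 / 100)
  let q₂ : ℝ := -(((n : ℝ) - 2) / 2 + 1 / 100)
  let g : ℝ := ((n : ℝ) - 2) / n
  let c₁ : ℝ := 2 * (1 + g) / ((n : ℝ) + 2)
  let c : ℝ := 50 * ((n : ℝ) + 2) - 1
  ((1 + c₁ * X) * Jf u x₀ h y K p q₁ (1 / 100 - X) 2 (bet u x₀ h y) x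
    + 4 * c₁ * K⁻¹ * Jf u x₀ h y K p q₁ (1 / 100 - X + 1) 1 (bet u x₀ h y) x
    + (1 + g) * Jf u x₀ h y K p q₁ (1 / 100 - X) 2 (mu u) x
    + g * Jf u x₀ h y K p q₁ (1 / 100 - X) 2 (lam u x₀ h) x)
  + (31 * 620 * (5 + X)) * ((1 + 100 * X) * Jf u x₀ h y K p q₂ (-X) 1 (bet u x₀ h y) x
    + 300 * K⁻¹ * Jf u x₀ h y K p q₂ (-X + 1) 0 (bet u x₀ h y) x
    + (1 + c) * Jf u x₀ h y K p q₂ (-X) 1 (mu u) x
    + c * Jf u x₀ h y K p q₂ (-X) 1 (lam u x₀ h) x)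

lemma int_add {S : Set (E n)} {f g : E n → ℝ} (hf : IntegrableOn f S ∧ ∫ x in S, f x = 0)
    (hg : IntegrableOn g S ∧ ∫ x in S, g x = 0) :
    IntegrableOn (fun x => f x + g x) S ∧ ∫ x in S, (f x + g x) = 0 :=
  ⟨hf.1.add hg.1, by rw [integral_add hf.1 hg.1, hf.2, hg.2, add_zero]⟩

lemma int_mul {S : Set (E n)} {f : E n → ℝ} (c : ℝ) (hf : IntegrableOn f S ∧ ∫ x in S, f x = 0) :
    IntegrableOn (fun x => c * f x) S ∧ ∫ x in S, (c * f x) = 0 :=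
  ⟨hf.1.const_mul c, by rw [integral_const_mul, hf.2, mul_zero]⟩

lemma Hyp.Jt_int (H : Hyp Ω u x₀ h y) {K : ℝ} (hK : 0 < K) (X : ℝ) :
    IntegrableOn (Jt u x₀ h y K X) (sub Ω (alpha u x₀ h y) K) ∧
      ∫ x in sub Ω (alpha u x₀ h y) K, Jt u x₀ h y K X x = 0 := by
  have hb := fun p q Y m => H.J_int hK p q Y m fun x hx => H.cd_bet hx
  have hm := fun p q Y m => H.J_int hK p q Y m fun x hx => H.cd_mu hx
  have hl := fun p q Y m => H.J_int hK p q Y m fun x hx => H.cd_lam hx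
  exact int_add (int_add (int_add (int_add (int_mul _ (hb _ _ _ _)) (int_mul _ (hb _ _ _ _)))
    (int_mul _ (hm _ _ _ _))) (int_mul _ (hl _ _ _ _))) (int_mul _ (int_add (int_add (int_add
      (int_mul _ (hb _ _ _ _)) (int_mul _ (hb _ _ _ _))) (int_mul _ (hm _ _ _ _)))
      (int_mul _ (hl _ _ _ _))))

lemma Hyp.Jt_le (hn : 3 ≤ n) (hn' : n ≤ 9) (H : Hyp Ω u x₀ h y) {K X : ℝ} (hK : 8 ≤ K)
    (hX : 0 ≤ X) (hx : x ∈ sub Ω (alpha u x₀ h y) K) :
    Jt u x₀ h y K X x ≤ (31 * 620 * (5 + X) * (14000 + 2700 * X)) * (h⁻¹ * gR u x₀ h y X x)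
      - (1 / 20) * (h⁻¹ * gL u x₀ h y X x * (1 - K⁻¹ * alpha u x₀ h y x) ^ 4) := by
  have hK0 : 0 < K := by linarith
  have hα := H.alpha_pos hx.1
  have hθ := H.theta_pos hx.1
  have hα1 := H.one_le x hx.1
  have hθ1 := H.one_le_theta hx.1
  have hh := H.hpos
  have hA := H.pos hx.1
  have hv1 : K⁻¹ * alpha u x₀ h y x ≤ 1 := by
    have := hx.2
    rw [inv_mul_le_iff₀ hK0]
    linarith
  have hv : 0 ≤ K⁻¹ * alpha u x₀ h y x := by positivity
  have hG : IsGram (Gam u (bet u x₀ h y) (bet u x₀ h y) x) (Gam u (bet u x₀ h y) (mu u) x)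
      (Gam u (bet u x₀ h y) (lam u x₀ h) x) (Gam u (mu u) (mu u) x)
      (Gam u (mu u) (lam u x₀ h) x) (Gam u (lam u x₀ h) (lam u x₀ h) x) :=
    fun _ _ _ _ _ _ hc => gamB_gram3 hA _ _ _ hc
  have hR : 0 ≤ (h * alpha u x₀ h y x)⁻¹ := by positivity
  have hS : 0 ≤ (h * theta u x₀ h x)⁻¹ := by positivity
  have hRe : h * (h * alpha u x₀ h y x)⁻¹ = (alpha u x₀ h y x)⁻¹ := by field_simp
  have hSe : h * (h * theta u x₀ h x)⁻¹ = (theta u x₀ h x)⁻¹ := by field_simp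
  have hTR : h * (h * alpha u x₀ h y x)⁻¹ * (h * theta u x₀ h x)⁻¹ ≤
      (h * alpha u x₀ h y x)⁻¹ := by
    rw [mul_right_comm, hSe]
    exact mul_le_of_le_one_left hR (inv_le_one_of_one_le₀ hθ1)
  have hTS : h * (h * alpha u x₀ h y x)⁻¹ * (h * theta u x₀ h x)⁻¹ ≤
      (h * theta u x₀ h x)⁻¹ := by
    rw [hRe]
    exact mul_le_of_le_one_left hS (inv_le_one_of_one_le₀ hα1)
  have hc2 : 4 * (h * (h * alpha u x₀ h y x)⁻¹ * (h * theta u x₀ h x)⁻¹) ≤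
      (h * theta u x₀ h x)⁻¹ ∨ K⁻¹ * alpha u x₀ h y x ≤ 1 - K⁻¹ * alpha u x₀ h y x := by
    rcases le_total 4 (alpha u x₀ h y x) with h4 | h4
    · left
      rw [hRe, ← mul_assoc]
      refine mul_le_of_le_one_left hS ?_
      rw [mul_inv_le_iff₀ hα]
      linarith
    · right
      have : K⁻¹ * alpha u x₀ h y x ≤ 1 / 2 := by
        rw [inv_mul_le_iff₀ hK0]
        linarith
      linarith
  have h1 := alg_one hn hn' hG (H.gam_bet_lam hx.1) hR hS hTR hX (sub_nonneg.2 hv1) hv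
    rfl rfl rfl rfl rfl
  have h2 := alg_two hn hn' hG (H.gam_bet_lam hx.1) hS hTS hX (sub_nonneg.2 hv1) hv hc2
    rfl rfl rfl
  have hc3 : 620 * (h * alpha u x₀ h y x)⁻¹ ≤ (h * theta u x₀ h x)⁻¹ ∨
      Real.exp (1 / 100 * (bet u x₀ h y x - lam u x₀ h x)) ≤ 620 := by
    rcases le_total (620 * theta u x₀ h x) (alpha u x₀ h y x) with h4 | h4
    · left
      rw [← div_eq_mul_inv, inv_eq_one_div, div_le_div_iff₀ (by positivity) (by positivity)]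
      nlinarith
    · right
      rcases le_total (bet u x₀ h y x - lam u x₀ h x) 0 with h5 | h5
      · exact (Real.exp_le_one_iff.2 (by linarith)).trans (by norm_num)
      · refine (Real.exp_le_exp.2 (show _ ≤ bet u x₀ h y x - lam u x₀ h x by linarith)).trans ?_
        rw [Real.exp_sub, bet, lam, Real.exp_log hα, Real.exp_log hθ, div_le_iff₀ hθ]
        exact h4
  have hE : 0 ≤ hdet u x * Real.exp (((n : ℝ) + 2) / 2 * mu u x +
      -(((n : ℝ) - 2) / 2 + 1 / 100) * lam u x₀ h x + -X * bet u x₀ h y x) :=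
    mul_nonneg (H.am.toCvx.hdet_pos hx.1).le (Real.exp_pos _).le
  have h3 := alg_comb hE (Real.exp_pos _).le hR hS hX (sub_nonneg.2 hv1) (by linarith) hv hv1
    hc3 h1 h2
  have e1 : Real.exp (((n : ℝ) + 2) / 2 * mu u x +
      -(((n : ℝ) - 2) / 2 + 2 / 100) * lam u x₀ h x + (1 / 100 - X) * bet u x₀ h y x) =
      Real.exp (((n : ℝ) + 2) / 2 * mu u x +
        -(((n : ℝ) - 2) / 2 + 1 / 100) * lam u x₀ h x + -X * bet u x₀ h y x) *
        Real.exp (1 / 100 * (bet u x₀ h y x - lam u x₀ h x)) := by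
    rw [← Real.exp_add]
    congr 1
    ring
  have e2 : ∀ q Y : ℝ, Real.exp (((n : ℝ) + 2) / 2 * mu u x + q * lam u x₀ h x
      + (Y + 1) * bet u x₀ h y x) = Real.exp (((n : ℝ) + 2) / 2 * mu u x + q * lam u x₀ h x
        + Y * bet u x₀ h y x) * alpha u x₀ h y x := fun q Y => by
    conv_rhs => rw [← Real.exp_log hα, ← Real.exp_add]
    congr 1
    rw [bet]
    ring
  have e3 := H.exp_eq hx.1 (-(((n : ℝ) - 2) / 2 + 1 / 100)) (-X)
  have e4 := H.exp_eq hx.1 (-(((n : ℝ) - 2) / 2 + 2 / 100)) (1 / 100 - X)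
  rw [show -(((n : ℝ) - 2) / 2 + 1 / 100) - 1 = -(1 / 100 + (n : ℝ) / 2) by ring] at e3
  rw [show -(((n : ℝ) - 2) / 2 + 2 / 100) - 1 = -(2 / 100 + (n : ℝ) / 2) by ring] at e4
  have c1 : Gam u (mu u) (bet u x₀ h y) x = Gam u (bet u x₀ h y) (mu u) x := gamB_comm hA _ _
  have c2 : Gam u (lam u x₀ h) (bet u x₀ h y) x = Gam u (bet u x₀ h y) (lam u x₀ h) x :=
    gamB_comm hA _ _
  have c3 : Gam u (lam u x₀ h) (mu u) x = Gam u (mu u) (lam u x₀ h) x := gamB_comm hA _ _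
  rw [gR, gL, ← e3, ← e4, e1]
  refine le_trans (le_of_eq ?_) (h3.trans (le_of_eq ?_))
  · simp only [Jt, Jf, e2, e1, c1, c2, c3, H.Lop_bet hx.1, H.Lop_lam hx.1, H.am.eqn x hx.1]
    push_cast
    ring
  · ring

lemma Hyp.main (hn : 3 ≤ n) (hn' : n ≤ 9) (H : Hyp Ω u x₀ h y) {K X : ℝ} (hK : 8 ≤ K)
    (hX : 0 ≤ X) :
    ∫⁻ x in sub Ω (alpha u x₀ h y) (K / 2), ENNReal.ofReal (gL u x₀ h y X x) ≤
      ENNReal.ofReal (320 * (31 * 620 * (5 + X) * (14000 + 2700 * X))) *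
        ∫⁻ x in Ω, ENNReal.ofReal (gR u x₀ h y X x) := by
  have hK0 : 0 < K := by linarith
  set C := 31 * 620 * (5 + X) * (14000 + 2700 * X) with hC
  have hC0 : 0 ≤ C := by positivity
  have hsub : sub Ω (alpha u x₀ h y) K ⊆ Ω := fun x hx => hx.1
  have hm := (H.cpt K).measurableSet
  have hh := H.hpos
  have cL : ContinuousOn (fun x => 16 * (gL u x₀ h y X x * (1 - K⁻¹ * alpha u x₀ h y x) ^ 4))
      (sub Ω (alpha u x₀ h y) K) := by
    refine continuousOn_const.mul (((H.cont_g _ _).mono hsub).mul (ContinuousOn.pow ?_ 4))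
    exact fun x hx => (continuousAt_const.sub (continuousAt_const.mul
      (H.cd_alpha hx.1).continuousAt)).continuousWithinAt
  have cR : ContinuousOn (fun x => 320 * C * gR u x₀ h y X x) (sub Ω (alpha u x₀ h y) K) :=
    continuousOn_const.mul ((H.cont_g _ _).mono hsub)
  have iL := cL.integrableOn_compact (μ := volume) (H.cpt K)
  have iR := cR.integrableOn_compact (μ := volume) (H.cpt K)
  have hJ := int_mul (320 * h) (H.Jt_int hK0 X)
  have h1 : ∫ x in sub Ω (alpha u x₀ h y) K,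
      16 * (gL u x₀ h y X x * (1 - K⁻¹ * alpha u x₀ h y x) ^ 4) ≤
      ∫ x in sub Ω (alpha u x₀ h y) K, 320 * C * gR u x₀ h y X x := by
    rw [← sub_nonneg, ← integral_sub iR iL, ← hJ.2]
    refine setIntegral_mono_on hJ.1 (iR.sub iL) hm fun x hx => ?_
    have := mul_le_mul_of_nonneg_left (H.Jt_le hn hn' hK hX hx) (show 0 ≤ 320 * h by positivity)
    refine this.trans (le_of_eq ?_)
    rw [← hC]
    field_simp
    ring
  have nL : ∀ x ∈ Ω, 0 ≤ gL u x₀ h y X x := fun x hx => H.g_nonneg _ _ hx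
  have nR : ∀ x ∈ Ω, 0 ≤ gR u x₀ h y X x := fun x hx => H.g_nonneg _ _ hx
  calc ∫⁻ x in sub Ω (alpha u x₀ h y) (K / 2), ENNReal.ofReal (gL u x₀ h y X x)
      ≤ ∫⁻ x in sub Ω (alpha u x₀ h y) (K / 2), ENNReal.ofReal
          (16 * (gL u x₀ h y X x * (1 - K⁻¹ * alpha u x₀ h y x) ^ 4)) := by
        refine setLIntegral_mono' (H.cpt _).measurableSet fun x hx => ENNReal.ofReal_le_ofReal ?_
        have h2 : 1 / 2 ≤ 1 - K⁻¹ * alpha u x₀ h y x := by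
          have : K⁻¹ * alpha u x₀ h y x ≤ 1 / 2 := by
            have := hx.2
            rw [inv_mul_le_iff₀ hK0]
            linarith
          linarith
        have h3 := pow_le_pow_left₀ (by norm_num) h2 4
        have h4 := mul_le_mul_of_nonneg_left h3 (nL x hx.1)
        linarith
    _ ≤ ∫⁻ x in sub Ω (alpha u x₀ h y) K, ENNReal.ofReal
          (16 * (gL u x₀ h y X x * (1 - K⁻¹ * alpha u x₀ h y x) ^ 4)) :=
        lintegral_mono_set fun x hx => ⟨hx.1, hx.2.trans (by linarith)⟩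
    _ = ENNReal.ofReal (∫ x in sub Ω (alpha u x₀ h y) K,
          16 * (gL u x₀ h y X x * (1 - K⁻¹ * alpha u x₀ h y x) ^ 4)) := by
        rw [ofReal_integral_eq_lintegral_ofReal iL]
        filter_upwards [ae_restrict_mem hm] with x hx
        have := nL x hx.1
        positivity
    _ ≤ ENNReal.ofReal (∫ x in sub Ω (alpha u x₀ h y) K, 320 * C * gR u x₀ h y X x) :=
        ENNReal.ofReal_le_ofReal h1
    _ = ∫⁻ x in sub Ω (alpha u x₀ h y) K, ENNReal.ofReal (320 * C * gR u x₀ h y X x) := by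
        rw [ofReal_integral_eq_lintegral_ofReal iR]
        filter_upwards [ae_restrict_mem hm] with x hx
        have := nR x hx.1
        positivity
    _ ≤ ∫⁻ x in Ω, ENNReal.ofReal (320 * C * gR u x₀ h y X x) := lintegral_mono_set hsub
    _ = _ := by
        rw [← lintegral_const_mul' _ _ ENNReal.ofReal_ne_top]
        refine lintegral_congr fun x => ?_
        rw [ENNReal.ofReal_mul (by positivity)]

end Key

theorem key (hn : 3 ≤ n) (hn' : n ≤ 9) {X : ℝ} (hX : 0 ≤ X) : ∃ C : ℝ, 0 < C ∧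
    ∀ (Ω : Set (E n)) (u : E n → ℝ), AM Ω u → ∀ x₀ ∈ Ω, ∀ h : ℝ, 0 < h → ∀ y : E n,
      (∀ x ∈ Ω, 1 ≤ alpha u x₀ h y x) → (∀ K : ℝ, IsCompact (sub Ω (alpha u x₀ h y) K)) →
      ∫⁻ x in Ω, ENNReal.ofReal (alpha u x₀ h y x ^ (1 / 100 - X) *
          theta u x₀ h x ^ (-(2 / 100 + (n : ℝ) / 2)) * √(hdet u x)) ≤
        ENNReal.ofReal C * ∫⁻ x in Ω, ENNReal.ofReal (alpha u x₀ h y x ^ (-X) *
          theta u x₀ h x ^ (-(1 / 100 + (n : ℝ) / 2)) * √(hdet u x)) := by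
  refine ⟨320 * (31 * 620 * (5 + X) * (14000 + 2700 * X)), by positivity, ?_⟩
  intro Ω u hu x₀ hx₀ h hh y h1 hc
  have H : Key.Hyp Ω u x₀ h y := ⟨hu, hx₀, hh, h1, hc⟩
  have hU : Ω = ⋃ m : ℕ, sub Ω (alpha u x₀ h y) ((m : ℝ) + 4) := by
    refine Subset.antisymm (fun x hx => ?_) (iUnion_subset fun m x hx => hx.1)
    obtain ⟨m, hm⟩ := exists_nat_ge (alpha u x₀ h y x)
    exact mem_iUnion.2 ⟨m, hx, by linarith⟩
  have hdir : Directed (· ⊆ ·) fun m : ℕ => sub Ω (alpha u x₀ h y) ((m : ℝ) + 4) := by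
    refine Monotone.directed_le fun a b hab x hx => ⟨hx.1, hx.2.trans ?_⟩
    have : (a : ℝ) ≤ b := by exact_mod_cast hab
    linarith
  conv_lhs => rw [hU]
  rw [setLIntegral_iUnion_of_directed _ hdir]
  refine iSup_le fun m => ?_
  have := H.main hn hn' (K := 2 * ((m : ℝ) + 4)) (by linarith [Nat.cast_nonneg (α := ℝ) m]) hX
  rw [show 2 * ((m : ℝ) + 4) / 2 = (m : ℝ) + 4 by ring] at this
  exact this

end Crest.Agent.R236

end
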