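import Crest.Agent.R236.Defs

/-!
The example in dimension 10: the autonomous system and its invariant rectangle.
-/

set_option autoImplicit false

open scoped ContDiff Topology NNReal
open Set Filter

noncomputable section

namespace Crest.Agent.R236.OdeAux

theorem exists_global {V : Type*} [NormedAddCommGroup V] [NormedSpace ℝ V] [CompleteSpace V]
    (g : V → V) (K L : ℝ≥0) (hK : LipschitzWith K g) (hL : ∀ y, ‖g y‖ ≤ L) (x₀ : V) :
    ∃ x : ℝ → V, x 0 = x₀ ∧ ∀ t, 0 ≤ t → HasDerivWithinAt x (g (x t)) (Ici 0) t := by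
  have h1 : ∀ m : ℕ, ∃ α : ℝ → V, α 0 = x₀ ∧
      ∀ t ∈ Icc (0 : ℝ) m, HasDerivWithinAt α (g (α t)) (Icc (0 : ℝ) m) t := by
    intro m
    have hpl : IsPicardLindelof (fun _ => g)
        (⟨0, le_rfl, Nat.cast_nonneg m⟩ : Icc (0 : ℝ) m) x₀ (L * m) 0 L K :=
      IsPicardLindelof.of_time_independent (fun y _ => hL y) hK.lipschitzOnWith (by simp)
    exact hpl.exists_eq_forall_mem_Icc_hasDerivWithinAt₀
  choose α hα0 hα using h1
  have huniq : ∀ m m' : ℕ, m ≤ m' → EqOn (α m) (α m') (Icc (0 : ℝ) m) := by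
    intro m m' h
    have hsub : Icc (0 : ℝ) m ⊆ Icc (0 : ℝ) m' := Icc_subset_Icc_right (Nat.cast_le.mpr h)
    have hmem : ∀ t ∈ Ico (0 : ℝ) m, Icc (0 : ℝ) m ∈ 𝓝[Ici t] t := fun t ht =>
      mem_of_superset (Icc_mem_nhdsGE ht.2) (Icc_subset_Icc_left ht.1)
    exact ODE_solution_unique (v := fun _ => g) (fun _ => hK)
      (fun t ht => (hα m t ht).continuousWithinAt)
      (fun t ht => (hα m t (Ico_subset_Icc_self ht)).mono_of_mem_nhdsWithin (hmem t ht))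
      (fun t ht => ((hα m' t (hsub ht)).mono hsub).continuousWithinAt)
      (fun t ht => ((hα m' t (hsub (Ico_subset_Icc_self ht))).mono hsub).mono_of_mem_nhdsWithin
        (hmem t ht)) (by rw [hα0, hα0])
  refine ⟨fun t => α ⌈t⌉₊ t, hα0 _, fun t ht => ?_⟩
  set m : ℕ := ⌈t⌉₊ + 1 with hm
  have htm : t < m := by
    have := Nat.le_ceil t
    rw [hm]; push_cast; linarith
  have heq : ∀ s ∈ Icc (0 : ℝ) m, α ⌈s⌉₊ s = α m s := fun s hs =>
    huniq _ _ (Nat.ceil_le.mpr hs.2) ⟨hs.1, Nat.le_ceil s⟩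
  have h2 := (hα m t ⟨ht, htm.le⟩).congr (f₁ := fun t => α ⌈t⌉₊ t) heq (heq t ⟨ht, htm.le⟩)
  rw [← heq t ⟨ht, htm.le⟩] at h2
  refine h2.mono_of_mem_nhdsWithin ?_
  have : Icc (0 : ℝ) m = Ici 0 ∩ Iic (m : ℝ) := rfl
  rw [this]
  exact inter_mem_nhdsWithin _ (Iic_mem_nhds htm)

theorem fence_le {f f' : ℝ → ℝ} {c : ℝ} (hf : ∀ t, 0 ≤ t → HasDerivWithinAt f (f' t) (Ici 0) t)
    (h0 : f 0 ≤ c) (h : ∀ t, 0 ≤ t → c < f t → f' t ≤ 0) {t : ℝ} (ht : 0 ≤ t) : f t ≤ c := by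
  refine le_of_forall_pos_le_add fun ε hε => ?_
  have hη : 0 < ε / (1 + t) := by positivity
  have := image_le_of_deriv_right_lt_deriv_boundary (f := f) (f' := f') (a := 0) (b := t)
    (fun s hs => ((hf s hs.1).continuousWithinAt).mono Icc_subset_Ici_self)
    (fun s hs => (hf s hs.1).mono (Ici_subset_Ici.2 hs.1))
    (B := fun s => c + ε / (1 + t) * (1 + s)) (B' := fun _ => ε / (1 + t))
    (by simp only [add_zero, mul_one]; linarith)
    (fun s => by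
      simpa using (((hasDerivAt_id s).const_add 1).const_mul (ε / (1 + t))).const_add c)
    (fun s hs he => (h s hs.1 (by
      have := hs.1
      rw [he]
      exact lt_add_of_pos_right _ (by positivity))).trans_lt hη) ⟨ht, le_rfl⟩
  rwa [div_mul_cancel₀ _ (by positivity)] at this

theorem fence_ge {f f' : ℝ → ℝ} {c : ℝ} (hf : ∀ t, 0 ≤ t → HasDerivWithinAt f (f' t) (Ici 0) t)
    (h0 : c ≤ f 0) (h : ∀ t, 0 ≤ t → f t < c → 0 ≤ f' t) {t : ℝ} (ht : 0 ≤ t) : c ≤ f t :=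
  neg_le_neg_iff.1 (fence_le (f := fun t => -f t) (fun t ht => (hf t ht).neg) (neg_le_neg h0)
    (fun t ht h' => neg_nonpos.2 (h t ht (neg_lt_neg_iff.1 h'))) ht)

/-- the first component of the field -/
def v1 (y ξ : ℝ) : ℝ := y * (3 + ξ * (1 + y) - 9 * y) / 4

/-- the second component of the field -/
def v2 (y ξ : ℝ) : ℝ := ((ξ ^ 2 + 9 * ξ) * y + 9 / 2 - 9 / 2 * ξ ^ 2) / 2

theorem rect_sol {y₀ ξ₀ : ℝ} (hy : 0 < y₀) (hy' : y₀ ≤ 1) (hξ : 1 ≤ ξ₀) (hξ' : ξ₀ ≤ 3) :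
    ∃ y ξ : ℝ → ℝ, y 0 = y₀ ∧ ξ 0 = ξ₀ ∧ ∀ s, 0 ≤ s →
      HasDerivWithinAt y (v1 (y s) (ξ s)) (Ici 0) s ∧
      HasDerivWithinAt ξ (v2 (y s) (ξ s)) (Ici 0) s ∧ 0 < y s ∧ 1 ≤ ξ s := by
  let f : ℝ × ℝ → ℝ × ℝ := fun p => (v1 p.1 p.2, v2 p.1 p.2)
  have hf : ContDiff ℝ 1 f := by unfold f v1 v2; fun_prop
  let c : ℝ × ℝ → ℝ × ℝ := fun p => (max 0 (min 1 p.1), max 1 (min 3 p.2))
  have hc : LipschitzWith 1 c := by
    simpa using ((LipschitzWith.prod_fst.const_min 1).const_max 0).prodMk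
      ((LipschitzWith.prod_snd.const_min 3).const_max (1 : ℝ))
  have hcm : ∀ p, c p ∈ Icc (0 : ℝ) 1 ×ˢ Icc (1 : ℝ) 3 := fun p =>
    ⟨⟨le_max_left _ _, max_le zero_le_one (min_le_left _ _)⟩,
      ⟨le_max_left _ _, max_le (by norm_num) (min_le_left _ _)⟩⟩
  have hcomp : IsCompact (Icc (0 : ℝ) 1 ×ˢ Icc (1 : ℝ) 3) := isCompact_Icc.prod isCompact_Icc
  obtain ⟨K, hK⟩ := (hf.locallyLipschitz.locallyLipschitzOn).exists_lipschitzOnWith_of_compact hcomp
  obtain ⟨L, hL⟩ := hcomp.exists_bound_of_continuousOn hf.continuous.continuousOn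
  obtain ⟨x, hx0, hx⟩ := exists_global (f ∘ c) (K * 1) ⟨max L 0, le_max_right _ _⟩
    (lipschitzOnWith_univ.mp (hK.comp (s := univ) hc.lipschitzOnWith fun y _ => hcm y))
    (fun y => (hL _ (hcm y)).trans (le_max_left _ _)) (y₀, ξ₀)
  have d1 : ∀ s, 0 ≤ s → HasDerivWithinAt (fun s => (x s).1)
      (v1 (c (x s)).1 (c (x s)).2) (Ici 0) s := fun s hs => (hx s hs).fst
  have d2 : ∀ s, 0 ≤ s → HasDerivWithinAt (fun s => (x s).2)
      (v2 (c (x s)).1 (c (x s)).2) (Ici 0) s := fun s hs => (hx s hs).snd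
  have b1 : ∀ s, 0 ≤ s → (x s).1 ≤ 1 := fun s hs =>
    fence_le d1 (by rw [hx0]; exact hy') (fun t _ h => by
      have e : (c (x t)).1 = 1 := by simp [c, h.le]
      have := (hcm (x t)).2.2
      rw [e, v1]; linarith) hs
  have b2 : ∀ s, 0 ≤ s → 0 ≤ (x s).1 := fun s hs =>
    fence_ge d1 (by rw [hx0]; exact hy.le) (fun t _ h => by
      have e : (c (x t)).1 = 0 := by simp [c, h.le]
      rw [e, v1]; simp) hs
  have b3 : ∀ s, 0 ≤ s → (x s).2 ≤ 3 := fun s hs =>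
    fence_le d2 (by rw [hx0]; exact hξ') (fun t _ h => by
      have e : (c (x t)).2 = 3 := by simp [c, h.le]
      have := (hcm (x t)).1.2
      rw [e, v2]; linarith) hs
  have b4 : ∀ s, 0 ≤ s → 1 ≤ (x s).2 := fun s hs =>
    fence_ge d2 (by rw [hx0]; exact hξ) (fun t _ h => by
      have e : (c (x t)).2 = 1 := by simp [c, h.le]
      have := (hcm (x t)).1.1
      rw [e, v2]; linarith) hs
  have hcx : ∀ s, 0 ≤ s → c (x s) = x s := fun s hs => by
    simp [c, b1 s hs, b2 s hs, b3 s hs, b4 s hs]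
  have d1' : ∀ s, 0 ≤ s → HasDerivWithinAt (fun s => (x s).1)
      (v1 (x s).1 (x s).2) (Ici 0) s := fun s hs => by simpa only [hcx s hs] using d1 s hs
  have d2' : ∀ s, 0 ≤ s → HasDerivWithinAt (fun s => (x s).2)
      (v2 (x s).1 (x s).2) (Ici 0) s := fun s hs => by simpa only [hcx s hs] using d2 s hs
  refine ⟨fun s => (x s).1, fun s => (x s).2, congrArg Prod.fst hx0, congrArg Prod.snd hx0, fun s hs =>
    ⟨d1' s hs, d2' s hs, ?_, b4 s hs⟩⟩
  have := fence_ge (f := fun s => Real.exp s * (x s).1) (c := y₀)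
    (fun t ht => (Real.hasDerivAt_exp t).hasDerivWithinAt.mul (d1' t ht)) (by simp [hx0])
    (fun t ht _ => by
      have h1 := b1 t ht
      have h2 := b2 t ht
      have h4 := b4 t ht
      have h5 : 0 ≤ 4 + (3 + (x t).2 * (1 + (x t).1) - 9 * (x t).1) := by nlinarith
      have : Real.exp t * (x t).1 + Real.exp t * v1 (x t).1 (x t).2 = Real.exp t * (x t).1 *
        (4 + (3 + (x t).2 * (1 + (x t).1) - 9 * (x t).1)) / 4 := by rw [v1]; ring
      rw [this]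
      positivity) hs
  exact pos_of_mul_pos_right (hy.trans_le this) (Real.exp_pos s).le

/-- the right-hand side for `Y` -/
def G1 (t Y Z : ℝ) : ℝ := Y * (Z + Y * (1 + t * Z - 9)) / 4

/-- the right-hand side for `Z` -/
def G2 (t Y Z : ℝ) : ℝ :=
  (((1 + t * Z) ^ 2 + 9 * (1 + t * Z)) * Y - 9 / 2 * t * Z ^ 2 - 11 * Z) / (2 * t)

theorem right_sol {t₀ Y₀ Z₀ : ℝ} (ht : 0 < t₀) (hY : 0 < Y₀) (hY' : t₀ * Y₀ ≤ 1) (hZ : 0 ≤ Z₀)
    (hZ' : t₀ * Z₀ ≤ 2) : ∃ Y Z : ℝ → ℝ, Y t₀ = Y₀ ∧ Z t₀ = Z₀ ∧ ∀ t, t₀ ≤ t →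
      HasDerivWithinAt Y (G1 t (Y t) (Z t)) (Ici t₀) t ∧
      HasDerivWithinAt Z (G2 t (Y t) (Z t)) (Ici t₀) t ∧ 0 < Y t ∧ 0 ≤ Z t := by
  obtain ⟨y, ξ, h0, h0', h⟩ := rect_sol (y₀ := t₀ * Y₀) (ξ₀ := 1 + t₀ * Z₀) (by positivity) hY'
    (le_add_of_nonneg_right (by positivity)) (by linarith)
  refine ⟨fun t => y (Real.log t - Real.log t₀) / t, fun t => (ξ (Real.log t - Real.log t₀) - 1) / t,
    by simp [h0, ht.ne'], by simp [h0', ht.ne'], fun t htt => ?_⟩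
  have htp : 0 < t := ht.trans_le htt
  have hm : MapsTo (fun t => Real.log t - Real.log t₀) (Ici t₀) (Ici 0) := fun s hs =>
    sub_nonneg.2 (Real.log_le_log ht hs)
  obtain ⟨d1, d2, p1, p2⟩ := h _ (hm htt)
  have dl : HasDerivWithinAt (fun t => Real.log t - Real.log t₀) t⁻¹ (Ici t₀) t :=
    ((Real.hasDerivAt_log htp.ne').sub_const _).hasDerivWithinAt
  refine ⟨?_, ?_, div_pos p1 htp, div_nonneg (sub_nonneg.2 p2) htp.le⟩
  · refine ((d1.comp t dl hm).div (hasDerivWithinAt_id t _) htp.ne').congr_deriv ?_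
    simp only [G1, v1, Function.comp_apply, id]
    field_simp
    ring
  · refine (((d2.comp t dl hm).sub_const 1).div (hasDerivWithinAt_id t _) htp.ne').congr_deriv ?_
    simp only [G2, v2, Function.comp_apply, id]
    field_simp
    ring

theorem glue {f g : ℝ → ℝ} {t₀ t d : ℝ} (h : f t₀ = g t₀) (hf : t ≤ t₀ → HasDerivAt f d t)
    (hg : t₀ ≤ t → HasDerivWithinAt g d (Ici t₀) t) :
    HasDerivAt (fun s => if s ≤ t₀ then f s else g s) d t := by
  rcases lt_trichotomy t t₀ with ht | rfl | ht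
  · refine (hf ht.le).congr_of_eventuallyEq ?_
    filter_upwards [Iic_mem_nhds ht] with s hs using if_pos hs
  · have h1 : HasDerivWithinAt (fun s => if s ≤ t then f s else g s) d (Iic t) t :=
      (hf le_rfl).hasDerivWithinAt.congr (fun s hs => if_pos hs) (if_pos le_rfl)
    have h2 : HasDerivWithinAt (fun s => if s ≤ t then f s else g s) d (Ici t) t := by
      refine (hg le_rfl).congr (fun s hs => ?_) ((if_pos le_rfl).trans h)
      split_ifs with hs'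
      · rw [le_antisymm hs' hs, h]
      · rfl
    simpa using h1.union h2
  · refine ((hg ht.le).hasDerivAt (Ici_mem_nhds ht)).congr_of_eventuallyEq ?_
    filter_upwards [Ioi_mem_nhds ht] with s hs using if_neg (not_le.2 hs)

theorem smooth_pos {Y Z : ℝ → ℝ} (hY : ∀ t, 0 < t → HasDerivAt Y (G1 t (Y t) (Z t)) t)
    (hZ : ∀ t, 0 < t → HasDerivAt Z (G2 t (Y t) (Z t)) t) :
    ContDiffOn ℝ ∞ Y (Ioi 0) ∧ ContDiffOn ℝ ∞ Z (Ioi 0) := by
  have dY : DifferentiableOn ℝ Y (Ioi 0) := fun t ht =>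
    (hY t ht).differentiableAt.differentiableWithinAt
  have dZ : DifferentiableOn ℝ Z (Ioi 0) := fun t ht =>
    (hZ t ht).differentiableAt.differentiableWithinAt
  have key : ∀ k : ℕ, ContDiffOn ℝ k Y (Ioi 0) ∧ ContDiffOn ℝ k Z (Ioi 0) := by
    intro k
    induction k with
    | zero => exact ⟨contDiffOn_zero.2 dY.continuousOn, contDiffOn_zero.2 dZ.continuousOn⟩
    | succ k ih =>
      obtain ⟨h1, h2⟩ := ih
      push_cast
      rw [contDiffOn_succ_iff_deriv_of_isOpen isOpen_Ioi,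
        contDiffOn_succ_iff_deriv_of_isOpen isOpen_Ioi]
      refine ⟨⟨dY, by simp, ContDiffOn.congr ?_ fun t ht => (hY t ht).deriv⟩,
        ⟨dZ, by simp, ContDiffOn.congr ?_ fun t ht => (hZ t ht).deriv⟩⟩
      · unfold G1; fun_prop
      · unfold G2
        exact ContDiffOn.div (by fun_prop) (by fun_prop) fun t ht => (mul_pos two_pos ht).ne'
  exact ⟨contDiffOn_infty.2 fun k => (key k).1, contDiffOn_infty.2 fun k => (key k).2⟩

end Crest.Agent.R236.OdeAux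

end
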