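import Crest.Agent.R236.OdeLoc
import Crest.Agent.R236.OdeAux

/-!
The example in dimension 10: global solution (invariant rectangle).
-/

set_option autoImplicit false

open scoped ContDiff RealInnerProductSpace Topology
open MeasureTheory Set Filter
open Crest.GeometryTopology.CoordMetric Crest.GeometryTopology.AffineMaximal

noncomputable section

namespace Crest.Agent.R236

variable {n : ℕ}

open OdeAux in
theorem ode_glob : ∃ δ : ℝ, 0 < δ ∧ ∃ Y Z : ℝ → ℝ, ContDiffOn ℝ ∞ Y (Ioi (-δ)) ∧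
    ContDiffOn ℝ ∞ Z (Ioi (-δ)) ∧
    (∀ t ∈ Ioi (-δ), deriv Y t = Y t * (Z t + Y t * (1 + t * Z t - 9)) / 4) ∧
    (∀ t ∈ Ioi (-δ), 2 * t * deriv Z t + 11 * Z t =
      ((1 + t * Z t) ^ 2 + 9 * (1 + t * Z t)) * Y t - 9 / 2 * t * Z t ^ 2) ∧
    (∀ t ∈ Ioi (-δ), 0 < Y t ∧ 0 < 1 + (1 + t * Z t) * (1 + t * Y t)) := by
  obtain ⟨δ, hδ, Y, Z, sY, sZ, hY0, hZ0, hY, hZ⟩ := ode_loc
  have hn : Ioo (-δ) δ ∈ 𝓝 (0 : ℝ) := Ioo_mem_nhds (by linarith) hδ
  have cY : ContinuousAt Y 0 := sY.continuousOn.continuousAt hn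
  have cZ : ContinuousAt Z 0 := sZ.continuousOn.continuousAt hn
  have ev : ∀ᶠ t in 𝓝 (0 : ℝ), t ∈ Ioo (-δ) δ ∧ 0 < Y t ∧ 0 < Z t ∧ t * Y t < 1 ∧ t * Z t < 2 ∧
      0 < 1 + (1 + t * Z t) * (1 + t * Y t) := by
    refine (Filter.Eventually.and hn (.and ?_ (.and ?_ (.and ?_ (.and ?_ ?_)))))
    · exact continuousAt_const.eventually_lt cY (by simp [hY0])
    · exact continuousAt_const.eventually_lt cZ (by simp [hZ0])
    · exact (continuousAt_id.mul cY).eventually_lt continuousAt_const (by simp)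
    · exact (continuousAt_id.mul cZ).eventually_lt continuousAt_const (by simp)
    · exact continuousAt_const.eventually_lt (g := fun t => 1 + (1 + t * Z t) * (1 + t * Y t))
        (by fun_prop) (by simp)
  obtain ⟨ε, hε, hb⟩ := Metric.eventually_nhds_iff.1 ev
  have hb' : ∀ t, -ε < t → t ≤ ε / 2 → _ := fun t h1 h2 =>
    hb (y := t) (by rw [Real.dist_eq, sub_zero, abs_lt]; exact ⟨h1, by linarith⟩)
  obtain ⟨-, p1, p2, p3, p4, -⟩ := hb' (ε / 2) (by linarith) le_rfl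
  obtain ⟨Y', Z', e1, e2, h⟩ := right_sol (half_pos hε) p1 p3.le p2.le p4.le
  have dY : ∀ t ∈ Ioo (-δ) δ, HasDerivAt Y (deriv Y t) t := fun t ht =>
    ((sY.differentiableOn (by simp)).differentiableAt (isOpen_Ioo.mem_nhds ht)).hasDerivAt
  have dZ : ∀ t ∈ Ioo (-δ) δ, HasDerivAt Z (deriv Z t) t := fun t ht =>
    ((sZ.differentiableOn (by simp)).differentiableAt (isOpen_Ioo.mem_nhds ht)).hasDerivAt
  set U : ℝ → ℝ := fun s => if s ≤ ε / 2 then Y s else Y' s with hU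
  set W : ℝ → ℝ := fun s => if s ≤ ε / 2 then Z s else Z' s with hW
  have l1 : ∀ t, t ≤ ε / 2 → U t = Y t ∧ W t = Z t := fun t ht => ⟨if_pos ht, if_pos ht⟩
  have l2 : ∀ t, ε / 2 ≤ t → U t = Y' t ∧ W t = Z' t := fun t ht => by
    rcases ht.eq_or_lt with rfl | ht
    · exact ⟨(l1 _ le_rfl).1.trans e1.symm, (l1 _ le_rfl).2.trans e2.symm⟩
    · exact ⟨if_neg (not_le.2 ht), if_neg (not_le.2 ht)⟩
  have l3 : ∀ t, t < ε / 2 → U =ᶠ[𝓝 t] Y ∧ W =ᶠ[𝓝 t] Z := fun t ht =>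
    ⟨by filter_upwards [Iic_mem_nhds ht] with s hs using (l1 s hs).1,
      by filter_upwards [Iic_mem_nhds ht] with s hs using (l1 s hs).2⟩
  have gU : ∀ t, -ε < t → HasDerivAt U (G1 t (U t) (W t)) t := fun t ht =>
    glue e1.symm (fun h' => by
      have hm := (hb' t ht h').1
      rw [(l1 t h').1, (l1 t h').2, G1, ← hY t hm]
      exact dY t hm) fun h' => by
      rw [(l2 t h').1, (l2 t h').2]
      exact (h t h').1
  have gW : ∀ t, 0 < t → HasDerivAt W (G2 t (U t) (W t)) t := fun t ht =>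
    glue e2.symm (fun h' => by
      have hm := (hb' t (by linarith) h').1
      rw [(l1 t h').1, (l1 t h').2, G2, ← hZ t hm]
      refine (dZ t hm).congr_deriv ?_
      field_simp
      ring) fun h' => by
      rw [(l2 t h').1, (l2 t h').2]
      exact (h t h').2.1
  obtain ⟨sU, sW⟩ := smooth_pos (fun t ht => gU t (by linarith)) gW
  refine ⟨ε, hε, U, W, fun t ht => ?_, fun t ht => ?_, fun t ht => (gU t ht).deriv,
    fun t ht => ?_, fun t ht => ?_⟩
  · rcases lt_or_ge 0 t with h0 | h0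
    · exact (sU.contDiffAt (Ioi_mem_nhds h0)).contDiffWithinAt
    · exact ((sY.contDiffAt (isOpen_Ioo.mem_nhds (hb' t ht (by linarith)).1)).congr_of_eventuallyEq
        (l3 t (by linarith)).1).contDiffWithinAt
  · rcases lt_or_ge 0 t with h0 | h0
    · exact (sW.contDiffAt (Ioi_mem_nhds h0)).contDiffWithinAt
    · exact ((sZ.contDiffAt (isOpen_Ioo.mem_nhds (hb' t ht (by linarith)).1)).congr_of_eventuallyEq
        (l3 t (by linarith)).2).contDiffWithinAt
  · rcases lt_or_ge 0 t with h0 | h0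
    · rw [(gW t h0).deriv, G2]
      field_simp
      ring
    · rw [(l3 t (by linarith)).2.deriv_eq, (l1 t (by linarith)).1, (l1 t (by linarith)).2]
      exact hZ t (hb' t ht (by linarith)).1
  · rcases le_total t (ε / 2) with h0 | h0
    · rw [(l1 t h0).1, (l1 t h0).2]
      exact ⟨(hb' t ht h0).2.1, (hb' t ht h0).2.2.2.2.2⟩
    · rw [(l2 t h0).1, (l2 t h0).2]
      obtain ⟨-, -, q1, q2⟩ := h t h0
      have : 0 < t := by linarith
      exact ⟨q1, by positivity⟩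

/-- the profile -/
theorem exists_profile : ∃ δ : ℝ, 0 < δ ∧ ∃ F g : ℝ → ℝ, ContDiffOn ℝ ∞ F (Ioi (-δ)) ∧
    ContDiffOn ℝ ∞ g (Ioi (-δ)) ∧ F 0 = 1 ∧ ∀ t : ℝ, 0 ≤ t →
      0 < F t ∧ 0 < deriv F t ∧
      0 < F t * (deriv F t + 2 * t * deriv (deriv F) t) - t * deriv F t ^ 2 ∧
      g t = (deriv F t ^ 8 * (F t * (deriv F t + 2 * t * deriv (deriv F) t) - t * deriv F t ^ 2))
        ^ (-(11 : ℝ) / 12) ∧
      4 * t * F t * deriv (deriv g) t + (44 * t * deriv F t + 2 * F t +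
          16 * (F t * (deriv F t + 2 * t * deriv (deriv F) t) - t * deriv F t ^ 2) / deriv F t) *
          deriv g t + 110 * (deriv F t + 2 * t * deriv (deriv F) t) * g t = 0 := by
  obtain ⟨δ, hδ, Y, Z, sY, sZ, hY, hZ, hp⟩ := ode_glob
  have h0 : (0 : ℝ) ∈ Ioi (-δ) := by simpa using hδ
  have dY : ∀ t ∈ Ioi (-δ), HasDerivAt Y (Y t * (Z t + Y t * (1 + t * Z t - 9)) / 4) t :=
    fun t ht => hY t ht ▸
      ((sY.differentiableOn (by simp)).differentiableAt (isOpen_Ioi.mem_nhds ht)).hasDerivAt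
  set ξ : ℝ → ℝ := fun t => 1 + t * Z t with hξ
  have dξ : ∀ t ∈ Ioi (-δ), HasDerivAt ξ
      (((ξ t ^ 2 + 9 * ξ t) * Y t - 9 / 2 * t * Z t ^ 2 - 9 * Z t) / 2) t := fun t ht => by
    have d := ((sZ.differentiableOn (by simp)).differentiableAt (isOpen_Ioi.mem_nhds ht)).hasDerivAt
    refine (((hasDerivAt_id t).mul d).const_add 1).congr_deriv ?_
    have := hZ t ht
    simp only [hξ, id]
    linarith
  set T : ℝ → ℝ := fun t => (1 + ξ t * (1 + t * Y t)) / 2 with hT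
  have dT : ∀ t ∈ Ioi (-δ), HasDerivAt T (3 / 4 * (Y t * (ξ t + 3) - 3 * Z t) * T t) t :=
    fun t ht => by
    refine ((((dξ t ht).mul (((hasDerivAt_id t).mul (dY t ht)).const_add 1)).const_add 1).div_const
      2).congr_deriv ?_
    simp only [hξ, hT, id, Pi.mul_apply]
    ring
  have pT : ∀ t ∈ Ioi (-δ), 0 < T t := fun t ht => half_pos (hp t ht).2
  set J : ℝ → ℝ := fun t => ∫ s in (0 : ℝ)..t, Y s with hJ
  have dJ : ∀ t ∈ Ioi (-δ), HasDerivAt J (Y t) t := fun t ht =>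
    intervalIntegral.integral_hasDerivAt_right
      ((sY.continuousOn.mono (ordConnected_Ioi.uIcc_subset h0 ht)).intervalIntegrable)
      (sY.continuousOn.stronglyMeasurableAtFilter isOpen_Ioi t ht)
      (sY.continuousOn.continuousAt (isOpen_Ioi.mem_nhds ht))
  have sJ : ContDiffOn ℝ ∞ J (Ioi (-δ)) :=
    (contDiffOn_infty_iff_deriv_of_isOpen isOpen_Ioi).2
      ⟨fun t ht => (dJ t ht).differentiableAt.differentiableWithinAt,
        sY.congr fun t ht => (dJ t ht).deriv⟩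
  set F : ℝ → ℝ := fun t => Real.exp (9 / 2 * J t) with hF
  have pF : ∀ t, 0 < F t := fun t => Real.exp_pos _
  have sF : ContDiffOn ℝ ∞ F (Ioi (-δ)) := (contDiffOn_const.mul sJ).exp
  have dF : ∀ t ∈ Ioi (-δ), HasDerivAt F (9 / 2 * Y t * F t) t := fun t ht =>
    ((dJ t ht).const_mul (9 / 2)).exp.congr_deriv (by simp only [hF]; ring)
  have ddF : ∀ t ∈ Ioi (-δ),
      deriv F t + 2 * t * deriv (deriv F) t = 9 / 2 * F t * Y t * (T t + 9 / 2 * (t * Y t)) :=
    fun t ht => by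
    have e : deriv F =ᶠ[𝓝 t] fun s => 9 / 2 * Y s * F s := by
      filter_upwards [isOpen_Ioi.mem_nhds ht] with s hs using (dF s hs).deriv
    have d := ((dY t ht).const_mul (9 / 2)).mul (dF t ht)
    rw [e.deriv_eq, (dF t ht).deriv]
    erw [d.deriv]
    simp only [hξ, hT]
    ring
  set W : ℝ → ℝ := fun t => (9 / 2 * Y t * F t) ^ 8 * (9 / 2 * F t ^ 2 * Y t * T t) with hW
  have pW : ∀ t ∈ Ioi (-δ), 0 < W t := fun t ht => by
    have := (hp t ht).1
    have := pT t ht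
    have := pF t
    positivity
  have sW : ContDiffOn ℝ ∞ W (Ioi (-δ)) := by
    have sT : ContDiffOn ℝ ∞ T (Ioi (-δ)) := by
      simp only [hT, hξ]; fun_prop
    simp only [hW]; fun_prop
  have dW : ∀ t ∈ Ioi (-δ), HasDerivAt W (3 * (ξ t + 9) * Y t * W t) t := fun t ht => by
    refine (((((dY t ht).const_mul (9 / 2)).mul (dF t ht)).pow 8).mul
      ((((((dF t ht).pow 2).const_mul (9 / 2)).mul (dY t ht))).mul (dT t ht))).congr_deriv ?_
    simp only [hξ, hW, Pi.mul_apply, Pi.pow_apply]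
    push_cast
    ring
  set g : ℝ → ℝ := fun t => W t ^ (-(11 : ℝ) / 12) with hg
  have dg : ∀ t ∈ Ioi (-δ), HasDerivAt g (-(11 / 4) * (ξ t + 9) * Y t * g t) t := fun t ht => by
    refine ((dW t ht).rpow_const (Or.inl (pW t ht).ne')).congr_deriv ?_
    have := (pW t ht).ne'
    simp only [hg]
    rw [Real.rpow_sub_one this]
    field_simp
    ring
  refine ⟨δ, hδ, F, g, sF, sW.rpow_const_of_ne fun t ht => (pW t ht).ne', by simp [hF, hJ],
    fun t ht0 => ?_⟩
  have ht : t ∈ Ioi (-δ) := lt_of_lt_of_le h0 ht0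
  have pY := (hp t ht).1
  have pT' := pT t ht
  have pF' := pF t
  have eD : F t * (deriv F t + 2 * t * deriv (deriv F) t) - t * deriv F t ^ 2 =
      9 / 2 * F t ^ 2 * Y t * T t := by
    rw [ddF t ht, (dF t ht).deriv]; ring
  have e : deriv g =ᶠ[𝓝 t] fun s => -(11 / 4) * (ξ s + 9) * Y s * g s := by
    filter_upwards [isOpen_Ioi.mem_nhds ht] with s hs using (dg s hs).deriv
  have d := ((((dξ t ht).add_const 9).const_mul (-(11 / 4))).mul (dY t ht)).mul (dg t ht)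
  rw [eD, ddF t ht, (dF t ht).deriv, e.deriv_eq, (dg t ht).deriv]
  refine ⟨pF', by positivity, by positivity, rfl, ?_⟩
  erw [d.deriv]
  have e3 : 16 * (9 / 2 * F t ^ 2 * Y t * T t) / (9 / 2 * Y t * F t) = 16 * F t * T t := by
    field_simp
  rw [e3]
  simp only [hξ, hT, Pi.mul_apply]
  ring

end Crest.Agent.R236

end
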