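import Crest.Agent.R236.Defs

/-!
The example in dimension 10: the smooth solution of the singular ODE near the origin.
-/

set_option autoImplicit false

open scoped ContDiff RealInnerProductSpace Topology
open MeasureTheory Set Filter
open Crest.GeometryTopology.CoordMetric Crest.GeometryTopology.AffineMaximal

noncomputable section

namespace Crest.Agent.R236

namespace OdeLoc

/-- a fixed point equation with a small analytic perturbation -/
theorem fix_param {V : Type} [NormedAddCommGroup V] [NormedSpace ℝ V] [CompleteSpace V]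
    (M : ℝ × V → V) (hM : ContDiff ℝ ω M) (h0 : ∀ v, M (0, v) = 0) (v₀ : V) :
    ∃ δ > 0, ∃ ε > 0, ∃ ψ : ℝ → V, ContDiffOn ℝ ∞ ψ (Ioo (-δ) δ) ∧ ψ 0 = v₀ ∧
      (∀ τ ∈ Ioo (-δ) δ, ψ τ = v₀ + M (τ, ψ τ) ∧ dist (ψ τ) v₀ < ε) ∧
      ∀ τ ∈ Ioo (-δ) δ, ∀ φ, dist φ v₀ < ε → φ = v₀ + M (τ, φ) → ψ τ = φ := by
  set f : ℝ × V → V := fun p => p.2 - M p with hf
  have cdf : ContDiffAt ℝ ω f (0, v₀) := (contDiff_snd.sub hM).contDiffAt
  have pn : (ω : WithTop ℕ∞) ≠ 0 := by simp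
  have hfu : f (0, v₀) = v₀ := by simp [hf, h0]
  have hid : fderiv ℝ f (0, v₀) ∘L ContinuousLinearMap.inr ℝ ℝ V =
      ContinuousLinearMap.id ℝ V := by
    have h1 : HasFDerivAt f (fderiv ℝ f (0, v₀)) (ContinuousLinearMap.inr ℝ ℝ V v₀) :=
      (cdf.differentiableAt pn).hasFDerivAt
    have h2 := h1.comp v₀ (ContinuousLinearMap.inr ℝ ℝ V).hasFDerivAt
    have h3 : f ∘ ContinuousLinearMap.inr ℝ ℝ V = id := by
      funext v; simp [hf, h0]
    rw [h3] at h2
    exact h2.unique (hasFDerivAt_id v₀)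
  have if₂ : (fderiv ℝ f (0, v₀) ∘L ContinuousLinearMap.inr ℝ ℝ V).IsInvertible := by
    rw [hid]; exact ⟨ContinuousLinearEquiv.refl ℝ V, rfl⟩
  set ψ := cdf.implicitFunction pn if₂ with hψ
  have e0 : ψ 0 = v₀ := cdf.implicitFunction_apply_self pn if₂
  obtain ⟨ε, hε, hu⟩ := Metric.eventually_nhds_iff.1
    (cdf.eventually_apply_eq_iff_implicitFunction pn if₂)
  have ha : AnalyticAt ℝ ψ 0 := (cdf.contDiffAt_implicitFunction pn if₂).analyticAt
  have e1 : ∀ᶠ τ in 𝓝 (0 : ℝ), f (τ, ψ τ) = f (0, v₀) :=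
    cdf.eventually_apply_implicitFunction pn if₂
  have e2 : ∀ᶠ τ in 𝓝 (0 : ℝ), dist (ψ τ) v₀ < ε := by
    have := ha.continuousAt.eventually (Metric.ball_mem_nhds (ψ 0) hε)
    rwa [e0] at this
  have e3 : ∀ᶠ τ in 𝓝 (0 : ℝ), dist τ 0 < ε := Metric.ball_mem_nhds _ hε
  obtain ⟨δ, hδ, hb⟩ := Metric.eventually_nhds_iff.1
    (ha.eventually_analyticAt.and (e1.and (e2.and e3)))
  have hI : ∀ τ ∈ Ioo (-δ) δ, dist τ 0 < δ := fun τ hτ => by
    rw [Real.dist_eq, sub_zero, abs_lt]; exact hτ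
  refine ⟨δ, hδ, ε, hε, ψ, fun τ hτ => (hb (hI τ hτ)).1.contDiffAt.contDiffWithinAt, e0,
    fun τ hτ => ⟨?_, (hb (hI τ hτ)).2.2.1⟩, fun τ hτ φ hφ he => ?_⟩
  · have := (hb (hI τ hτ)).2.1
    rw [hfu] at this
    exact sub_eq_iff_eq_add.1 this
  · have hd : dist (τ, φ) ((0 : ℝ), v₀) < ε := by
      rw [Prod.dist_eq]; exact max_lt (hb (hI τ hτ)).2.2.2 hφ
    refine (hu hd).1 ?_
    rw [hfu]
    exact sub_eq_iff_eq_add.2 he

/-- the fundamental theorem of calculus in scaled form -/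
theorem ftc_scaled {δ : ℝ} {G U : ℝ → ℝ} (hG : ContinuousOn G (Ioo (-δ) δ))
    (hU : ∀ τ ∈ Ioo (-δ) δ, U τ = τ * ∫ θ in (0 : ℝ)..1, G (τ * θ)) {τ : ℝ}
    (hτ : τ ∈ Ioo (-δ) δ) : HasDerivAt U (G τ) τ := by
  have h0 : (0 : ℝ) ∈ Ioo (-δ) δ := ⟨by linarith [hτ.1, hτ.2], by linarith [hτ.1, hτ.2]⟩
  have h1 : HasDerivAt (fun t => ∫ x in (0 : ℝ)..t, G x) (G τ) τ :=
    intervalIntegral.integral_hasDerivAt_right
      (hG.mono (ordConnected_Ioo.uIcc_subset h0 hτ)).intervalIntegrable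
      (hG.stronglyMeasurableAtFilter isOpen_Ioo τ hτ) (hG.continuousAt (isOpen_Ioo.mem_nhds hτ))
  refine h1.congr_of_eventuallyEq ?_
  filter_upwards [isOpen_Ioo.mem_nhds hτ] with t ht
  rw [hU t ht, intervalIntegral.mul_integral_comp_mul_left, mul_zero, mul_one]

/-- the singular equation from its integral form -/
theorem singular_of_integral {δ : ℝ} {W Z : ℝ → ℝ} (hW : ContinuousOn W (Ioo (-δ) δ))
    (hZ : DifferentiableOn ℝ Z (Ioo (-δ) δ))
    (hU : ∀ τ ∈ Ioo (-δ) δ, Z τ = ∫ θ in (0 : ℝ)..1, θ ^ 10 * W (τ * θ ^ 2)) {t : ℝ}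
    (ht : t ∈ Ioo (-δ) δ) : 2 * t * deriv Z t + 11 * Z t = W t := by
  have hδ : 0 < δ := by linarith [ht.1, ht.2]
  rcases eq_or_ne t 0 with rfl | ht0
  · rw [hU 0 ht]
    simp only [zero_mul, mul_zero, intervalIntegral.integral_mul_const, integral_pow]
    norm_num
    ring
  obtain ⟨ς, ρ, hς, hρ, rfl⟩ : ∃ ς ρ : ℝ, |ς| = 1 ∧ 0 < ρ ∧ t = ς * ρ ^ 2 := by
    rcases ht0.lt_or_gt with h | h
    · exact ⟨-1, √(-t), by simp, Real.sqrt_pos.2 (by linarith), by
        rw [Real.sq_sqrt (by linarith)]; ring⟩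
    · exact ⟨1, √t, by simp, Real.sqrt_pos.2 h, by rw [Real.sq_sqrt h.le]; ring⟩
  have hm : ∀ x : ℝ, x ∈ Ioo (-√δ) √δ ↔ ς * x ^ 2 ∈ Ioo (-δ) δ := by
    intro x
    rw [mem_Ioo, mem_Ioo, ← abs_lt, ← abs_lt, abs_mul, hς, one_mul, abs_of_nonneg (sq_nonneg x),
      Real.lt_sqrt (abs_nonneg x), sq_abs]
  have hG : ContinuousOn (fun x : ℝ => x ^ 10 * W (ς * x ^ 2)) (Ioo (-√δ) √δ) :=
    (continuousOn_pow 10).mul (hW.comp (by fun_prop) fun x hx => (hm x).1 hx)
  have h1 : HasDerivAt (fun x : ℝ => x ^ 11 * Z (ς * x ^ 2)) (ρ ^ 10 * W (ς * ρ ^ 2)) ρ := by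
    refine ftc_scaled hG (fun x hx => ?_) ((hm ρ).2 ht)
    rw [hU _ ((hm x).1 hx), ← intervalIntegral.integral_const_mul,
      ← intervalIntegral.integral_const_mul]
    congr 1
    funext θ
    rw [mul_pow x θ 2, mul_assoc ς]
    ring
  have h2 : HasDerivAt Z (deriv Z (ς * ρ ^ 2)) (ς * ρ ^ 2) :=
    (hZ.differentiableAt (isOpen_Ioo.mem_nhds ht)).hasDerivAt
  have h3 := (hasDerivAt_pow 11 ρ).mul
    (h2.comp ρ ((hasDerivAt_pow 2 ρ).const_mul ς))
  have h4 := h1.unique h3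
  have h5 : ρ ^ 10 ≠ 0 := by positivity
  apply mul_left_cancel₀ h5
  rw [h4]
  simp only [Function.comp]
  push_cast
  ring

/-- continuous functions on `[0, 1]` -/
abbrev CI : Type := C(unitInterval, ℝ)

/-- the clamp to `[0, 1]` -/
def cl (θ : ℝ) : unitInterval := projIcc 0 1 zero_le_one θ

theorem continuous_cl : Continuous cl := continuous_projIcc (h := zero_le_one)

theorem cl_of_mem {θ : ℝ} (h : θ ∈ uIcc (0 : ℝ) 1) : (cl θ : ℝ) = θ := by
  rw [uIcc_of_le zero_le_one] at h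
  rw [cl, projIcc_of_mem _ h]

theorem continuous_ker (m p : ℕ) (g : CI) :
    Continuous fun x : unitInterval × ℝ => x.2 ^ m * g (x.1 * cl x.2 ^ p) := by
  have h1 : Continuous fun x : unitInterval × ℝ => x.1 * cl x.2 ^ p := by
    refine continuous_induced_rng.2 ?_
    show Continuous fun x : unitInterval × ℝ => (x.1 : ℝ) * (cl x.2 : ℝ) ^ p
    have := continuous_cl
    fun_prop
  fun_prop

theorem integrable_ker (m p : ℕ) (g : CI) (s : unitInterval) :
    IntervalIntegrable (fun θ : ℝ => θ ^ m * g (s * cl θ ^ p)) volume 0 1 :=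
  ((continuous_ker m p g).comp (Continuous.prodMk_right s)).intervalIntegrable 0 1

/-- the averaging operators -/
def Hl (m p : ℕ) : CI →ₗ[ℝ] CI where
  toFun g := ⟨fun s => ∫ θ in (0 : ℝ)..1, θ ^ m * g (s * cl θ ^ p),
    intervalIntegral.continuous_parametric_intervalIntegral_of_continuous'
      (f := fun (s : unitInterval) (θ : ℝ) => θ ^ m * g (s * cl θ ^ p)) (continuous_ker m p g) 0 1⟩
  map_add' g g' := by
    ext s
    simp only [ContinuousMap.coe_mk, ContinuousMap.add_apply, mul_add]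
    exact intervalIntegral.integral_add (integrable_ker m p g s) (integrable_ker m p g' s)
  map_smul' c g := by
    ext s
    simp only [ContinuousMap.coe_mk, ContinuousMap.smul_apply, RingHom.id_apply, smul_eq_mul]
    rw [← intervalIntegral.integral_const_mul]
    congr 1
    funext θ
    ring

/-- the averaging operators are bounded -/
def H (m p : ℕ) : CI →L[ℝ] CI :=
  (Hl m p).mkContinuous 1 fun g => by
    rw [one_mul, ContinuousMap.norm_le _ (norm_nonneg g)]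
    intro s
    have := intervalIntegral.norm_integral_le_of_norm_le_const (a := (0 : ℝ)) (b := 1)
      (f := fun θ : ℝ => θ ^ m * g (s * cl θ ^ p)) (C := ‖g‖) fun θ hθ => by
        rw [uIoc_of_le zero_le_one] at hθ
        rw [norm_mul, norm_pow, Real.norm_of_nonneg hθ.1.le]
        exact (mul_le_of_le_one_left (norm_nonneg _) (pow_le_one₀ hθ.1.le hθ.2)).trans
          (g.norm_coe_le_norm _)
    rw [sub_zero, abs_one, mul_one] at this
    exact this

theorem H_apply (m p : ℕ) (g : CI) (s : unitInterval) :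
    H m p g s = ∫ θ in (0 : ℝ)..1, θ ^ m * g (s * cl θ ^ p) := rfl

/-- rescaling -/
def R (σ : unitInterval) : CI →ₐ[ℝ] CI :=
  ContinuousMap.compRightAlgHom ℝ ℝ ⟨fun s => σ * s, continuous_induced_rng.2
    (show Continuous fun s : unitInterval => (σ : ℝ) * (s : ℝ) by fun_prop)⟩

theorem R_app (σ : unitInterval) (g : CI) (s : unitInterval) : R σ g s = g (σ * s) := rfl

theorem R_H (σ : unitInterval) (m p : ℕ) (g : CI) : R σ (H m p g) = H m p (R σ g) := by
  ext s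
  simp only [R_app, H_apply, mul_assoc]

/-- the coordinate -/
def S : CI := ⟨fun s => s, continuous_subtype_val⟩

theorem R_S (σ : unitInterval) (τ : ℝ) : R σ (τ • S) = (τ * σ) • S := by
  ext s
  simp [R_app, S, mul_assoc]

/-- the right-hand side of the first equation -/
def g1 (T y z : CI) : CI := (1 / 4 : ℝ) • (y * z + T * (y * y * z) - (8 : ℝ) • (y * y))

/-- the higher order part of the right-hand side of the second equation -/
def hh (T y z : CI) : CI := (11 : ℝ) • (z * y) + T * (z * z * y) - (9 / 2 : ℝ) • (z * z)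

/-- the perturbation -/
def Mx (T : CI) (v : CI × CI) : CI × CI :=
  (T * H 0 1 (g1 T v.1 v.2), H 10 2 ((10 : ℝ) • (T * H 0 1 (g1 T v.1 v.2)) + T * hh T v.1 v.2))

theorem R_Mx (σ : unitInterval) (T : CI) (v : CI × CI) :
    Prod.map (R σ) (R σ) (Mx T v) = Mx (R σ T) (Prod.map (R σ) (R σ) v) := by
  simp only [Mx, g1, hh, Prod.map, R_H, map_mul, map_add, map_sub, map_smul]

theorem contDiff_Mx : ContDiff ℝ ω fun p : ℝ × (CI × CI) => Mx (p.1 • S) p.2 := by
  have hT : ContDiff ℝ ω fun p : ℝ × (CI × CI) => p.1 • S := contDiff_fst.smul contDiff_const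
  have hy : ContDiff ℝ ω fun p : ℝ × (CI × CI) => p.2.1 := contDiff_fst.comp contDiff_snd
  have hz : ContDiff ℝ ω fun p : ℝ × (CI × CI) => p.2.2 := contDiff_snd.comp contDiff_snd
  have h1 : ContDiff ℝ ω fun p : ℝ × (CI × CI) => g1 (p.1 • S) p.2.1 p.2.2 :=
    (((hy.mul hz).add (hT.mul ((hy.mul hy).mul hz))).sub ((hy.mul hy).const_smul _)).const_smul _
  have h2 : ContDiff ℝ ω fun p : ℝ × (CI × CI) => hh (p.1 • S) p.2.1 p.2.2 :=
    (((hz.mul hy).const_smul _).add (hT.mul ((hz.mul hz).mul hy))).sub ((hz.mul hz).const_smul _)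
  have h3 := hT.mul ((H 0 1).contDiff.comp h1)
  exact h3.prodMk ((H 10 2).contDiff.comp ((h3.const_smul _).add (hT.mul h2)))

end OdeLoc

open OdeLoc

variable {n : ℕ}

theorem ode_loc : ∃ δ : ℝ, 0 < δ ∧ ∃ Y Z : ℝ → ℝ, ContDiffOn ℝ ∞ Y (Ioo (-δ) δ) ∧
    ContDiffOn ℝ ∞ Z (Ioo (-δ) δ) ∧ Y 0 = 1 ∧ Z 0 = 10 / 11 ∧
    (∀ t ∈ Ioo (-δ) δ, deriv Y t = Y t * (Z t + Y t * (1 + t * Z t - 9)) / 4) ∧
    (∀ t ∈ Ioo (-δ) δ, 2 * t * deriv Z t + 11 * Z t =
      ((1 + t * Z t) ^ 2 + 9 * (1 + t * Z t)) * Y t - 9 / 2 * t * Z t ^ 2) := by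
  obtain ⟨δ, hδ, ε, hε, ψ, hψ, h0, hfix, huniq⟩ := fix_param
    (fun p : ℝ × (CI × CI) => Mx (p.1 • S) p.2) contDiff_Mx (fun v => by simp [Mx])
    (ContinuousMap.const _ 1, ContinuousMap.const _ (10 / 11))
  have hsc : ∀ τ ∈ Ioo (-δ) δ, ∀ σ : unitInterval, τ * σ ∈ Ioo (-δ) δ := by
    intro τ hτ σ
    rw [mem_Ioo, ← abs_lt] at hτ ⊢
    rw [abs_mul, abs_of_nonneg σ.2.1]
    exact (mul_le_of_le_one_right (abs_nonneg _) σ.2.2).trans_lt hτ
  have hR : ∀ τ ∈ Ioo (-δ) δ, ∀ σ : unitInterval,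
      ψ (τ * σ) = Prod.map (R σ) (R σ) (ψ τ) := by
    intro τ hτ σ
    obtain ⟨h1, h2⟩ := hfix τ hτ
    refine huniq _ (hsc τ hτ σ) _ ?_ ?_
    · rw [Prod.dist_eq, max_lt_iff, ContinuousMap.dist_lt_iff hε, ContinuousMap.dist_lt_iff hε]
        at h2 ⊢
      exact ⟨fun s => h2.1 (σ * s), fun s => h2.2 (σ * s)⟩
    · simp only
      rw [← R_S, ← R_Mx]
      conv_lhs => rw [h1]
      ext s <;> simp [R_app]
  set Y : ℝ → ℝ := fun τ => (ψ τ).1 1 with hY
  set Z : ℝ → ℝ := fun τ => (ψ τ).2 1 with hZ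
  have sY : ContDiffOn ℝ ∞ Y (Ioo (-δ) δ) :=
    (ContinuousMap.evalCLM ℝ (1 : unitInterval) : CI →L[ℝ] ℝ).contDiff.comp_contDiffOn hψ.fst
  have sZ : ContDiffOn ℝ ∞ Z (Ioo (-δ) δ) :=
    (ContinuousMap.evalCLM ℝ (1 : unitInterval) : CI →L[ℝ] ℝ).contDiff.comp_contDiffOn hψ.snd
  have eY : ∀ τ ∈ Ioo (-δ) δ, ∀ σ : unitInterval, (ψ τ).1 σ = Y (τ * σ) := by
    intro τ hτ σ
    simp only [hY, hR τ hτ σ, Prod.map_fst, R_app, mul_one]
  have eZ : ∀ τ ∈ Ioo (-δ) δ, ∀ σ : unitInterval, (ψ τ).2 σ = Z (τ * σ) := by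
    intro τ hτ σ
    simp only [hZ, hR τ hτ σ, Prod.map_snd, R_app, mul_one]
  have cY := sY.continuousOn
  have cZ := sZ.continuousOn
  refine ⟨δ, hδ, Y, Z, sY, sZ, by simp [hY, h0], by simp [hZ, h0], fun t ht => ?_,
    fun t ht => ?_⟩
  · have := ftc_scaled (δ := δ) (U := fun τ => Y τ - 1)
      (G := fun t => Y t * (Z t + Y t * (1 + t * Z t - 9)) / 4) (by fun_prop) (fun τ hτ => by
        have h1 := congrArg (fun v : CI × CI => v.1 1) (hfix τ hτ).1
        simp only [Mx, Prod.fst_add, ContinuousMap.add_apply, ContinuousMap.const_apply,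
          ContinuousMap.mul_apply, H_apply] at h1
        show (ψ τ).1 1 - 1 = _
        rw [h1, add_sub_cancel_left]
        congr 1
        · simp [S]
        · refine intervalIntegral.integral_congr fun θ hθ => ?_
          simp only [g1, ContinuousMap.smul_apply, ContinuousMap.add_apply,
            ContinuousMap.sub_apply, ContinuousMap.mul_apply, eY τ hτ, eZ τ hτ, one_mul, pow_one,
            pow_zero, S, ContinuousMap.coe_mk, cl_of_mem hθ, smul_eq_mul]
          ring) ht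
    exact (this.add_const 1).deriv.symm ▸ by simp
  · have hd : DifferentiableOn ℝ Z (Ioo (-δ) δ) := sZ.differentiableOn (by simp)
    have := singular_of_integral (δ := δ) (Z := fun τ => Z τ - 10 / 11)
      (W := fun t => ((1 + t * Z t) ^ 2 + 9 * (1 + t * Z t)) * Y t - 9 / 2 * t * Z t ^ 2 - 10)
      (by fun_prop) (hd.sub_const _) (fun τ hτ => by
        have h1 := congrArg Prod.fst (hfix τ hτ).1
        have h2 := congrArg (fun v : CI × CI => v.2 1) (hfix τ hτ).1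
        simp only [Mx, Prod.fst_add] at h1
        simp only [Mx, Prod.snd_add, ContinuousMap.add_apply, ContinuousMap.const_apply] at h2
        rw [← sub_eq_iff_eq_add'.2 h1, H_apply] at h2
        show (ψ τ).2 1 - 10 / 11 = _
        rw [h2, add_sub_cancel_left]
        refine intervalIntegral.integral_congr fun θ hθ => ?_
        simp only [hh, ContinuousMap.smul_apply, ContinuousMap.add_apply,
          ContinuousMap.sub_apply, ContinuousMap.mul_apply, eY τ hτ, eZ τ hτ, one_mul,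
          S, ContinuousMap.coe_mk, Icc.coe_pow, cl_of_mem hθ, smul_eq_mul,
          ContinuousMap.const_apply]
        ring) ht
    rw [deriv_sub_const] at this
    linarith

end Crest.Agent.R236

end
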