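import Crest.Agent.R236.CalcB

/-!
Pogorelov's estimate, normalised form.
-/

set_option autoImplicit false

open scoped ContDiff RealInnerProductSpace Topology
open MeasureTheory Set Filter
open Crest.GeometryTopology.CoordMetric Crest.GeometryTopology.AffineMaximal

noncomputable section

namespace Crest.Agent.R236

variable {n : ℕ}

namespace Pg

open Matrix

lemma frob {S : Matrix (Fin n) (Fin n) ℝ} (hS : S.IsSymm) (f : Fin n → ℝ) :
    2 * (S *ᵥ f ⬝ᵥ S *ᵥ f) * (f ⬝ᵥ f) - (f ⬝ᵥ S *ᵥ f) ^ 2 ≤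
      (∑ i, ∑ j, S i j ^ 2) * (f ⬝ᵥ f) ^ 2 := by
  obtain ⟨g, hg⟩ : ∃ g, g = S *ᵥ f := ⟨_, rfl⟩
  rw [← hg]
  obtain ⟨s, hs⟩ : ∃ s, s = ∑ i, f i * f i := ⟨_, rfl⟩
  obtain ⟨τ, hτ⟩ : ∃ τ, τ = ∑ i, f i * g i := ⟨_, rfl⟩
  obtain ⟨γ, hγ⟩ : ∃ γ, γ = ∑ i, g i * g i := ⟨_, rfl⟩
  obtain ⟨σ, hσ⟩ : ∃ σ, σ = ∑ i, ∑ j, S i j ^ 2 := ⟨_, rfl⟩
  simp only [dotProduct]
  rw [← hs, ← hτ, ← hγ, ← hσ]
  have hgi : ∀ i, ∑ j, S i j * f j = g i := fun i => by rw [hg]; rfl
  have e1 : ∑ i, ∑ j, S i j * g i * f j = γ := by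
    rw [hγ]
    refine Finset.sum_congr rfl fun i _ => ?_
    conv_rhs => rw [← hgi i, Finset.sum_mul, hgi i]
    exact Finset.sum_congr rfl fun j _ => by ring
  have e2 : ∑ i, ∑ j, S i j * f i * g j = γ := by
    rw [← e1, Finset.sum_comm]
    exact Finset.sum_congr rfl fun i _ => Finset.sum_congr rfl fun j _ => by
      rw [hS.apply i j]; ring
  have e3 : ∑ i, ∑ j, S i j * f i * f j = τ := by
    rw [hτ]
    refine Finset.sum_congr rfl fun i _ => ?_
    rw [← hgi i, Finset.mul_sum]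
    exact Finset.sum_congr rfl fun j _ => by ring
  have e4 : ∀ a b : Fin n → ℝ, ∑ i, ∑ j, a i * b j = (∑ i, a i) * ∑ j, b j := fun a b =>
    (Finset.sum_mul_sum _ _ _ _).symm
  have key : 0 ≤ ∑ i, ∑ j, (s ^ 2 * S i j - s * (f i * g j + g i * f j) + τ * (f i * f j)) ^ 2 :=
    Finset.sum_nonneg fun i _ => Finset.sum_nonneg fun j _ => sq_nonneg _
  have ex : ∀ i j, (s ^ 2 * S i j - s * (f i * g j + g i * f j) + τ * (f i * f j)) ^ 2 =
      s ^ 4 * S i j ^ 2 - 2 * s ^ 3 * (S i j * f i * g j) - 2 * s ^ 3 * (S i j * g i * f j) +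
        2 * s ^ 2 * τ * (S i j * f i * f j) + s ^ 2 * ((f i * f i) * (g j * g j)) +
        s ^ 2 * ((g i * g i) * (f j * f j)) + 2 * s ^ 2 * ((f i * g i) * (f j * g j)) -
        2 * s * τ * ((f i * f i) * (f j * g j)) - 2 * s * τ * ((f i * g i) * (f j * f j)) +
        τ ^ 2 * ((f i * f i) * (f j * f j)) := fun i j => by ring
  simp only [ex, Finset.sum_add_distrib, Finset.sum_sub_distrib, ← Finset.mul_sum] at key
  simp only [← Finset.sum_mul] at key
  rw [e1, e2, e3, ← hs, ← hτ, ← hγ, ← hσ] at key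
  have hs0 : 0 ≤ s := hs ▸ Finset.sum_nonneg fun i _ => mul_self_nonneg _
  rcases hs0.eq_or_lt with h | h
  · rw [← h]; nlinarith [sq_nonneg τ]
  · have : 0 ≤ s ^ 2 * (σ * s ^ 2 - (2 * γ * s - τ ^ 2)) := by nlinarith
    have := (mul_nonneg_iff_of_pos_left (pow_pos h 2)).1 this
    linarith

lemma trace_eq {T C : Matrix (Fin n) (Fin n) ℝ} (hT : T.IsSymm) :
    (Cᵀ * C * T * (Cᵀ * C) * T).trace = ∑ i, ∑ j, (C * T * Cᵀ) i j ^ 2 := by
  have hS : (C * T * Cᵀ).IsSymm := by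
    rw [IsSymm, transpose_mul, transpose_mul, transpose_transpose, hT.eq, Matrix.mul_assoc]
  have : (Cᵀ * C * T * (Cᵀ * C) * T).trace = ((C * T * Cᵀ) * (C * T * Cᵀ)).trace := by
    rw [show Cᵀ * C * T * (Cᵀ * C) * T = Cᵀ * (C * T * Cᵀ * (C * T)) by
      simp only [Matrix.mul_assoc], trace_mul_comm]
    simp only [Matrix.mul_assoc]
  rw [this]
  generalize C * T * Cᵀ = S at hS
  simp only [trace, diag, mul_apply]
  exact Finset.sum_congr rfl fun i _ => Finset.sum_congr rfl fun j _ => by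
    rw [hS.apply i j, sq]

lemma hq_smul (u : E n → ℝ) (x v : E n) (c : ℝ) : hq u x (c • v) (c • v) = c ^ 2 * hq u x v v := by
  simp only [hq, Finset.mul_sum, PiLp.smul_apply, smul_eq_mul]
  exact Finset.sum_congr rfl fun i _ => Finset.sum_congr rfl fun j _ => by ring

lemma hq_zero (u : E n → ℝ) (x : E n) : hq u x 0 0 = 0 := by simp [hq]

lemma hq_eb (u : E n → ℝ) (x v : E n) (k : Fin n) :
    hq u x v (eb k) = ∑ i, hessianMat u x i k * v i := by
  simp [hq, PiLp.single_apply]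

lemma hq_eb_eb (u : E n → ℝ) (x : E n) (i k : Fin n) :
    hq u x (eb i) (eb k) = hessianMat u x i k := by
  simp [hq_eb, PiLp.single_apply]

lemma le_of_sphere {u : E n → ℝ} {x : E n} {s : ℝ} (h : ∀ e : E n, ‖e‖ = 1 → hq u x e e ≤ s)
    (v : E n) : hq u x v v ≤ s * ‖v‖ ^ 2 := by
  by_cases hv : v = 0
  · subst hv; simp [hq_zero]
  · have hn : 0 < ‖v‖ := norm_pos_iff.2 hv
    have h1 := h (‖v‖⁻¹ • v) (by rw [norm_smul, norm_inv, norm_norm, inv_mul_cancel₀ hn.ne'])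
    rw [hq_smul, inv_pow, inv_mul_le_iff₀ (pow_pos hn 2)] at h1
    linarith

/-- the squared gradient -/
def qq (u : E n → ℝ) (y : E n) : ℝ := ∑ k, dv (eb k) u y * dv (eb k) u y

lemma qq_nonneg (u : E n → ℝ) (y : E n) : 0 ≤ qq u y :=
  Finset.sum_nonneg fun _ _ => mul_self_nonneg _

lemma contDiffAt_qq {u : E n → ℝ} {x : E n} (hu : ContDiffAt ℝ ∞ u x) :
    ContDiffAt ℝ ∞ (qq u) x :=
  ContDiffAt.sum fun _ _ => (contDiffAt_dv hu _).mul (contDiffAt_dv hu _)

lemma final_ineq {N w s q ue m H gDD gpp tr trA : ℝ} (hw : 0 < w) (hs : 0 < s)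
    (h0 : -N / w - gDD / w ^ 2 + (tr / s - gpp) + trA ≤ 0) (hA : s ≤ trA)
    (htr : 2 * (s ^ 2 * gpp) * s - (s * (ue / w - m)) ^ 2 ≤ tr * s ^ 2)
    (hg : gpp = gDD / w ^ 2 - 2 * q / w + H) (hH : m ^ 2 ≤ H * s) (hm : m ^ 2 ≤ s * (s * q)) :
    (w * s) ^ 2 ≤ (N + 3 * q + ue ^ 2) * (w * s) + ue ^ 2 := by
  have h1 : 2 * gpp - (ue / w - m) ^ 2 / s ≤ tr / s := by
    rw [le_div_iff₀ hs]
    have : (2 * gpp - (ue / w - m) ^ 2 / s) * s * s ^ 2 ≤ tr * s ^ 2 := by
      refine le_trans (le_of_eq ?_) htr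
      field_simp
    exact le_of_mul_le_mul_right this (pow_pos hs 2)
  have h2 : m ^ 2 / s ≤ H := by rwa [div_le_iff₀ hs]
  have h3 : -(2 * ue * m) ≤ s * (ue ^ 2 + q) := by
    have : s * (-(2 * ue * m)) ≤ s * (s * (ue ^ 2 + q)) := by nlinarith [sq_nonneg (s * ue + m)]
    exact le_of_mul_le_mul_left this hs
  have h4 : s ≤ N / w + 2 * q / w + ue ^ 2 / (w ^ 2 * s) - 2 * ue * m / (w * s) := by
    have e : (ue / w - m) ^ 2 / s = ue ^ 2 / (w ^ 2 * s) - 2 * ue * m / (w * s) + m ^ 2 / s := by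
      field_simp; ring
    have e2 : -N / w = -(N / w) := by ring
    linarith
  have h5 := mul_le_mul_of_nonneg_left h4 (mul_pos (pow_pos hw 2) hs).le
  have e : w ^ 2 * s * (N / w + 2 * q / w + ue ^ 2 / (w ^ 2 * s) - 2 * ue * m / (w * s)) =
      (N + 2 * q) * (w * s) + ue ^ 2 + w * (-(2 * ue * m)) := by
    field_simp; ring
  rw [e] at h5
  nlinarith [mul_le_mul_of_nonneg_left h3 hw.le]

end Pg

open Pg

/-- the algebraic inequality in Pogorelov's computation -/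
lemma pog_trace {A T : Matrix (Fin n) (Fin n) ℝ} (hA : A.PosDef) (hT : T.IsSymm) (e : Fin n → ℝ) :
    2 * (T.mulVec e ⬝ᵥ A⁻¹.mulVec (T.mulVec e)) * (e ⬝ᵥ A.mulVec e) - (e ⬝ᵥ T.mulVec e) ^ 2 ≤
      (A⁻¹ * T * A⁻¹ * T).trace * (e ⬝ᵥ A.mulVec e) ^ 2 := by
  obtain ⟨C, hC⟩ := ca_exists_sqrt hA.inv.posSemidef
  have hS : (C * T * C.transpose).IsSymm := by
    rw [Matrix.IsSymm, Matrix.transpose_mul, Matrix.transpose_mul, Matrix.transpose_transpose,
      hT.eq, Matrix.mul_assoc]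
  have h1 : C.transpose.mulVec (C.mulVec (A.mulVec e)) = e := by
    rw [Matrix.mulVec_mulVec, Matrix.mulVec_mulVec, ← hC,
      Matrix.nonsing_inv_mul _ (Matrix.isUnit_iff_isUnit_det _ |>.1 hA.isUnit), Matrix.one_mulVec]
  have h2 : ∀ a b : Fin n → ℝ, C.mulVec a ⬝ᵥ C.mulVec b = C.transpose.mulVec (C.mulVec a) ⬝ᵥ b := by
    intro a b
    rw [Matrix.dotProduct_mulVec, Matrix.mulVec_transpose]
  have h3 : (C * T * C.transpose).mulVec (C.mulVec (A.mulVec e)) = C.mulVec (T.mulVec e) := by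
    rw [← Matrix.mulVec_mulVec, h1, Matrix.mulVec_mulVec]
  have key := frob hS (C.mulVec (A.mulVec e))
  rw [h3, h2 (A.mulVec e), h2 (A.mulVec e), h1, ← trace_eq hT, h2, Matrix.mulVec_mulVec (T.mulVec e),
    ← hC, dotProduct_comm] at key
  exact key

lemma trace_sq_nonneg {A T : Matrix (Fin n) (Fin n) ℝ} (hA : A.PosDef) (hT : T.IsSymm) :
    0 ≤ (A⁻¹ * T * A⁻¹ * T).trace := by
  obtain ⟨C, hC⟩ := ca_exists_sqrt hA.inv.posSemidef
  rw [hC, trace_eq hT]
  exact Finset.sum_nonneg fun i _ => Finset.sum_nonneg fun j _ => sq_nonneg _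

lemma mu_const {u : E n → ℝ} (hd : ∀ x, hdet u x = hdet u 0) : mu u = fun _ => mu u 0 := by
  funext x; simp only [mu, hd x]

lemma Lop_hq_const {u : E n → ℝ} (hu : Cvx univ u) (hd : ∀ x, hdet u x = hdet u 0) (x v : E n) :
    Lop u (fun y => hq u y v v) x =
      ((hessianMat u x)⁻¹ * d3 u x v * (hessianMat u x)⁻¹ * d3 u x v).trace := by
  have : dv v (mu u) = fun _ => 0 := by
    rw [mu_const hd]; funext y; exact CB.dv_const _ _
  rw [Lop_hq hu (mem_univ x), this, CB.dv_const, mul_zero, sub_zero]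

/-- the inequality at a maximum point -/
lemma pog_max {u : E n → ℝ} (hu : Cvx univ u) (hd : ∀ x, hdet u x = hdet u 0) {x e : E n}
    (hx : u x < 1) (he : ‖e‖ = 1) (hmax : ∀ v : E n, hq u x v v ≤ hq u x e e * ‖v‖ ^ 2)
    (hloc : IsLocalMax (fun y => (1 - u y) * hq u y e e * Real.exp (qq u y / 2)) x) :
    ((1 - u x) * hq u x e e) ^ 2 ≤ (n + 3 * qq u x + fderiv ℝ u x e ^ 2) *
      ((1 - u x) * hq u x e e) + fderiv ℝ u x e ^ 2 := by
  have hA := hu.pos x (mem_univ x)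
  have hux : ContDiffAt ℝ ∞ u x := hu.at (mem_univ x)
  have he0 : e ≠ 0 := by rintro rfl; simp at he
  have hw : 0 < 1 - u x := sub_pos.2 hx
  have hs : 0 < hq u x e e := hq_pos hA he0
  have c1 : ContDiffAt ℝ ∞ (fun y => 1 - u y) x := contDiffAt_const.sub hux
  have c2 : ContDiffAt ℝ ∞ (fun y => hq u y e e) x := contDiffAt_hq hux e e
  have c3 : ContDiffAt ℝ ∞ (fun y => (1 / 2 : ℝ) * qq u y) x :=
    contDiffAt_const.mul (contDiffAt_qq hux)
  have l1 : ContDiffAt ℝ ∞ (fun y => Real.log (1 - u y)) x := c1.log hw.ne'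
  have l2 : ContDiffAt ℝ ∞ (fun y => Real.log (hq u y e e)) x := c2.log hs.ne'
  -- the function `z`
  have hz : IsLocalMax (fun y => Real.log (1 - u y) + Real.log (hq u y e e) +
      (1 / 2 : ℝ) * qq u y) x := by
    have ev : ∀ᶠ y in 𝓝 x, 0 < 1 - u y := c1.continuousAt.eventually (lt_mem_nhds hw)
    filter_upwards [hloc, ev] with y h1 h2
    have h3 : 0 < hq u y e e := hq_pos (hu.pos y (mem_univ y)) he0
    have h4 := Real.log_le_log (by positivity) h1
    rw [Real.log_mul (by positivity) (by positivity), Real.log_mul h2.ne' h3.ne', Real.log_exp,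
      Real.log_mul (by positivity) (by positivity), Real.log_mul hw.ne' hs.ne', Real.log_exp] at h4
    linarith
  set D := fderiv ℝ u x with hD
  set t := fderiv ℝ (fun y => hq u y e e) x with ht
  set G : E n := WithLp.toLp 2 fun k => dv (eb k) u x with hG
  set η := fderiv ℝ (dv G u) x with hη
  have hDu : HasFDerivAt u D x := (diff_of_top hux).hasFDerivAt
  have d1 : HasFDerivAt (fun y => 1 - u y) (-D) x := hDu.const_sub 1
  have d2 : HasFDerivAt (fun y => hq u y e e) t x := (diff_of_top c2).hasFDerivAt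
  have d3' : HasFDerivAt (fun y => (1 / 2 : ℝ) * qq u y) η x := by
    have hk : ∀ k, HasFDerivAt (dv (eb k) u) (fderiv ℝ (dv (eb k) u) x) x := fun k =>
      (diff_of_top (contDiffAt_dv hux _)).hasFDerivAt
    have h1 := (HasFDerivAt.fun_sum (u := Finset.univ) fun k _ => (hk k).mul (hk k)).const_mul
      (1 / 2 : ℝ)
    refine h1.congr_fderiv ?_
    ext v
    simp only [hη, smul_apply, sum_apply,
      add_apply, fderiv_dv_apply hux, smul_eq_mul, hq_eb, Finset.mul_sum]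
    rw [hq, Finset.sum_comm]
    refine Finset.sum_congr rfl fun k _ => ?_
    rw [← Finset.sum_add_distrib, Finset.mul_sum]
    exact Finset.sum_congr rfl fun i _ => by simp only [hG]; ring
  have hcrit := hz.hasFDerivAt_eq_zero (((d1.log hw.ne').add (d2.log hs.ne')).add d3')
  have ht' : t = hq u x e e • ((1 - u x)⁻¹ • D - η) := by
    have : (hq u x e e)⁻¹ • t = (1 - u x)⁻¹ • D - η := by
      rw [smul_neg] at hcrit
      rw [← sub_eq_zero, ← hcrit]; abel
    rw [← this, smul_inv_smul₀ hs.ne']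
  -- second order condition
  have hL : Lop u (fun y => Real.log (1 - u y) + Real.log (hq u y e e) +
      (1 / 2 : ℝ) * qq u y) x ≤ 0 := by
    have := Lop_nonneg_of_isLocalMin hA (two_of_top ((l1.add l2).add c3)).neg hz.neg
    rw [Lop_neg] at this
    linarith
  have L1 : Lop u (fun y => 1 - u y) x = -n := by
    rw [Lop_sub contDiffAt_const (two_of_top hux), Lop_const, Lop_self hA, zero_sub]
  have L3 : Lop u (fun y => (1 / 2 : ℝ) * qq u y) x = (hessianMat u x).trace := by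
    have hk : ∀ k, ContDiffAt ℝ 2 (dv (eb k) u) x := fun k => two_of_top (contDiffAt_dv hux _)
    have h0 : ∀ k, Lop u (dv (eb k) u) x = 0 := fun k => by
      rw [Lop_dv hux hA, mu_const hd]; simp
    rw [Lop_const_mul _ (two_of_top (contDiffAt_qq hux))]
    unfold qq
    rw [Lop_sum _ fun k _ => (hk k).mul (hk k), Finset.mul_sum]
    refine Finset.sum_congr rfl fun k _ => ?_
    rw [Lop_mul hA (hk k) (hk k), h0, Gam, gamB_dv hux hA, fderiv_dv_apply hux, hq_eb_eb]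
    simp
  rw [Lop_add (two_of_top (l1.add l2)) (two_of_top c3), Lop_add (two_of_top l1) (two_of_top l2),
    Lop_log (two_of_top c1) hw.ne', Lop_log (two_of_top c2) hs.ne', L1, L3, Lop_hq_const hu hd,
    Gam_eq d1 d1, Gam_eq d2 d2] at hL
  have hDG : D G = qq u x := by
    rw [clm_apply_eq_sum]; rfl
  have hGn : ‖G‖ ^ 2 = qq u x := by
    rw [EuclideanSpace.real_norm_sq_eq]
    exact Finset.sum_congr rfl fun k _ => sq _
  have g1 : gamB u x η D = qq u x := by rw [hη, gamB_dv hux hA, hDG]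
  have g2 : gamB u x D η = qq u x := by rw [gamB_comm hA, g1]
  set p := (1 - u x)⁻¹ • D - η with hp
  have hgp : gamB u x p p = gamB u x D D / (1 - u x) ^ 2 - 2 * qq u x / (1 - u x) +
      gamB u x η η := by
    simp only [hp, gamB_sub_left, gamB_sub_right, gamB_smul_left, gamB_smul_right, g1, g2]
    field_simp; ring
  have hgt : gamB u x t t = hq u x e e ^ 2 * gamB u x p p := by
    rw [ht', gamB_smul_left, gamB_smul_right]; ring
  have hte : t e = hq u x e e * (D e / (1 - u x) - η e) := by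
    rw [ht']; simp [hp, div_eq_inv_mul]
  have hti : (fun i => t (eb i)) = (d3 u x e).mulVec e.ofLp := by
    funext i; rw [ht, fderiv_hq_apply hux]; rfl
  have tr := pog_trace hA (d3_symm hux e) e.ofLp
  rw [← hti, ← caQ_eq_dot, ← caQ_eq_dot] at tr
  have a1 : caQ (hessianMat u x)⁻¹ (fun i => t (eb i)) (fun i => t (eb i)) = gamB u x t t := rfl
  have a2 : caQ (hessianMat u x) e.ofLp e.ofLp = hq u x e e := rfl
  have a3 : (e.ofLp ⬝ᵥ fun i => t (eb i)) = t e := (clm_apply_eq_sum t e).symm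
  rw [a1, a2, a3, hgt, hte] at tr
  have htrA : hq u x e e ≤ (hessianMat u x).trace := by
    have := hq_le_trace hA e
    rwa [he, one_pow, mul_one] at this
  have hm : η e ^ 2 ≤ hq u x e e * (hq u x e e * qq u x) := by
    rw [hη, fderiv_dv_apply hux, ← hGn]
    exact (hq_sq_le hA e G).trans (mul_le_mul_of_nonneg_left (hmax G) hs.le)
  refine final_ineq hw hs ?_ htrA tr hgp (clm_sq_le hA η e) hm
  rw [gamB_neg_left, gamB_neg_right, neg_neg, hgt,
    mul_div_cancel_left₀ _ (pow_pos hs 2).ne'] at hL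
  exact hL

theorem pog (n : ℕ) (P : ℝ) : ∃ C : ℝ, 0 < C ∧ ∀ u : E n → ℝ, Cvx univ u →
    (∀ x, hdet u x = hdet u 0) → IsCompact {x | u x ≤ 1} → (∀ x, 0 ≤ u x) →
    (∀ x, u x ≤ 1 → ‖fderiv ℝ u x‖ ≤ P) →
      ∀ x, u x ≤ 1 / 2 → ∀ e : E n, hq u x e e ≤ C * ‖e‖ ^ 2 := by
  set Q : ℝ := n * P ^ 2 with hQ
  have hQ0 : 0 ≤ Q := by positivity
  set Y : ℝ := n + 3 * Q + P ^ 2 + P ^ 2 + 1 with hY
  have hY0 : 0 < Y := by positivity
  refine ⟨2 * (Y * Real.exp (Q / 2)), by positivity, fun u hu hd hK h0 hP x hx => ?_⟩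
  refine le_of_sphere fun e he => ?_
  have hsm : ∀ y, ContDiffAt ℝ ∞ u y := fun y => hu.at (mem_univ y)
  let F : E n × E n → ℝ := fun z => (1 - u z.1) * hq u z.1 z.2 z.2 * Real.exp (qq u z.1 / 2)
  have cu : Continuous u := continuous_iff_continuousAt.2 fun y => (hsm y).continuousAt
  have cq : Continuous (qq u) :=
    continuous_iff_continuousAt.2 fun y => (contDiffAt_qq (hsm y)).continuousAt
  have ch : ∀ i j, Continuous fun y => hessianMat u y i j := fun i j =>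
    continuous_iff_continuousAt.2 fun y => (contDiffAt_hess (hsm y) i j).continuousAt
  have cF : Continuous F := by
    simp only [F, hq]
    fun_prop
  obtain ⟨⟨x₀, e₀⟩, ⟨hx₀, he₀⟩, hmax⟩ := (hK.prod (isCompact_sphere (0 : E n) 1)).exists_isMaxOn
    ⟨(x, e), by simp only [mem_ofPred_eq]; linarith, by simpa using he⟩ cF.continuousOn
  have he₀' : ‖e₀‖ = 1 := by simpa using he₀
  have hx₀' : u x₀ ≤ 1 := hx₀
  have hle : ∀ y v, u y ≤ 1 → ‖v‖ = 1 → F (y, v) ≤ F (x₀, e₀) := fun y v hy hv =>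
    hmax (show (y, v) ∈ _ ×ˢ _ from ⟨hy, by simpa using hv⟩)
  have h1 : hq u x e e / 2 ≤ F (x, e) := by
    have a1 := hq_nonneg (hu.pos x (mem_univ x)) e
    have a2 : 1 ≤ Real.exp (qq u x / 2) := Real.one_le_exp (by have := qq_nonneg u x; positivity)
    have a3 : hq u x e e / 2 ≤ (1 - u x) * hq u x e e := by nlinarith
    exact a3.trans (le_mul_of_one_le_right (by linarith) a2)
  have hdv : ∀ v : E n, ‖v‖ = 1 → fderiv ℝ u x₀ v ^ 2 ≤ P ^ 2 := fun v hv => by
    have := ((fderiv ℝ u x₀).le_opNorm v).trans (mul_le_mul_of_nonneg_right (hP x₀ hx₀')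
      (norm_nonneg v))
    rw [hv, mul_one, Real.norm_eq_abs] at this
    exact sq_le_sq' (abs_le.1 this).1 (abs_le.1 this).2
  have hq₀ : qq u x₀ ≤ Q := by
    calc qq u x₀ ≤ ∑ _k : Fin n, P ^ 2 := Finset.sum_le_sum fun k _ => by
          rw [← sq]; exact hdv _ (by simp)
      _ = Q := by simp [hQ]
  have h2 : (1 - u x₀) * hq u x₀ e₀ e₀ ≤ Y := by
    rcases hx₀'.eq_or_lt with h | h
    · rw [h, sub_self, zero_mul]; exact hY0.le
    have hw : 0 < 1 - u x₀ := sub_pos.2 h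
    have key := pog_max hu hd h he₀' (le_of_sphere fun v hv => by
      have := hle x₀ v hx₀' hv
      simp only [F] at this
      exact le_of_mul_le_mul_left (le_of_mul_le_mul_right this (Real.exp_pos _)) hw) (by
      filter_upwards [cu.continuousAt.eventually (gt_mem_nhds h)] with y hy
      exact hle y e₀ hy.le he₀')
    have hy0 : 0 ≤ (1 - u x₀) * hq u x₀ e₀ e₀ :=
      mul_nonneg hw.le (hq_nonneg (hu.pos x₀ (mem_univ _)) _)
    generalize (1 - u x₀) * hq u x₀ e₀ e₀ = y at key hy0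
    have a1 := hdv e₀ he₀'
    have a2 : y ^ 2 ≤ (n + 3 * Q + P ^ 2) * y + P ^ 2 := by nlinarith
    by_contra hc
    have hc' : Y < y := not_le.1 hc
    have a3 : (0 : ℝ) ≤ n + 3 * Q + P ^ 2 := by positivity
    nlinarith [sq_nonneg P]
  have h3 : F (x₀, e₀) ≤ Y * Real.exp (Q / 2) :=
    mul_le_mul h2 (Real.exp_le_exp.2 (by linarith)) (Real.exp_pos _).le hY0.le
  have := hle x e (by linarith) he
  linarith

end Crest.Agent.R236

end
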