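import Crest.Agent.R236.Conv
import Crest.Agent.R236.Body

/-!
Consequences of quasi-symmetry.
-/

set_option autoImplicit false

open scoped ContDiff RealInnerProductSpace Topology
open MeasureTheory Set Filter
open Crest.GeometryTopology.CoordMetric Crest.GeometryTopology.AffineMaximal

noncomputable section

namespace Crest.Agent.R236

variable {n : ℕ}

variable {Ω : Set (E n)} {u : E n → ℝ} {C : ℝ}

lemma qs_breg_ge (hu : Cvx Ω u) {x y : E n} (hx : x ∈ Ω) (hy : y ∈ Ω) (x₀ : E n) :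
    breg u x x₀ + (fderiv ℝ u x - fderiv ℝ u x₀) (y - x) ≤ breg u y x₀ := by
  have := breg_three u y x₀ x
  have := hu.breg_nonneg hy hx
  linarith

lemma qs_dual_le (hu : Cvx Ω u) {x y : E n} (hx : x ∈ Ω) (hy : y ∈ Ω) (x₀ : E n) :
    (fderiv ℝ u x - fderiv ℝ u x₀) (y - x₀) ≤ breg u y x₀ + breg u x₀ x := by
  have h1 := qs_breg_ge hu hx hy x₀
  have h2 := breg_add_breg u x x₀
  have h3 : y - x₀ = (y - x) + (x - x₀) := by abel
  rw [h3, map_add]
  linarith

theorem eq_univ_of_quasi (hu : Cvx Ω u) (hne : Ω.Nonempty)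
    (h : ∀ x ∈ Ω, ∀ y ∈ Ω, breg u x y ≤ C * breg u y x) : Ω = univ := by
  refine IsClopen.eq_univ ⟨isClosed_of_closure_subset fun z hz => ?_, hu.isOpen⟩ hne
  obtain ⟨x₀, hx₀⟩ := hne
  obtain ⟨C', hC', h'⟩ : ∃ C' : ℝ, 0 ≤ C' ∧ ∀ x ∈ Ω, ∀ y ∈ Ω, breg u x y ≤ C' * breg u y x :=
    ⟨max C 0, le_max_right _ _, fun x hx y hy => (h x hx y hy).trans
      (mul_le_mul_of_nonneg_right (le_max_left _ _) (hu.breg_nonneg hy hx))⟩
  have hmem : ∀ t : ℝ, 0 < t → t ≤ 1 → z + t • (x₀ - z) ∈ Ω := fun t h0 h1 =>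
    interior_subset (hu.convex.add_smul_sub_mem_interior' hz
      (hu.isOpen.interior_eq.symm ▸ hx₀) ⟨h0, h1⟩)
  obtain ⟨δ, hδ⟩ : ∃ δ : ℝ, δ = 1 / (2 * (1 + C')) := ⟨_, rfl⟩
  have hδ0 : 0 < δ := by rw [hδ]; positivity
  have hδ1 : δ * (1 + C') = 1 / 2 := by rw [hδ]; field_simp
  have hδ2 : δ ≤ 1 / 2 := by nlinarith
  have hK := (hu.proper x₀ hx₀ (2 * breg u (z + δ • (x₀ - z)) x₀)).isClosed
  have ht : Tendsto (fun t : ℝ => z + t • (x₀ - z)) (𝓝[>] 0) (𝓝 z) := by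
    have : Continuous fun t : ℝ => z + t • (x₀ - z) := by fun_prop
    simpa using (this.tendsto 0).mono_left nhdsWithin_le_nhds
  refine (hK.mem_of_tendsto ht ?_).1
  filter_upwards [Ioc_mem_nhdsGT hδ0] with t ⟨h0, h1⟩
  have hx := hmem t h0 (by linarith)
  have hy := hmem δ hδ0 (by linarith)
  refine ⟨hx, ?_⟩
  have e1 := qs_breg_ge hu hx hy x₀
  have e2 := breg_add_breg u (z + t • (x₀ - z)) x₀
  have e3 := h' x₀ hx₀ _ hx
  have e4 := hu.breg_nonneg hx hx₀
  have e5 := hu.breg_nonneg hx₀ hx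
  have f1 : z + δ • (x₀ - z) - (z + t • (x₀ - z)) = (δ - t) • (x₀ - z) := by module
  have f2 : z + t • (x₀ - z) - x₀ = (t - 1) • (x₀ - z) := by module
  rw [f1, map_smul, smul_eq_mul] at e1
  rw [f2, map_smul, smul_eq_mul] at e2
  generalize (fderiv ℝ u (z + t • (x₀ - z)) - fderiv ℝ u x₀) (x₀ - z) = a at e1 e2
  generalize breg u (z + t • (x₀ - z)) x₀ = b at *
  generalize breg u x₀ (z + t • (x₀ - z)) = τ at *
  have ha : a ≤ 0 := by nlinarith
  have g1 : δ * ((t - 1) * a) ≥ -((δ - t) * a) := by nlinarith [mul_nonneg h0.le (neg_nonneg.2 ha)]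
  have g2 : δ * (b + τ) ≤ δ * ((1 + C') * b) := mul_le_mul_of_nonneg_left (by linarith) hδ0.le
  rw [← mul_assoc, hδ1] at g2
  rw [← e2] at g1
  linarith

lemma isCompact_sec (hu : Cvx univ u) (x₀ : E n) (h : ℝ) : IsCompact (sec u x₀ h) := by
  simpa [sec] using hu.proper x₀ trivial h

lemma convex_sec (hu : Cvx univ u) (x₀ : E n) (h : ℝ) : Convex ℝ (sec u x₀ h) := by
  simpa [sec] using (hu.convexOn_breg x₀).convex_le h

lemma qs_balance (hu : QS u C) {x₀ p : E n} {h : ℝ} (hp : p ∈ sec u x₀ h) :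
    x₀ - (1 / (4 * C * (1 + C))) • (p - x₀) ∈ sec u x₀ h := by
  have hC := hu.one_le
  obtain ⟨s, hs⟩ : ∃ s : ℝ, s = 1 / (2 * C) := ⟨_, rfl⟩
  have hs0 : 0 < s := by rw [hs]; positivity
  have hs1 : s * C = 1 / 2 := by rw [hs]; field_simp
  have hs2 : s ≤ 1 / 2 := by nlinarith
  obtain ⟨m, hm⟩ : ∃ m, m = x₀ - s • (p - x₀) := ⟨_, rfl⟩
  have hp' : breg u p x₀ ≤ h := hp
  have e1 := breg_three u m x₀ p
  have e2 := breg_three u p x₀ m
  have e3 := breg_add_breg u p x₀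
  have e4 := breg_add_breg u m x₀
  have e5 := hu.quasi p m
  have e6 := hu.quasi x₀ p
  have n1 := hu.toCvx.breg_nonneg (mem_univ p) (mem_univ x₀)
  have n2 := hu.toCvx.breg_nonneg (mem_univ m) (mem_univ x₀)
  have n3 := hu.toCvx.breg_nonneg (mem_univ x₀) (mem_univ m)
  have f1 : m - p = (-(1 + s)) • (p - x₀) := by rw [hm]; module
  have f2 : p - m = (1 + s) • (p - x₀) := by rw [hm]; module
  have f3 : m - x₀ = (-s) • (p - x₀) := by rw [hm]; module
  rw [f1, map_smul, smul_eq_mul] at e1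
  rw [f2, map_smul, smul_eq_mul] at e2
  rw [f3, map_smul, smul_eq_mul] at e4
  have hb : breg u m x₀ ≤ 2 * (1 + C) * h := by
    generalize (fderiv ℝ u p - fderiv ℝ u x₀) (p - x₀) = a at e1 e3
    generalize (fderiv ℝ u m - fderiv ℝ u x₀) (p - x₀) = a' at e2 e4
    have g0 : C * breg u p x₀ ≤ C * h := mul_le_mul_of_nonneg_left hp' (by linarith)
    have g1 : a ≤ (1 + C) * h := by linarith
    have g2 : (1 + s) * a ≤ (1 + s) * ((1 + C) * h) := mul_le_mul_of_nonneg_left g1 (by linarith)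
    have g3 : breg u m p ≤ breg u m x₀ + (1 + s) * ((1 + C) * h) := by linarith
    have g4 : breg u m x₀ ≤ s * breg u p m := by
      have : s * breg u p m = s * breg u p x₀ - s * breg u m x₀ + (1 + s) * (-s * a') := by
        rw [e2]; ring
      rw [this, ← e4]
      nlinarith [mul_nonneg hs0.le n1, mul_nonneg hs0.le n3]
    have g5 : s * breg u p m ≤ s * (C * breg u m p) := mul_le_mul_of_nonneg_left e5 hs0.le
    rw [← mul_assoc, hs1] at g5
    have g6 : 0 ≤ (1 + C) * h := mul_nonneg (by linarith) (n1.trans hp')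
    nlinarith
  have := hu.toCvx.cvx0.breg_line_le (mem_univ m) (mem_univ x₀) (t := 1 / (2 * (1 + C)))
    (by positivity) (by rw [div_le_one (by positivity)]; linarith)
  have e : x₀ + (1 / (2 * (1 + C))) • (m - x₀) = x₀ - (1 / (4 * C * (1 + C))) • (p - x₀) := by
    rw [f3, smul_smul, sub_eq_add_neg x₀, ← neg_smul, hs]
    congr 2
    field_simp
    norm_num
  rw [e] at this
  refine this.trans ?_
  rw [one_div, inv_mul_le_iff₀ (by positivity)]
  exact hb

/-- sections are balanced around their base point -/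
theorem sec_norm (n : ℕ) (C : ℝ) : ∃ c : ℝ, 0 < c ∧ c ≤ 1 ∧ ∀ u : E n → ℝ, QS u C →
    ∀ (x₀ : E n) (h : ℝ), 0 < h → ∃ T : E n ≃L[ℝ] E n, IsCtr c (sec u x₀ h) x₀ T := by
  by_cases hC : 1 ≤ C
  swap
  · exact ⟨1, one_pos, le_rfl, fun u hu => (hC hu.one_le).elim⟩
  obtain ⟨c, hc0, hc1, hc⟩ := exists_ctr n
  obtain ⟨s, hs⟩ : ∃ s : ℝ, s = 1 / (4 * C * (1 + C)) := ⟨_, rfl⟩
  have hs0 : 0 < s := by rw [hs]; positivity
  refine ⟨c * (s / (2 * (1 + s))), by positivity, ?_, fun u hu x₀ h hh => ?_⟩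
  · refine mul_le_one₀ hc1 (by positivity) ?_
    rw [div_le_one (by positivity)]; linarith
  have hx₀ : x₀ ∈ sec u x₀ h := by simp [sec, hh.le]
  have hint : x₀ ∈ interior (sec u x₀ h) := by
    rw [mem_interior_iff_mem_nhds]
    have := hu.toCvx.cvx0.continuousAt_breg (mem_univ x₀) x₀
    exact this.preimage_mem_nhds (Iic_mem_nhds (by simpa using hh))
  have hconv := convex_sec hu.toCvx x₀ h
  obtain ⟨o, T, hT⟩ := hc _ (isCompact_sec hu.toCvx x₀ h) hconv ⟨_, hint⟩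
  refine ⟨ContinuousLinearEquiv.equivOfInverse ((2 : ℝ) • (T : E n →L[ℝ] E n))
    ((2⁻¹ : ℝ) • (T.symm : E n →L[ℝ] E n)) (fun x => by simp [smul_smul])
    (fun x => by simp [smul_smul]), fun q hq => ?_, fun z hz => ?_⟩
  · have ho : o ∈ sec u x₀ h := by simpa using hT.inner 0 (by simpa using hc0.le)
    have h1 := qs_balance hu ho
    rw [← hs] at h1
    have h2 := hT.inner ((2 * (1 + s) / s) • q) (by
      rw [norm_smul, Real.norm_of_nonneg (by positivity)]
      calc _ ≤ 2 * (1 + s) / s * (c * (s / (2 * (1 + s)))) := by gcongr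
        _ = c := by field_simp)
    have h3 := hconv h1 h2 (a := 1 / (1 + s)) (b := s / (1 + s)) (by positivity) (by positivity)
      (by field_simp)
    convert h3 using 1
    show x₀ + (2 : ℝ) • T q = _
    rw [map_smul]
    match_scalars <;> field_simp <;> ring
  · have h1 := hT.outer z hz
    have h2 := hT.outer x₀ hx₀
    show ‖(2⁻¹ : ℝ) • T.symm (z - x₀)‖ ≤ 1
    have : z - x₀ = (z - o) - (x₀ - o) := by abel
    rw [this, map_sub, norm_smul, Real.norm_of_nonneg (by norm_num)]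
    have := norm_sub_le (T.symm (z - o)) (T.symm (x₀ - o))
    linarith

lemma qs_inner_adj (u : E n → ℝ) (T : E n ≃L[ℝ] E n) (x x₀ q : E n) :
    ⟪adj T (gradient u x - gradient u x₀), q⟫ = (fderiv ℝ u x - fderiv ℝ u x₀) (T q) := by
  rw [inner_adj, inner_sub_left, inner_gradient, inner_gradient]
  rfl

/-- gradient bound in a normalised section -/
lemma norm_adj_gradient_le (hu : QS u C) {c h : ℝ} (hc : 0 < c) {x₀ : E n} {T : E n ≃L[ℝ] E n}
    (hT : IsCtr c (sec u x₀ h) x₀ T) {x : E n} (hx : x ∈ sec u x₀ h) :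
    c * ‖adj T (gradient u x - gradient u x₀)‖ ≤ (1 + C) * h := by
  have hC := hu.one_le
  have hx' : breg u x x₀ ≤ h := hx
  have key : ∀ q, ‖q‖ ≤ c → ⟪adj T (gradient u x - gradient u x₀), q⟫ ≤ (1 + C) * h := by
    intro q hq
    have h1 : breg u (x₀ + T q) x₀ ≤ h := hT.inner q hq
    have h2 := qs_dual_le hu.toCvx (mem_univ x) (mem_univ (x₀ + T q)) x₀
    have h3 := hu.quasi x₀ x
    have h4 : C * breg u x x₀ ≤ C * h := mul_le_mul_of_nonneg_left hx' (by linarith)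
    rw [add_sub_cancel_left] at h2
    rw [qs_inner_adj]
    linarith
  generalize adj T (gradient u x - gradient u x₀) = p at key
  by_cases hp : p = 0
  · simpa [hp] using key 0 (by simpa using hc.le)
  · have hp' : 0 < ‖p‖ := norm_pos_iff.2 hp
    have := key ((c / ‖p‖) • p) (by
      rw [norm_smul, Real.norm_of_nonneg (by positivity), div_mul_cancel₀ _ hp'.ne'])
    rw [inner_smul_right, real_inner_self_eq_norm_sq] at this
    calc c * ‖p‖ = c / ‖p‖ * ‖p‖ ^ 2 := by field_simp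
      _ ≤ _ := this

theorem superlinear (hu : QS u C) (x₀ : E n) (R : ℝ) :
    ∃ M : ℝ, ∀ x, R * ‖x - x₀‖ ≤ breg u x x₀ + M := by
  have hC := hu.one_le
  obtain ⟨c, hc, h⟩ := hu.toCvx.exists_linear (mem_univ x₀)
  obtain ⟨l, hl⟩ : ∃ l : ℝ, l = 1 + 1 / (2 * C) := ⟨_, rfl⟩
  have hl1 : 1 < l := by rw [hl]; have : 0 < 1 / (2 * C) := by positivity
                         linarith
  have hlC : 2 * l * C = 2 * C + 1 := by rw [hl]; field_simp
  have key : ∀ k : ℕ, ∃ M : ℝ, ∀ x, c * l ^ k * ‖x - x₀‖ ≤ breg u x x₀ + M := by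
    intro k
    induction k with
    | zero => exact ⟨1, fun x => by simpa using h x trivial⟩
    | succ k ih =>
      obtain ⟨M, hM⟩ := ih
      refine ⟨2 * l * M, fun x => ?_⟩
      obtain ⟨y, hy⟩ : ∃ y, y = x₀ + (2⁻¹ : ℝ) • (x - x₀) := ⟨_, rfl⟩
      have f1 : x - y = y - x₀ := by rw [hy]; module
      have f2 : ‖y - x₀‖ = 2⁻¹ * ‖x - x₀‖ := by
        rw [hy, add_sub_cancel_left, norm_smul, Real.norm_of_nonneg (by norm_num)]
      have e1 := qs_breg_ge hu.toCvx (mem_univ y) (mem_univ x) x₀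
      rw [f1, ← breg_add_breg] at e1
      have e2 := hu.quasi y x₀
      have e3 := hM y
      have e4 : 2 * l * breg u y x₀ ≤ breg u x x₀ := by
        refine le_of_mul_le_mul_left (a := C) ?_ (by linarith)
        have : C * (2 * breg u y x₀ + breg u x₀ y) ≤ C * breg u x x₀ :=
          mul_le_mul_of_nonneg_left (by linarith) (by linarith)
        calc C * (2 * l * breg u y x₀) = (2 * l * C) * breg u y x₀ := by ring
          _ ≤ _ := by rw [hlC]; linarith
      have e5 := mul_le_mul_of_nonneg_left e3 (show 0 ≤ 2 * l by linarith)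
      rw [f2] at e5
      calc c * l ^ (k + 1) * ‖x - x₀‖ = 2 * l * (c * l ^ k * (2⁻¹ * ‖x - x₀‖)) := by ring
        _ ≤ _ := by linarith
  obtain ⟨k, hk⟩ := pow_unbounded_of_one_lt (R / c) hl1
  obtain ⟨M, hM⟩ := key k
  refine ⟨M, fun x => le_trans (mul_le_mul_of_nonneg_right ?_ (norm_nonneg _)) (hM x)⟩
  rw [div_lt_iff₀ hc] at hk
  linarith

theorem superlinear_dual (hu : Cvx univ u) (x₀ v : E n) (R : ℝ) :
    ∃ M : ℝ, ∀ x, R * |fderiv ℝ u x v - fderiv ℝ u x₀ v| ≤ breg u x₀ x + M := by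
  refine ⟨breg u (x₀ + R • v) x₀ + breg u (x₀ + (-R) • v) x₀, fun x => ?_⟩
  have h1 := qs_dual_le hu (mem_univ x) (mem_univ (x₀ + R • v)) x₀
  have h2 := qs_dual_le hu (mem_univ x) (mem_univ (x₀ + (-R) • v)) x₀
  have h3 := hu.breg_nonneg (mem_univ (x₀ + R • v)) (mem_univ x₀)
  have h4 := hu.breg_nonneg (mem_univ (x₀ + (-R) • v)) (mem_univ x₀)
  rw [add_sub_cancel_left, map_smul, smul_eq_mul, ContinuousLinearMap.sub_apply] at h1 h2
  rcases abs_cases (fderiv ℝ u x v - fderiv ℝ u x₀ v) with h | h <;> rw [h.1] <;> linarith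

end Crest.Agent.R236

end
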