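import Crest.Agent.R236.CalcB

/-!
The example in dimension 10: `u = sqrt (F (|x'|²) + t²)`.
-/

set_option autoImplicit false

open scoped ContDiff RealInnerProductSpace Topology
open MeasureTheory Set Filter
open Crest.GeometryTopology.CoordMetric Crest.GeometryTopology.AffineMaximal

noncomputable section

namespace Crest.Agent.R236

variable {n : ℕ}

namespace RadAux

/-- matrices spanned by `1`, `w wᵀ`, `w eᵀ + e wᵀ`, `e eᵀ` -/
def M4 (w e : Fin 10 → ℝ) (c₀ c₁ c₂ c₃ : ℝ) : Matrix (Fin 10) (Fin 10) ℝ := fun i j =>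
  c₀ * (if i = j then 1 else 0) + c₁ * (w i * w j) + c₂ * (w i * e j + e i * w j) + c₃ * (e i * e j)

section alg

variable {w e : Fin 10 → ℝ} {c₀ c₁ c₂ c₃ d₀ d₁ d₂ d₃ τ : ℝ}

lemma M4_symm (i j : Fin 10) : M4 w e c₀ c₁ c₂ c₃ i j = M4 w e c₀ c₁ c₂ c₃ j i := by
  simp only [M4, eq_comm (a := i)]; ring

lemma M4_vec (q : Fin 10 → ℝ) (i : Fin 10) : ∑ k, M4 w e c₀ c₁ c₂ c₃ i k * q k =
    c₀ * q i + (c₁ * (∑ k, w k * q k) + c₂ * ∑ k, e k * q k) * w i +
      (c₂ * (∑ k, w k * q k) + c₃ * ∑ k, e k * q k) * e i := by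
  have h : ∀ k, M4 w e c₀ c₁ c₂ c₃ i k * q k = c₀ * (if i = k then q k else 0) +
      (c₁ * w i + c₂ * e i) * (w k * q k) + (c₂ * w i + c₃ * e i) * (e k * q k) := by
    intro k; simp only [M4]; split_ifs <;> ring
  simp only [h, Finset.sum_add_distrib, ← Finset.mul_sum, Finset.sum_ite_eq, Finset.mem_univ,
    if_true]
  ring

lemma M4_bil (p q : Fin 10 → ℝ) : ∑ i, ∑ j, M4 w e c₀ c₁ c₂ c₃ i j * p i * q j =
    c₀ * (∑ k, p k * q k) + (c₁ * (∑ k, w k * q k) + c₂ * ∑ k, e k * q k) * (∑ k, w k * p k) +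
      (c₂ * (∑ k, w k * q k) + c₃ * ∑ k, e k * q k) * ∑ k, e k * p k := by
  have h : ∀ i, ∑ j, M4 w e c₀ c₁ c₂ c₃ i j * p i * q j = c₀ * (p i * q i) +
      (c₁ * (∑ k, w k * q k) + c₂ * ∑ k, e k * q k) * (w i * p i) +
      (c₂ * (∑ k, w k * q k) + c₃ * ∑ k, e k * q k) * (e i * p i) := by
    intro i
    have : ∑ j, M4 w e c₀ c₁ c₂ c₃ i j * p i * q j = p i * ∑ j, M4 w e c₀ c₁ c₂ c₃ i j * q j := by
      rw [Finset.mul_sum]; exact Finset.sum_congr rfl fun j _ => by ring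
    rw [this, M4_vec]; ring
  simp only [h, Finset.sum_add_distrib, ← Finset.mul_sum]

lemma sum_lin (a b : ℝ) (p : Fin 10 → ℝ) :
    ∑ k, p k * (a * w k + b * e k) = a * (∑ k, p k * w k) + b * ∑ k, p k * e k := by
  rw [Finset.mul_sum, Finset.mul_sum, ← Finset.sum_add_distrib]
  exact Finset.sum_congr rfl fun k _ => by ring

lemma M4_bil' (hw : ∑ k, w k * w k = τ) (hwe : ∑ k, w k * e k = 0) (he : ∑ k, e k * e k = 1)
    (a b a' b' : ℝ) :
    ∑ i, ∑ j, M4 w e c₀ c₁ c₂ c₃ i j * (a * w i + b * e i) * (a' * w j + b' * e j) =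
      (c₀ + c₁ * τ) * τ * a * a' + c₂ * τ * (a * b' + b * a') + (c₀ + c₃) * b * b' := by
  have hew : ∑ k, e k * w k = 0 := by simpa only [mul_comm] using hwe
  have h1 : ∑ k, (a * w k + b * e k) * w k = a * τ := by
    simp only [mul_comm _ (w _)]
    have := sum_lin (w := w) (e := e) a b w
    simp only [mul_comm _ (w _)] at this
    rw [this, hw, hwe]; ring
  have h2 : ∑ k, (a * w k + b * e k) * e k = b := by
    have := sum_lin (w := w) (e := e) a b e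
    rw [hew, he] at this
    simpa only [mul_comm (e _), mul_zero, mul_one, zero_add] using this
  rw [M4_bil]
  simp only [sum_lin, hw, hwe, hew, he, h1, h2]
  ring

lemma M4_mul (hw : ∑ k, w k * w k = τ) (hwe : ∑ k, w k * e k = 0) (he : ∑ k, e k * e k = 1)
    (h₀ : c₀ * d₀ = 1) (h₁ : c₀ * d₁ + c₁ * (d₀ + d₁ * τ) + c₂ * d₂ = 0)
    (h₂ : c₀ * d₂ + c₁ * (d₂ * τ) + c₂ * (d₀ + d₃) = 0)
    (h₃ : c₀ * d₂ + c₂ * (d₀ + d₁ * τ) + c₃ * d₂ = 0)
    (h₄ : c₀ * d₃ + c₂ * (d₂ * τ) + c₃ * (d₀ + d₃) = 0) :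
    M4 w e c₀ c₁ c₂ c₃ * M4 w e d₀ d₁ d₂ d₃ = 1 := by
  have hew : ∑ k, e k * w k = 0 := by simpa only [mul_comm] using hwe
  ext i j
  have h1 : ∑ k, w k * M4 w e d₀ d₁ d₂ d₃ k j = (d₀ + d₁ * τ) * w j + d₂ * τ * e j := by
    simp only [mul_comm (w _) (M4 _ _ _ _ _ _ _ _), M4_symm _ j]
    rw [M4_vec, hw, hew]; ring
  have h2 : ∑ k, e k * M4 w e d₀ d₁ d₂ d₃ k j = d₂ * w j + (d₀ + d₃) * e j := by
    simp only [mul_comm (e _) (M4 _ _ _ _ _ _ _ _), M4_symm _ j]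
    rw [M4_vec, hwe, he]; ring
  rw [Matrix.mul_apply, M4_vec, h1, h2, Matrix.one_apply]
  simp only [M4]
  linear_combination (if i = j then (1 : ℝ) else 0) * h₀ + w i * w j * h₁ + w i * e j * h₂ +
    e i * w j * h₃ + e i * e j * h₄

lemma M4_det (hw : ∑ k, w k * w k = τ) (hwe : ∑ k, w k * e k = 0) (he : ∑ k, e k * e k = 1)
    (h₀ : c₀ ≠ 0) :
    (M4 w e c₀ c₁ c₂ c₃).det = c₀ ^ 8 * ((c₀ + c₁ * τ) * (c₀ + c₃) - c₂ ^ 2 * τ) := by
  have hew : ∑ k, e k * w k = 0 := by simpa only [mul_comm] using hwe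
  have h : M4 w e c₀ c₁ c₂ c₃ = c₀ • (1 + (Matrix.of fun i (k : Fin 2) => ![w i, e i] k) *
      Matrix.of fun (k : Fin 2) j =>
        ![c₁ / c₀ * w j + c₂ / c₀ * e j, c₂ / c₀ * w j + c₃ / c₀ * e j] k) := by
    ext i j
    simp only [M4, Matrix.smul_apply, Matrix.add_apply, Matrix.mul_apply, Matrix.one_apply,
      Fin.sum_univ_two, Matrix.of_apply, Matrix.cons_val_zero, Matrix.cons_val_one, smul_eq_mul]
    field_simp
    ring
  rw [h, Matrix.det_smul, Matrix.det_one_add_mul_comm, Matrix.det_fin_two]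
  simp only [Matrix.add_apply, Matrix.mul_apply, Matrix.one_apply, Matrix.of_apply,
    Matrix.cons_val_zero, Matrix.cons_val_one, mul_comm (_ + _) (w _), mul_comm (_ + _) (e _),
    sum_lin, hw, hwe, hew, he, Fintype.card_fin]
  simp
  field_simp

lemma M4_tr (hw : ∑ k, w k * w k = τ) (hwe : ∑ k, w k * e k = 0) (he : ∑ k, e k * e k = 1) :
    ∑ i, ∑ j, M4 w e c₀ c₁ c₂ c₃ i j * M4 w e 2 0 0 (-2) i j = 2 * (9 * c₀ + c₁ * τ) := by
  have hew : ∑ k, e k * w k = 0 := by simpa only [mul_comm] using hwe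
  have h : ∀ i, ∑ j, M4 w e c₀ c₁ c₂ c₃ i j * M4 w e 2 0 0 (-2) i j =
      2 * c₀ + 2 * c₁ * (w i * w i) + 2 * c₂ * (w i * e i) + (-2 * c₀) * (e i * e i) := by
    intro i
    simp only [mul_comm (M4 w e c₀ c₁ c₂ c₃ _ _)]
    have h2 : ∑ k, e k * M4 w e c₀ c₁ c₂ c₃ i k = c₂ * w i + (c₀ + c₃) * e i := by
      simp only [mul_comm (e _) (M4 _ _ _ _ _ _ _ _)]
      rw [M4_vec, hwe, he]; ring
    rw [M4_vec, h2]
    simp only [M4, if_true]
    ring
  simp only [h, Finset.sum_add_distrib, ← Finset.mul_sum, hw, hwe, he, Finset.sum_const,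
    Finset.card_univ, Fintype.card_fin, nsmul_eq_mul]
  push_cast
  ring

end alg

/-- `f` is differentiable at `x` with gradient `p` -/
def HG (f : E 10 → ℝ) (p : Fin 10 → ℝ) (x : E 10) : Prop :=
  ∃ L : E 10 →L[ℝ] ℝ, HasFDerivAt f L x ∧ ∀ j, L (eb j) = p j

section calculus

variable {f g : E 10 → ℝ} {p q : Fin 10 → ℝ} {x : E 10}

lemma HG.pd (h : HG f p x) (j : Fin 10) : pderiv j f x = p j := by
  obtain ⟨L, h1, h2⟩ := h
  rw [pderiv, h1.fderiv, h2]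

lemma HG.gam (u : E 10 → ℝ) (hf : HG f p x) (hg : HG g q x) :
    Gam u f g x = ∑ i, ∑ j, (hessianMat u x)⁻¹ i j * p i * q j := by
  obtain ⟨L, h1, h2⟩ := hf
  obtain ⟨L', h3, h4⟩ := hg
  simp only [Gam, gamB, h1.fderiv, h3.fderiv, h2, h4]

lemma HG.cg (h : HG f p x) (hp : ∀ j, p j = q j) : HG f q x := by
  rwa [← funext hp]

lemma HG.add (hf : HG f p x) (hg : HG g q x) :
    HG (fun y => f y + g y) (fun j => p j + q j) x := by
  obtain ⟨L, h1, h2⟩ := hf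
  obtain ⟨L', h3, h4⟩ := hg
  exact ⟨_, h1.add h3, fun j => by simp [h2, h4]⟩

lemma HG.mul (hf : HG f p x) (hg : HG g q x) :
    HG (fun y => f y * g y) (fun j => f x * q j + g x * p j) x := by
  obtain ⟨L, h1, h2⟩ := hf
  obtain ⟨L', h3, h4⟩ := hg
  exact ⟨_, h1.mul h3, fun j => by simp [h2, h4]⟩

lemma HG.comp {ψ : ℝ → ℝ} {ψ' : ℝ} (hψ : HasDerivAt ψ ψ' (f x)) (hf : HG f p x) :
    HG (fun y => ψ (f y)) (fun j => ψ' * p j) x := by
  obtain ⟨L, h1, h2⟩ := hf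
  exact ⟨_, hψ.comp_hasFDerivAt x h1, fun j => by simp [h2]⟩

lemma HG.const (c : ℝ) : HG (fun _ => c) (fun _ => 0) x :=
  ⟨0, hasFDerivAt_const c x, fun _ => rfl⟩

lemma HG.coord (i : Fin 10) : HG (fun y => y i) (fun j => if i = j then 1 else 0) x :=
  ⟨EuclideanSpace.proj i, (EuclideanSpace.proj i : E 10 →L[ℝ] ℝ).hasFDerivAt, fun j => by
    simp [eb]⟩

lemma HG.sum {F : Fin 10 → E 10 → ℝ} {P : Fin 10 → Fin 10 → ℝ} (h : ∀ i, HG (F i) (P i) x) :
    HG (fun y => ∑ i, F i y) (fun j => ∑ i, P i j) x := by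
  choose L h1 h2 using h
  exact ⟨_, HasFDerivAt.fun_sum fun i _ => h1 i, fun j => by simp [h2]⟩

end calculus

/-- the direction of `t` -/
def e0 (i : Fin 10) : ℝ := if 0 = i then 1 else 0

/-- the vector `x'` -/
def wv (x : E 10) (i : Fin 10) : ℝ := x i + -e0 i * x 0

/-- `τ = |x'|²` -/
def tau (x : E 10) : ℝ := ∑ k, wv x k * wv x k

lemma sum_e0 (p : Fin 10 → ℝ) : ∑ k, p k * e0 k = p 0 := by simp [e0]

lemma e0_e0 : ∑ k, e0 k * e0 k = 1 := by rw [sum_e0]; simp [e0]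

lemma wv_e0 (x : E 10) : ∑ k, wv x k * e0 k = 0 := by rw [sum_e0]; simp [e0, wv]

lemma tau_nonneg (x : E 10) : 0 ≤ tau x := Finset.sum_nonneg fun _ _ => mul_self_nonneg _

lemma hg_t (x : E 10) : HG (fun y => y 0) e0 x := HG.coord 0

lemma hg_wv (x : E 10) (i : Fin 10) :
    HG (fun y => wv y i) (fun j => (if i = j then 1 else 0) - e0 i * e0 j) x :=
  ((HG.coord i).add ((HG.const (-e0 i)).mul (hg_t x))).cg fun j => by ring

lemma hg_tau (x : E 10) : HG tau (fun j => 2 * wv x j + 0 * e0 j) x := by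
  refine (HG.sum fun i => (hg_wv x i).mul (hg_wv x i)).cg fun j => ?_
  have : ∀ i, wv x i * ((if i = j then 1 else 0) - e0 i * e0 j) +
      wv x i * ((if i = j then 1 else 0) - e0 i * e0 j) =
      2 * (if i = j then wv x i else 0) - 2 * e0 j * (wv x i * e0 i) := by
    intro i; split_ifs <;> ring
  simp only [this, Finset.sum_sub_distrib, ← Finset.mul_sum, wv_e0, Finset.sum_ite_eq',
    Finset.mem_univ, if_true]
  ring

lemma hess_tau (x : E 10) : hessianMat tau x = M4 (wv x) e0 2 0 0 (-2) := by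
  ext i j
  have h : (fun y => pderiv j tau y) = fun y => 2 * wv y j := funext fun y => by
    rw [(hg_tau y).pd]; ring
  rw [hessianMat, h, ((HG.const 2).mul (hg_wv x j)).pd]
  simp only [M4, eq_comm (a := i)]
  ring

lemma contDiff_tau : ContDiff ℝ ∞ tau := by
  unfold tau wv
  fun_prop

/-- the example -/
def uu (F : ℝ → ℝ) (x : E 10) : ℝ := Real.sqrt (F (tau x) + x 0 * x 0)

variable {F : ℝ → ℝ} {δ : ℝ}

lemma uu_pos (hp : ∀ t, 0 ≤ t → 0 < F t) (x : E 10) : 0 < uu F x :=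
  Real.sqrt_pos.2 (add_pos_of_pos_of_nonneg (hp _ (tau_nonneg x)) (mul_self_nonneg _))

lemma uu_sq (hp : ∀ t, 0 ≤ t → 0 < F t) (x : E 10) : uu F x ^ 2 = F (tau x) + x 0 * x 0 :=
  Real.sq_sqrt (add_nonneg (hp _ (tau_nonneg x)).le (mul_self_nonneg _))

lemma at_tau (hδ : 0 < δ) (hF : ContDiffOn ℝ ∞ F (Ioi (-δ))) (x : E 10) :
    ContDiffAt ℝ ∞ F (tau x) :=
  hF.contDiffAt (Ioi_mem_nhds (by linarith [tau_nonneg x]))

lemma contDiff_uu (hδ : 0 < δ) (hF : ContDiffOn ℝ ∞ F (Ioi (-δ))) (hp : ∀ t, 0 ≤ t → 0 < F t) :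
    ContDiff ℝ ∞ (uu F) := by
  refine contDiff_iff_contDiffAt.2 fun x => ContDiffAt.sqrt ?_
    (add_pos_of_pos_of_nonneg (hp _ (tau_nonneg x)) (mul_self_nonneg _)).ne'
  exact ((at_tau hδ hF x).comp x contDiff_tau.contDiffAt).add (by fun_prop)

lemma hg_uu (hδ : 0 < δ) (hF : ContDiffOn ℝ ∞ F (Ioi (-δ))) (hp : ∀ t, 0 ≤ t → 0 < F t)
    (x : E 10) :
    HG (uu F) (fun j => deriv F (tau x) / uu F x * wv x j + x 0 / uu F x * e0 j) x := by
  have h1 : HasDerivAt F (deriv F (tau x)) (tau x) :=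
    ((at_tau hδ hF x).differentiableAt (by simp)).hasDerivAt
  have h2 := (HG.comp h1 (hg_tau x)).add ((hg_t x).mul (hg_t x))
  have h3 := Real.hasDerivAt_sqrt
    (add_pos_of_pos_of_nonneg (hp _ (tau_nonneg x)) (mul_self_nonneg (x 0))).ne'
  refine (HG.comp (f := fun y => F (tau y) + y 0 * y 0) h3 h2).cg fun j => ?_
  have := (uu_pos hp x).ne'
  change 1 / (2 * uu F x) * _ = _
  field_simp
  ring

lemma hess_uu (hδ : 0 < δ) (hF : ContDiffOn ℝ ∞ F (Ioi (-δ))) (hp : ∀ t, 0 ≤ t → 0 < F t)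
    (x : E 10) : hessianMat (uu F) x = M4 (wv x) e0 (deriv F (tau x) / uu F x)
      (2 * deriv (deriv F) (tau x) / uu F x - deriv F (tau x) ^ 2 / uu F x ^ 3)
      (-(deriv F (tau x) * x 0) / uu F x ^ 3)
      ((1 - deriv F (tau x)) / uu F x - x 0 ^ 2 / uu F x ^ 3) := by
  ext i j
  have h : (fun y => pderiv j (uu F) y) =
      fun y => (deriv F (tau y) * wv y j + y 0 * e0 j) * (uu F y)⁻¹ := funext fun y => by
    rw [(hg_uu hδ hF hp y).pd]; ring
  have hF' : ContDiffOn ℝ ∞ (deriv F) (Ioi (-δ)) := hF.deriv_of_isOpen isOpen_Ioi (by simp)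
  have h1 : HasDerivAt (deriv F) (deriv (deriv F) (tau x)) (tau x) :=
    ((at_tau hδ hF' x).differentiableAt (by simp)).hasDerivAt
  have hu := (uu_pos hp x).ne'
  rw [hessianMat, h, ((((HG.comp h1 (hg_tau x)).mul (hg_wv x j)).add
    ((hg_t x).mul (HG.const (e0 j)))).mul (HG.comp (hasDerivAt_inv hu) (hg_uu hδ hF hp x))).pd]
  simp only [M4, eq_comm (a := i)]
  field_simp
  ring

lemma quad_pos {f₀ f₁ f₂ τ t a D s r m : ℝ} (h₁ : 0 < f₁) (ha : 0 < a) (hD : 0 < D)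
    (ea : a = f₁ + 2 * τ * f₂) (eD : D = f₀ * a - τ * f₁ ^ 2) (hs : s ^ 2 ≤ τ * m) (hm : 0 ≤ m)
    (h : 0 < m + r ^ 2) :
    0 < 1 / f₁ * (m + r ^ 2) + ((f₁ ^ 2 - 2 * f₀ * f₂) / (f₁ * D) * s + f₁ * t / D * r) * s +
      (f₁ * t / D * s + (1 - 1 / f₁ + a * t ^ 2 / D) * r) * r := by
  have e1 : (f₁ ^ 2 - 2 * f₀ * f₂) / (f₁ * D) = f₁ ^ 2 / (a * D) - 2 * f₂ / (f₁ * a) := by
    field_simp
    rw [eD, ea]; ring
  have e2 : 1 / f₁ * (m + r ^ 2) + ((f₁ ^ 2 - 2 * f₀ * f₂) / (f₁ * D) * s + f₁ * t / D * r) * s +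
      (f₁ * t / D * s + (1 - 1 / f₁ + a * t ^ 2 / D) * r) * r =
      (a * m - 2 * f₂ * s ^ 2) / (f₁ * a) + r ^ 2 + a / D * (f₁ * s / a + t * r) ^ 2 := by
    rw [e1]; field_simp; ring
  rw [e2]
  have h3 : 0 ≤ a / D * (f₁ * s / a + t * r) ^ 2 := by positivity
  have h4 : min a f₁ * m ≤ a * m - 2 * f₂ * s ^ 2 := by
    rcases le_total f₂ 0 with h' | h'
    · have : min a f₁ * m ≤ a * m := by gcongr; exact min_le_left _ _
      nlinarith [sq_nonneg s]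
    · have : min a f₁ * m ≤ f₁ * m := by gcongr; exact min_le_right _ _
      have h5 : f₂ * s ^ 2 ≤ f₂ * (τ * m) := by gcongr
      rw [ea] at this ⊢
      nlinarith
  have h6 : 0 < min a f₁ := lt_min ha h₁
  rcases hm.eq_or_lt with h7 | h7
  · have : 0 ≤ (a * m - 2 * f₂ * s ^ 2) / (f₁ * a) :=
      div_nonneg (le_trans (by positivity) h4) (by positivity)
    linarith
  · have : 0 < (a * m - 2 * f₂ * s ^ 2) / (f₁ * a) :=
      div_pos (lt_of_lt_of_le (by positivity) h4) (by positivity)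
    nlinarith [sq_nonneg r]

lemma inv_posDef {f₀ f₁ f₂ t a D U : ℝ} (x : E 10) (h₁ : 0 < f₁) (ha : 0 < a) (hD : 0 < D)
    (hU : 0 < U) (ea : a = f₁ + 2 * tau x * f₂) (eD : D = f₀ * a - tau x * f₁ ^ 2) :
    (M4 (wv x) e0 (U * (1 / f₁)) (U * ((f₁ ^ 2 - 2 * f₀ * f₂) / (f₁ * D))) (U * (f₁ * t / D))
      (U * (1 - 1 / f₁ + a * t ^ 2 / D))).PosDef := by
  refine Matrix.PosDef.of_dotProduct_mulVec_pos ?_ fun p hp => ?_
  · ext i j
    simp only [Matrix.conjTranspose_apply, star_trivial]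
    exact M4_symm _ _
  · have h1 : ∀ M : Matrix (Fin 10) (Fin 10) ℝ,
        star p ⬝ᵥ M.mulVec p = ∑ i, ∑ j, M i j * p i * p j := fun M => by
      simp only [dotProduct, Matrix.mulVec, star_trivial, Finset.mul_sum]
      exact Finset.sum_congr rfl fun i _ => Finset.sum_congr rfl fun j _ => by ring
    have h2 : ∑ k, e0 k * p k = p 0 := by simpa only [mul_comm] using sum_e0 p
    have h3 : ∑ k, p k * p k = ∑ k, (p k - p 0 * e0 k) ^ 2 + p 0 ^ 2 := by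
      have : ∀ k, (p k - p 0 * e0 k) ^ 2 =
          p k * p k - 2 * p 0 * (e0 k * p k) + p 0 ^ 2 * (e0 k * e0 k) := fun k => by ring
      simp only [this, Finset.sum_add_distrib, Finset.sum_sub_distrib, ← Finset.mul_sum, h2, e0_e0]
      ring
    have h4 : ∑ k, wv x k * p k = ∑ k, wv x k * (p k - p 0 * e0 k) := by
      have : ∀ k, wv x k * (p k - p 0 * e0 k) = wv x k * p k - p 0 * (wv x k * e0 k) :=
        fun k => by ring
      simp only [this, Finset.sum_sub_distrib, ← Finset.mul_sum, wv_e0]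
      ring
    have h5 : (∑ k, wv x k * p k) ^ 2 ≤ tau x * ∑ k, (p k - p 0 * e0 k) ^ 2 := by
      rw [h4, tau]
      simp only [← sq (wv x _)]
      exact Finset.sum_mul_sq_le_sq_mul_sq _ _ _
    have h6 : 0 < ∑ k, p k * p k := by
      obtain ⟨k, hk⟩ := Function.ne_iff.1 hp
      exact Finset.sum_pos' (fun _ _ => mul_self_nonneg _)
        ⟨k, Finset.mem_univ _, mul_self_pos.2 hk⟩
    rw [h3] at h6
    have h7 := mul_pos hU (quad_pos (t := t) h₁ ha hD ea eD h5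
      (Finset.sum_nonneg fun _ _ => sq_nonneg _) h6)
    rw [h1, M4_bil, h2, h3]
    convert h7 using 1
    ring

lemma not_quad (h0 : F 0 = 1) :
    ¬ ∃ (A : Matrix (Fin 10) (Fin 10) ℝ) (b : EuclideanSpace ℝ (Fin 10)) (c : ℝ),
      ∀ x, uu F x = (1 / 2) * (∑ i, ∑ j, A i j * x i * x j) + (∑ i, b i * x i) + c := by
  rintro ⟨A, b, c, h⟩
  have key : ∀ s r : ℝ, 0 ≤ r → 1 + s * s = r ^ 2 → r = 1 / 2 * (A 0 0 * s * s) + b 0 * s + c := by
    intro s r hr hs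
    have h1 := h (EuclideanSpace.single 0 s)
    have h2 : tau (EuclideanSpace.single 0 s) = 0 := by
      refine Finset.sum_eq_zero fun k _ => ?_
      by_cases hk : k = 0
      · simp [wv, e0, hk]
      · simp [wv, e0, hk, Ne.symm hk]
    rw [uu, h2, h0] at h1
    simp only [PiLp.single_apply, if_true, mul_ite, mul_zero, ite_mul, zero_mul, Finset.sum_ite_eq',
      Finset.mem_univ] at h1
    rwa [hs, Real.sqrt_sq hr] at h1
  have e0 := key 0 1 (by norm_num) (by norm_num)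
  have e1 := key (3 / 4) (5 / 4) (by norm_num) (by norm_num)
  have e2 := key (-3 / 4) (5 / 4) (by norm_num) (by norm_num)
  have e3 := key (4 / 3) (5 / 3) (by norm_num) (by norm_num)
  have e4 := key (-4 / 3) (5 / 3) (by norm_num) (by norm_num)
  linarith

end RadAux

open RadAux in
theorem rad {δ : ℝ} (hδ : 0 < δ) {F g : ℝ → ℝ} (hF : ContDiffOn ℝ ∞ F (Ioi (-δ)))
    (hg : ContDiffOn ℝ ∞ g (Ioi (-δ))) (h0 : F 0 = 1) (h : ∀ t : ℝ, 0 ≤ t →
      0 < F t ∧ 0 < deriv F t ∧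
      0 < F t * (deriv F t + 2 * t * deriv (deriv F) t) - t * deriv F t ^ 2 ∧
      g t = (deriv F t ^ 8 * (F t * (deriv F t + 2 * t * deriv (deriv F) t) - t * deriv F t ^ 2))
        ^ (-(11 : ℝ) / 12) ∧
      4 * t * F t * deriv (deriv g) t + (44 * t * deriv F t + 2 * F t +
          16 * (F t * (deriv F t + 2 * t * deriv (deriv F) t) - t * deriv F t ^ 2) / deriv F t) *
          deriv g t + 110 * (deriv F t + 2 * t * deriv (deriv F) t) * g t = 0) :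
    ∃ u : EuclideanSpace ℝ (Fin 10) → ℝ, ContDiff ℝ ∞ u ∧ (∀ x, (hessianMat u x).PosDef) ∧
      (∀ x, affineMaximalOp 10 u x = 0) ∧
      ¬ ∃ (A : Matrix (Fin 10) (Fin 10) ℝ) (b : EuclideanSpace ℝ (Fin 10)) (c : ℝ),
        ∀ x, u x = (1 / 2) * (∑ i, ∑ j, A i j * x i * x j) + (∑ i, b i * x i) + c := by
  have hp : ∀ t, 0 ≤ t → 0 < F t := fun t ht => (h t ht).1
  have hu := contDiff_uu hδ hF hp
  -- the explicit inverse and the determinant
  have key : ∀ (x : E 10) (a D : ℝ), a = deriv F (tau x) + 2 * tau x * deriv (deriv F) (tau x) →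
      D = F (tau x) * a - tau x * deriv F (tau x) ^ 2 →
      (hessianMat (uu F) x).PosDef ∧ (hessianMat (uu F) x)⁻¹ =
        M4 (wv x) e0 (uu F x * (1 / deriv F (tau x))) (uu F x *
          ((deriv F (tau x) ^ 2 - 2 * F (tau x) * deriv (deriv F) (tau x)) / (deriv F (tau x) * D)))
          (uu F x * (deriv F (tau x) * x 0 / D))
          (uu F x * (1 - 1 / deriv F (tau x) + a * x 0 ^ 2 / D)) ∧
        (hessianMat (uu F) x).det = deriv F (tau x) ^ 8 * D / uu F x ^ 12 := by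
    intro x a D ea eD
    obtain ⟨h1, h2, h3, -⟩ := h _ (tau_nonneg x)
    rw [← ea, ← eD] at h3
    have hU := uu_pos hp x
    have hU2 := uu_sq hp x
    have ha : 0 < a := by
      have : 0 ≤ tau x * deriv F (tau x) ^ 2 := mul_nonneg (tau_nonneg x) (sq_nonneg _)
      exact (mul_pos_iff_of_pos_left h1).1 (by linarith)
    have hB := inv_posDef (t := x 0) x h2 ha h3 hU ea eD
    rw [hess_uu hδ hF hp]
    generalize uu F x = U at *
    generalize deriv (deriv F) (tau x) = f₂ at *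
    generalize deriv F (tau x) = f₁ at *
    generalize F (tau x) = f₀ at *
    generalize x 0 = t at *
    obtain rfl : f₀ = U ^ 2 - t * t := by linarith
    have hm : M4 (wv x) e0 (f₁ / U) (2 * f₂ / U - f₁ ^ 2 / U ^ 3) (-(f₁ * t) / U ^ 3)
        ((1 - f₁) / U - t ^ 2 / U ^ 3) * M4 (wv x) e0 (U * (1 / f₁))
        (U * ((f₁ ^ 2 - 2 * (U ^ 2 - t * t) * f₂) / (f₁ * D))) (U * (f₁ * t / D))
        (U * (1 - 1 / f₁ + a * t ^ 2 / D)) = 1 := by
      refine M4_mul (τ := tau x) rfl (wv_e0 x) e0_e0 ?_ ?_ ?_ ?_ ?_ <;> field_simp <;>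
        rw [eD, ea] <;> ring
    refine ⟨?_, Matrix.inv_eq_right_inv hm, ?_⟩
    · rw [← Matrix.inv_eq_left_inv hm]; exact hB.inv
    · rw [M4_det (τ := tau x) rfl (wv_e0 x) e0_e0 (by positivity)]
      field_simp
      rw [eD, ea]; ring
  have hpow : detPower 10 (uu F) = fun x => uu F x ^ 11 * g (tau x) := by
    funext x
    obtain ⟨h1, h2, h3, h4, -⟩ := h _ (tau_nonneg x)
    have hU := uu_pos hp x
    rw [detPower, (key x _ _ rfl rfl).2.2, h4, Real.div_rpow (by positivity) (by positivity),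
      ← Real.rpow_natCast (uu F x) 12, ← Real.rpow_mul hU.le]
    have e1 : -(((10 : ℕ) : ℝ) + 1) / (((10 : ℕ) : ℝ) + 2) = -(11 : ℝ) / 12 := by norm_num
    have e2 : ((12 : ℕ) : ℝ) * (-(11 : ℝ) / 12) = -((11 : ℕ) : ℝ) := by norm_num
    rw [e1, e2, Real.rpow_neg hU.le, Real.rpow_natCast, div_inv_eq_mul, mul_comm]
  refine ⟨uu F, hu, fun x => (key x _ _ rfl rfl).1, fun x => ?_, not_quad h0⟩
  obtain ⟨a, ea⟩ : ∃ a, a = deriv F (tau x) + 2 * tau x * deriv (deriv F) (tau x) := ⟨_, rfl⟩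
  obtain ⟨D, eD⟩ : ∃ D, D = F (tau x) * a - tau x * deriv F (tau x) ^ 2 := ⟨_, rfl⟩
  obtain ⟨hA, hB, -⟩ := key x a D ea eD
  obtain ⟨h1, h2, h3, -, h5⟩ := h _ (tau_nonneg x)
  rw [← ea, ← eD] at h3 h5
  have hU := uu_pos hp x
  have hU2 := uu_sq hp x
  have hu2 : ContDiffAt ℝ 2 (uu F) x := two_of_top hu.contDiffAt
  have ht2 : ContDiffAt ℝ 2 tau x := two_of_top contDiff_tau.contDiffAt
  have hg2 : ContDiffAt ℝ 2 g (tau x) :=
    (at_tau hδ hg x).of_le (WithTop.coe_le_coe.2 (le_top : (2 : ℕ∞) ≤ ⊤))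
  have hd1 : deriv (fun s : ℝ => s ^ 11) = fun s => 11 * s ^ 10 := by ext s; simp
  have hd2 : deriv (fun s : ℝ => 11 * s ^ 10) (uu F x) = 110 * uu F x ^ 9 := by simp; ring
  have l1 := Lop_comp (u := uu F) (ψ := fun s => s ^ 11) (by fun_prop) hu2
  have l2 := Lop_comp (u := uu F) hg2 ht2
  have g1 := HG.comp (hasDerivAt_pow 11 (uu F x)) (hg_uu hδ hF hp x)
  have g2 := HG.comp (hg2.differentiableAt (by simp)).hasDerivAt (hg_tau x)
  have l3 := (g1.cg (q := fun j => 11 * uu F x ^ 9 * deriv F (tau x) * wv x j +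
    11 * uu F x ^ 9 * x 0 * e0 j) fun j => by norm_num; field_simp).gam (uu F)
    (g2.cg (q := fun j => 2 * deriv g (tau x) * wv x j + 0 * e0 j) fun j => by ring)
  rw [hd1, hd2, Lop_self hA, (hg_uu hδ hF hp x).gam _ (hg_uu hδ hF hp x), hB,
    M4_bil' (τ := tau x) rfl (wv_e0 x) e0_e0] at l1
  rw [(hg_tau x).gam _ (hg_tau x), Lop.eq_1 _ tau, hess_tau, hB, M4_bil' (τ := tau x) rfl (wv_e0 x) e0_e0,
    M4_tr (τ := tau x) rfl (wv_e0 x) e0_e0] at l2
  rw [hB, M4_bil' (τ := tau x) rfl (wv_e0 x) e0_e0] at l3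
  rw [affineMaximalOp_eq, hpow, Lop_mul (g := fun y => g (tau y)) hA (hu2.pow 11) (hg2.comp x ht2),
    l1, l2, l3]
  refine mul_eq_zero_of_right _ ?_
  generalize uu F x = U at *
  generalize deriv (deriv F) (tau x) = f₂ at *
  generalize deriv F (tau x) = f₁ at *
  generalize F (tau x) = f₀ at *
  generalize deriv (deriv g) (tau x) = g₂ at *
  generalize deriv g (tau x) = g₁ at *
  generalize g (tau x) = g₀ at *
  generalize x 0 = t at *
  generalize tau x = τ at *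
  obtain rfl : f₀ = U ^ 2 - t * t := by linarith
  refine Eq.trans ?_ (mul_eq_zero_of_right (U ^ 12 / D) h5)
  clear * - h2 h3 hU ea eD
  push_cast
  field_simp
  rw [eD, ea]
  ring

end Crest.Agent.R236

end
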