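import Crest.Agent.R236.TWAux

/-!
The determinant estimates of Trudinger and Wang (maximum principle), normalised form.
-/

set_option autoImplicit false

open scoped ContDiff RealInnerProductSpace Topology
open MeasureTheory Set Filter
open Crest.GeometryTopology.CoordMetric Crest.GeometryTopology.AffineMaximal

noncomputable section

namespace Crest.Agent.R236

variable {n : ℕ}

theorem tw_upper (hn : 2 ≤ n) (P : ℝ) : ∃ C : ℝ, 0 < C ∧ ∀ u : E n → ℝ, AM univ u →
    IsCompact {x | u x ≤ 1} → (∀ x, u x ≤ 1 → ‖fderiv ℝ u x‖ ≤ P) →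
      ∀ x, u x ≤ 1 / 2 → hdet u x ≤ C := by
  have hn' : (2 : ℝ) ≤ n := by exact_mod_cast hn
  set a : ℝ := 1 / (4 * (P ^ 2 + 1)) with ha
  set β : ℝ := n * ((n : ℝ) + 1) / (n + 2) with hβ
  have ha0 : 0 < a := by positivity
  have hβ0 : 0 < β := by positivity
  have haP : 4 * a * P ^ 2 ≤ 1 := by
    rw [ha, mul_one_div, div_mul_eq_mul_div, div_le_one (by positivity)]; linarith
  set C1 : ℝ := β * (n + 1) / a with hC1
  have hC10 : 0 < C1 := by positivity
  refine ⟨Real.exp ((n + 2) / (n + 1) * (β * Real.log C1 + 1 / 4 + β * Real.log 2)),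
    Real.exp_pos _, fun u hu hK hP x hx => ?_⟩
  have hs : ∀ y, ContDiffAt ℝ ∞ u y := fun y => hu.toCvx.at (mem_univ y)
  have hA : ∀ y, (hessianMat u y).PosDef := fun y => hu.pos y (mem_univ y)
  obtain ⟨x₀, hw, hmin, hle⟩ := tw_exists_min (w := fun y => 1 - u y)
    (h := fun y => ((n : ℝ) + 1) * mu u y - a * twq u y)
    (continuous_iff_continuousAt.2 fun y => (contDiffAt_const.sub (hs y)).continuousAt)
    (continuous_iff_continuousAt.2 fun y => ((contDiffAt_const.mul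
      (contDiffAt_mu (hs y) (hA y))).sub (contDiffAt_const.mul (contDiffAt_twq (hs y)))).continuousAt)
    (by simpa only [sub_nonneg] using hK) hβ0 (x := x) (by linarith)
  have haq : 4 * a * twq u x₀ ≤ 1 := le_trans (by gcongr; exact twq_le (hP x₀ (by linarith))) haP
  have key := tw_upper_key hn (hs x₀) (hA x₀) (hu.eqn x₀ (mem_univ _)) hw ha0 hβ haq hmin
  have hT : (hessianMat u x₀).trace ≤ C1 / (1 - u x₀) := by
    rw [le_div_iff₀ hw, hC1, le_div_iff₀ ha0]; linarith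
  have hT0 : 0 ≤ (hessianMat u x₀).trace := (hA x₀).posSemidef.trace_nonneg
  have hd := amgm_trace Matrix.PosDef.one (hA x₀)
  rw [Matrix.det_one, inv_one, one_mul, one_mul] at hd
  have hd0 : ∀ y, 0 < hdet u y := fun y => hu.toCvx.hdet_pos (mem_univ y)
  have hd' : hdet u x₀ ≤ (C1 / (1 - u x₀)) ^ n :=
    calc hdet u x₀ ≤ hdet u x₀ * (n : ℝ) ^ n :=
          le_mul_of_one_le_right (hd0 x₀).le (one_le_pow₀ (by linarith))
      _ ≤ _ := hd
      _ ≤ _ := by gcongr
  have hl := Real.log_le_log (hd0 x₀) hd'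
  rw [Real.log_pow, Real.log_div hC10.ne' hw.ne'] at hl
  have h1 : -(β * Real.log C1) + β * Real.log (1 - u x₀) ≤ ((n : ℝ) + 1) * mu u x₀ := by
    have e : -(β * Real.log C1) + β * Real.log (1 - u x₀) =
        ((n : ℝ) + 1) * (-(n * (Real.log C1 - Real.log (1 - u x₀))) / (n + 2)) := by
      rw [hβ]; field_simp; ring
    rw [e, mu]
    gcongr
  have h2 : -Real.log 2 ≤ Real.log (1 - u x) := by
    rw [← Real.log_inv]; exact Real.log_le_log (by norm_num) (by linarith)
  have h3 : β * -Real.log 2 ≤ β * Real.log (1 - u x) := by gcongr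
  have h4 : 0 ≤ a * twq u x := mul_nonneg ha0.le twq_nonneg
  have h5 : -(β * Real.log C1 + 1 / 4 + β * Real.log 2) ≤ ((n : ℝ) + 1) * mu u x := by linarith
  rw [← Real.log_le_iff_le_exp (hd0 x), div_mul_eq_mul_div, le_div_iff₀ (by positivity)]
  rw [mu, ← mul_div_assoc, le_div_iff₀ (by positivity)] at h5
  linarith

theorem tw_lower (hn : 2 ≤ n) {σ : ℝ} (hσ : 0 < σ) : ∃ c : ℝ, 0 < c ∧ ∀ u : E n → ℝ, AM univ u →
    (∀ x, 0 ≤ breg u 0 x) → (∀ x, breg u 0 x ≤ σ → ‖x‖ ≤ 1) →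
      ∀ x, breg u 0 x ≤ σ / 2 → c ≤ hdet u x := by
  have hn' : (2 : ℝ) ≤ n := by exact_mod_cast hn
  set a : ℝ := 1 / (4 * (n + 1)) with ha
  have ha0 : 0 < a := by positivity
  have ha' : 4 * a * (n + 1) ≤ 1 := by rw [ha]; field_simp; exact le_rfl
  refine ⟨Real.exp (n * Real.log a - 2 * Real.log σ + (n + 2) * (Real.log (σ / 2) - a)),
    Real.exp_pos _, fun u hu h0 hb x hx => ?_⟩
  have hs : ∀ y, ContDiffAt ℝ ∞ u y := fun y => hu.toCvx.at (mem_univ y)
  have hA : ∀ y, (hessianMat u y).PosDef := fun y => hu.pos y (mem_univ y)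
  have hc : Continuous fun y => σ - breg u 0 y := continuous_iff_continuousAt.2 fun y =>
    (contDiffAt_const.sub (contDiffAt_breg_right (hs y) 0)).continuousAt
  obtain ⟨x₀, hw, hmin, hle⟩ := tw_exists_min (w := fun y => σ - breg u 0 y)
    (h := fun y => -mu u y - a * ‖y‖ ^ 2) hc
    ((continuous_iff_continuousAt.2 fun y => (contDiffAt_mu (hs y) (hA y)).continuousAt).neg.sub
      (by fun_prop))
    ((isCompact_closedBall (0 : E n) 1).of_isClosed_subset (isClosed_le continuous_const hc)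
      fun y hy => mem_closedBall_zero_iff.2 (hb y (sub_nonneg.1 hy))) one_pos (x := x) (by linarith)
  have hx₀ : ‖x₀‖ ≤ 1 := hb x₀ (by linarith)
  have key := tw_lower_key (hs x₀) (hA x₀) (hu.eqn x₀ (mem_univ _)) hw ha0 ha' hx₀ hmin
  have hS0 : 0 ≤ ((hessianMat u x₀)⁻¹).trace := (hA x₀).inv.posSemidef.trace_nonneg
  have hd := amgm_trace (hA x₀) Matrix.PosDef.one
  rw [Matrix.det_one, one_mul, mul_one] at hd
  have hd0 : ∀ y, 0 < hdet u y := fun y => hu.toCvx.hdet_pos (mem_univ y)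
  have hd' : (a * (σ - breg u 0 x₀)) ^ n ≤ hdet u x₀ := by
    refine le_of_mul_le_mul_right ?_ (pow_pos (by linarith : (0 : ℝ) < n) n)
    calc _ ≤ (a * (σ - breg u 0 x₀)) ^ n * (hdet u x₀ * ((hessianMat u x₀)⁻¹).trace ^ n) := by
          gcongr; exact hd
      _ = hdet u x₀ * (a * (σ - breg u 0 x₀) * ((hessianMat u x₀)⁻¹).trace) ^ n := by
          rw [mul_pow _ ((hessianMat u x₀)⁻¹).trace]; ring
      _ ≤ _ := by have := (hd0 x₀).le; gcongr
  have hl := Real.log_le_log (by positivity) hd'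
  rw [Real.log_pow, Real.log_mul ha0.ne' hw.ne'] at hl
  have h1 : Real.log (σ - breg u 0 x₀) ≤ Real.log σ :=
    Real.log_le_log hw (by linarith [h0 x₀])
  have h2 : Real.log (σ / 2) ≤ Real.log (σ - breg u 0 x) :=
    Real.log_le_log (by positivity) (by linarith)
  have h3 : a * ‖x₀‖ ^ 2 ≤ a := mul_le_of_le_one_right ha0.le (pow_le_one₀ (norm_nonneg _) hx₀)
  have h4 : 0 ≤ a * ‖x‖ ^ 2 := by positivity
  have h5 : ∀ y, Real.log (hdet u y) = (n + 2) * -mu u y := fun y => by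
    rw [mu]; field_simp
  have h6 : -mu u x₀ - a - Real.log (σ - breg u 0 x₀) + Real.log (σ / 2) ≤ -mu u x := by linarith
  have h7 := mul_le_mul_of_nonneg_left h6 (by positivity : (0 : ℝ) ≤ n + 2)
  rw [← Real.le_log_iff_exp_le (hd0 x), h5 x]
  rw [h5 x₀] at hl
  linarith

end Crest.Agent.R236

end
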