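import Crest.Agent.R236.CalcB

/-!
Auxiliary lemmas for the Trudinger-Wang estimates: the computations at an interior minimum.
-/

set_option autoImplicit false
set_option linter.deprecated false

open scoped ContDiff RealInnerProductSpace Topology
open MeasureTheory Set Filter
open Crest.GeometryTopology.CoordMetric Crest.GeometryTopology.AffineMaximal

noncomputable section

namespace Crest.Agent.R236

variable {n : ℕ}

lemma tw_exists_min {w h : E n → ℝ} (hw : Continuous w) (hh : Continuous h)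
    (hK : IsCompact {y | 0 ≤ w y}) {β : ℝ} (hβ : 0 < β) {x : E n} (hx : 0 < w x) :
    ∃ x₀, 0 < w x₀ ∧ IsLocalMin (fun y => h y - β * Real.log (w y)) x₀ ∧
      h x₀ - β * Real.log (w x₀) ≤ h x - β * Real.log (w x) := by
  have hF : Continuous fun y => Real.exp (-h y) * w y ^ β :=
    (Real.continuous_exp.comp hh.neg).mul (hw.rpow_const fun _ => Or.inr hβ.le)
  obtain ⟨x₀, hx₀, hmax⟩ := hK.exists_isMaxOn ⟨x, hx.le⟩ hF.continuousOn
  have h1 : 0 < Real.exp (-h x₀) * w x₀ ^ β :=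
    lt_of_lt_of_le (mul_pos (Real.exp_pos _) (Real.rpow_pos_of_pos hx β)) (hmax hx.le)
  have h2 : 0 < w x₀ := by
    refine lt_of_le_of_ne hx₀ fun h0 => ?_
    rw [← h0, Real.zero_rpow hβ.ne', mul_zero] at h1
    exact lt_irrefl _ h1
  have h3 : ∀ y, 0 < w y → h x₀ - β * Real.log (w x₀) ≤ h y - β * Real.log (w y) := by
    intro y hy
    have h4 : Real.exp (-h y) * w y ^ β ≤ Real.exp (-h x₀) * w x₀ ^ β := hmax hy.le
    rw [Real.rpow_def_of_pos hy, Real.rpow_def_of_pos h2, ← Real.exp_add, ← Real.exp_add,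
      Real.exp_le_exp] at h4
    linarith
  refine ⟨x₀, h2, ?_, h3 x hx⟩
  filter_upwards [(isOpen_lt continuous_const hw).mem_nhds h2] with y hy using h3 y hy

/-- the squared length of the gradient -/
def twq (u : E n → ℝ) (x : E n) : ℝ := ∑ k, dv (eb k) u x * dv (eb k) u x

/-- the gradient -/
def twg (u : E n → ℝ) (x : E n) : E n := WithLp.toLp 2 fun k => dv (eb k) u x

variable {u : E n → ℝ} {x : E n}

lemma twg_norm_sq : ‖twg u x‖ ^ 2 = twq u x := by
  rw [EuclideanSpace.real_norm_sq_eq, twq]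
  exact Finset.sum_congr rfl fun k _ => by simp [twg, sq]

lemma apply_twg (r : E n →L[ℝ] ℝ) : r (twg u x) = ∑ k, dv (eb k) u x * r (eb k) :=
  clm_apply_eq_sum r _

lemma fderiv_twg : fderiv ℝ u x (twg u x) = twq u x := apply_twg _

lemma twq_nonneg : 0 ≤ twq u x := by rw [← twg_norm_sq]; positivity

lemma twq_le {P : ℝ} (h : ‖fderiv ℝ u x‖ ≤ P) : twq u x ≤ P ^ 2 := by
  have h1 : ‖twg u x‖ ^ 2 ≤ P * ‖twg u x‖ := by
    rw [twg_norm_sq, ← fderiv_twg]
    exact (le_abs_self _).trans (((fderiv ℝ u x).le_opNorm _).trans (by gcongr))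
  rw [← twg_norm_sq]
  nlinarith [norm_nonneg (twg u x), sq_nonneg (‖twg u x‖ - P)]

lemma contDiffAt_twq (hu : ContDiffAt ℝ ∞ u x) : ContDiffAt ℝ ∞ (twq u) x :=
  ContDiffAt.sum fun k _ => (contDiffAt_dv hu (eb k)).mul (contDiffAt_dv hu (eb k))

lemma fderiv_twq (hu : ContDiffAt ℝ ∞ u x) :
    fderiv ℝ (twq u) x = ∑ k, (2 * dv (eb k) u x) • fderiv ℝ (dv (eb k) u) x := by
  refine HasFDerivAt.fderiv (HasFDerivAt.fun_sum fun k _ => ?_)
  have h := (diff_of_top (contDiffAt_dv hu (eb k))).hasFDerivAt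
  rw [two_mul, add_smul]
  exact h.fun_mul h

lemma gamB_twq (hu : ContDiffAt ℝ ∞ u x) (hA : (hessianMat u x).PosDef) (r : E n →L[ℝ] ℝ) :
    gamB u x (fderiv ℝ (twq u) x) r = 2 * r (twg u x) := by
  rw [fderiv_twq hu, gamB_sum_left, apply_twg, Finset.mul_sum]
  exact Finset.sum_congr rfl fun k _ => by rw [gamB_smul_left, gamB_dv hu hA]; ring

lemma hq_eb (i j : Fin n) : hq u x (eb i) (eb j) = hessianMat u x i j := by
  simp [hq, Finset.sum_ite_eq']

lemma fderiv_twq_twg (hu : ContDiffAt ℝ ∞ u x) :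
    fderiv ℝ (twq u) x (twg u x) = 2 * hq u x (twg u x) (twg u x) := by
  rw [fderiv_twq hu, ContinuousLinearMap.sum_apply, hq_comm (two_of_top hu),
    ← fderiv_dv_apply hu, apply_twg (fderiv ℝ (dv (twg u x) u) x), Finset.mul_sum]
  refine Finset.sum_congr rfl fun k _ => ?_
  rw [ContinuousLinearMap.smul_apply, smul_eq_mul, fderiv_dv_apply hu, fderiv_dv_apply hu,
    hq_comm (two_of_top hu)]
  ring

lemma Lop_twq (hu : ContDiffAt ℝ ∞ u x) (hA : (hessianMat u x).PosDef) :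
    Lop u (twq u) x = -2 * ((n : ℝ) + 2) * fderiv ℝ (mu u) x (twg u x) +
      2 * (hessianMat u x).trace := by
  have h := fun k => two_of_top (contDiffAt_dv hu (eb k))
  have e : twq u = fun y => ∑ k, dv (eb k) u y * dv (eb k) u y := rfl
  rw [e, Lop_sum _ fun k _ => (h k).mul (h k), apply_twg, Matrix.trace, Finset.mul_sum,
    Finset.mul_sum, ← Finset.sum_add_distrib]
  refine Finset.sum_congr rfl fun k _ => ?_
  rw [Lop_mul hA (h k) (h k), Lop_dv hu hA, Gam, gamB_dv hu hA, fderiv_dv_apply hu, hq_eb,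
    Matrix.diag_apply]
  ring

lemma Lop_norm_sq (hA : (hessianMat u x).PosDef) :
    Lop u (fun y : E n => ‖y‖ ^ 2) x = 2 * ((hessianMat u x)⁻¹).trace := by
  have e : (fun y : E n => ‖y‖ ^ 2) =
      fun y => ∑ k, EuclideanSpace.proj (𝕜 := ℝ) k y * EuclideanSpace.proj (𝕜 := ℝ) k y := by
    funext y
    rw [EuclideanSpace.real_norm_sq_eq]
    exact Finset.sum_congr rfl fun k _ => by simp [sq]
  have h : ∀ k : Fin n, ContDiffAt ℝ 2 (fun y : E n => EuclideanSpace.proj (𝕜 := ℝ) k y) x :=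
    fun k => (EuclideanSpace.proj (𝕜 := ℝ) k : E n →L[ℝ] ℝ).contDiff.contDiffAt
  rw [e, Lop_sum _ fun k _ => (h k).mul (h k), Matrix.trace, Finset.mul_sum]
  refine Finset.sum_congr rfl fun k _ => ?_
  have h1 := (EuclideanSpace.proj (𝕜 := ℝ) k : E n →L[ℝ] ℝ).hasFDerivAt (x := x)
  rw [Lop_mul hA (h k) (h k), Lop_clm, Gam_eq h1 h1, Matrix.diag_apply]
  simp [gamB]

lemma tw_upper_key (hn : 2 ≤ n) (hu : ContDiffAt ℝ ∞ u x) (hA : (hessianMat u x).PosDef)
    (heq : Lop u (mu u) x = -((n : ℝ) + 1) * Gam u (mu u) (mu u) x) (hw : 0 < 1 - u x) {a β : ℝ}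
    (ha : 0 < a) (hβ : β = n * ((n : ℝ) + 1) / (n + 2)) (haq : 4 * a * twq u x ≤ 1)
    (hmin : IsLocalMin (fun y => (((n : ℝ) + 1) * mu u y - a * twq u y) - β * Real.log (1 - u y)) x) :
    a * ((1 - u x) * (hessianMat u x).trace) ≤ β * (n + 1) := by
  have hn' : (2 : ℝ) ≤ n := by exact_mod_cast hn
  have hβ1 : 1 ≤ β := by rw [hβ, le_div_iff₀ (by positivity)]; nlinarith
  have hμ := contDiffAt_mu hu hA
  have hq' := contDiffAt_twq hu
  have hw' : ContDiffAt ℝ ∞ (fun y => 1 - u y) x := contDiffAt_const.sub hu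
  have hlog : ContDiffAt ℝ ∞ (fun y => Real.log (1 - u y)) x := hw'.log hw.ne'
  have dw : HasFDerivAt (fun y => 1 - u y) (-fderiv ℝ u x) x :=
    (diff_of_top hu).hasFDerivAt.const_sub 1
  have dz := ((((diff_of_top hμ).hasFDerivAt.const_mul ((n : ℝ) + 1)).fun_sub
    ((diff_of_top hq').hasFDerivAt.const_mul a)).fun_sub ((dw.log hw.ne').const_mul β))
  have h0 := hmin.hasFDerivAt_eq_zero dz
  have hM : ((n : ℝ) + 1) • fderiv ℝ (mu u) x =
      a • fderiv ℝ (twq u) x - (β / (1 - u x)) • fderiv ℝ u x := by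
    rw [sub_sub, sub_eq_zero] at h0
    rw [h0, div_eq_mul_inv]
    module
  have hL := Lop_nonneg_of_isLocalMin hA (two_of_top (((contDiffAt_const.mul hμ).sub
    (contDiffAt_const.mul hq')).sub (contDiffAt_const.mul hlog))) hmin
  rw [Lop_sub (two_of_top ((contDiffAt_const.mul hμ).sub (contDiffAt_const.mul hq')))
    (two_of_top (contDiffAt_const.mul hlog)), Lop_sub (two_of_top (contDiffAt_const.mul hμ))
    (two_of_top (contDiffAt_const.mul hq')), Lop_const_mul _ (two_of_top hμ),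
    Lop_const_mul _ (two_of_top hq'), Lop_const_mul _ (two_of_top hlog),
    Lop_log (two_of_top hw') hw.ne', Lop_sub contDiffAt_const (two_of_top hu), Lop_const,
    Lop_self hA, Gam_eq dw dw, heq, Lop_twq hu hA, Gam] at hL
  have h1 := congrArg₂ (gamB u x) hM hM
  simp only [gamB_sub_left, gamB_sub_right, gamB_smul_left, gamB_smul_right] at h1
  rw [gamB_comm hA (fderiv ℝ u x) (fderiv ℝ (twq u) x), gamB_twq hu hA, gamB_twq hu hA,
    fderiv_twq_twg hu, fderiv_twg] at h1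
  have h2 := congrArg (fun r : E n →L[ℝ] ℝ => r (twg u x)) hM
  simp only [ContinuousLinearMap.sub_apply, ContinuousLinearMap.smul_apply, smul_eq_mul] at h2
  rw [fderiv_twq_twg hu, fderiv_twg] at h2
  simp only [gamB_neg_left, gamB_neg_right, neg_neg] at hL
  have h3 := hq_le_trace hA (twg u x)
  rw [twg_norm_sq] at h3
  have h4 := gamB_nonneg hA (fderiv ℝ u x)
  have h5 : 0 ≤ twq u x := twq_nonneg
  have h6 : 0 ≤ (hessianMat u x).trace := hA.posSemidef.trace_nonneg
  have h7 := hq_nonneg hA (twg u x)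
  set w := 1 - u x
  set T := (hessianMat u x).trace
  set H := hq u x (twg u x) (twg u x)
  set q := twq u x
  set Gp := gamB u x (fderiv ℝ u x) (fderiv ℝ u x)
  set GM := gamB u x (fderiv ℝ (mu u) x) (fderiv ℝ (mu u) x)
  set Mg := fderiv ℝ (mu u) x (twg u x)
  clear_value w T H q Gp GM Mg
  have hMg : Mg = (2 * a * H - β / w * q) / (n + 1) := by
    rw [eq_div_iff (by positivity)]; linarith
  have h8 : 0 ≤ -((β ^ 2 - β) * (Gp / w ^ 2)) + 4 * a * q * (β / w) - 4 * a ^ 2 * H + n * (β / w)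
      + 2 * a * (n + 2) * Mg - 2 * a * T := by
    have e1 : β / w * (β / w * Gp) = β ^ 2 * (Gp / w ^ 2) := by field_simp
    have e2 : β * ((0 - n) / w) = -(n * (β / w)) := by field_simp; ring
    linarith
  have h9 : 0 ≤ (β ^ 2 - β) * (Gp / w ^ 2) := mul_nonneg (by nlinarith) (by positivity)
  have h10 : 2 * a * (n + 2) * Mg ≤ 4 * a ^ 2 * H + 4 * a ^ 2 * H := by
    rw [hMg, ← mul_div_assoc, div_le_iff₀ (by positivity)]
    have e1 : 0 ≤ 2 * a * (n + 2) * (β / w * q) := by positivity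
    have e2 : 0 ≤ a ^ 2 * H * n := by positivity
    nlinarith
  have h11 : 4 * a ^ 2 * H ≤ a * T := by
    calc 4 * a ^ 2 * H ≤ 4 * a ^ 2 * (T * q) := by gcongr
      _ = a * T * (4 * a * q) := by ring
      _ ≤ a * T * 1 := by gcongr
      _ = a * T := mul_one _
  have h12 : 4 * a * q * (β / w) ≤ 1 * (β / w) := by gcongr
  have h13 : a * T ≤ (n + 1) * (β / w) := by linarith
  rw [← mul_div_assoc, le_div_iff₀ hw] at h13
  linarith

lemma tw_lower_key (hu : ContDiffAt ℝ ∞ u x) (hA : (hessianMat u x).PosDef)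
    (heq : Lop u (mu u) x = -((n : ℝ) + 1) * Gam u (mu u) (mu u) x) {σ : ℝ}
    (hw : 0 < σ - breg u 0 x) {a : ℝ} (ha : 0 < a) (ha' : 4 * a * (n + 1) ≤ 1) (hx : ‖x‖ ≤ 1)
    (hmin : IsLocalMin (fun y => (-mu u y - a * ‖y‖ ^ 2) - 1 * Real.log (σ - breg u 0 y)) x) :
    a * (σ - breg u 0 x) * ((hessianMat u x)⁻¹).trace ≤ n := by
  have hμ := contDiffAt_mu hu hA
  have hτ := contDiffAt_breg_right hu 0
  have hq' : ContDiffAt ℝ ∞ (fun y : E n => ‖y‖ ^ 2) x := contDiffAt_id.norm_sq ℝ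
  have hw' : ContDiffAt ℝ ∞ (fun y => σ - breg u 0 y) x := contDiffAt_const.sub hτ
  have hlog : ContDiffAt ℝ ∞ (fun y => Real.log (σ - breg u 0 y)) x := hw'.log hw.ne'
  have dw : HasFDerivAt (fun y => σ - breg u 0 y) (-fderiv ℝ (fun y => breg u 0 y) x) x :=
    (diff_of_top hτ).hasFDerivAt.const_sub σ
  have dz := (((diff_of_top hμ).hasFDerivAt.fun_neg.fun_sub
    ((hasStrictFDerivAt_norm_sq x).hasFDerivAt.const_mul a)).fun_sub
      ((dw.log hw.ne').const_mul 1))
  have h0 := hmin.hasFDerivAt_eq_zero dz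
  have hM : fderiv ℝ (mu u) x =
      (σ - breg u 0 x)⁻¹ • fderiv ℝ (fun y => breg u 0 y) x - (2 * a) • innerSL ℝ x := by
    rw [sub_sub, sub_eq_zero, neg_eq_iff_eq_neg] at h0
    rw [h0]
    module
  have hL := Lop_nonneg_of_isLocalMin hA (two_of_top ((hμ.neg.sub
    (contDiffAt_const.mul hq')).sub (contDiffAt_const.mul hlog))) hmin
  rw [Lop_sub (two_of_top (hμ.neg.sub (contDiffAt_const.mul hq')))
    (two_of_top (contDiffAt_const.mul hlog)), Lop_sub (two_of_top hμ.neg)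
    (two_of_top (contDiffAt_const.mul hq')), Lop_neg,
    Lop_const_mul _ (two_of_top hq'), Lop_const_mul _ (two_of_top hlog),
    Lop_log (two_of_top hw') hw.ne', Lop_sub contDiffAt_const (two_of_top hτ), Lop_const,
    Lop_breg_right hu hA, Gam_eq dw dw, heq, Lop_norm_sq hA, Gam] at hL
  have h1 := congrArg₂ (gamB u x) hM hM
  simp only [gamB_sub_left, gamB_sub_right, gamB_smul_left, gamB_smul_right] at h1
  rw [gamB_comm hA (innerSL ℝ x) (fderiv ℝ (fun y => breg u 0 y) x), gamB_breg_right hu hA,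
    gamB_breg_right hu hA] at h1
  have h2 := congrArg (fun r : E n →L[ℝ] ℝ => r (x - 0)) hM
  simp only [ContinuousLinearMap.sub_apply, ContinuousLinearMap.smul_apply, smul_eq_mul] at h2
  simp only [gamB_neg_left, gamB_neg_right, neg_neg] at hL
  rw [gamB_breg_right hu hA] at hL
  have h3 := gamB_le_trace hA (innerSL ℝ x)
  rw [innerSL_apply_norm] at h3
  have h5 : 0 ≤ innerSL ℝ x (x - 0) := by
    rw [sub_zero, innerSL_apply_apply]; exact real_inner_self_nonneg
  have h6 : 0 ≤ ((hessianMat u x)⁻¹).trace := hA.inv.posSemidef.trace_nonneg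
  have h7 : gamB u x (innerSL ℝ x) (innerSL ℝ x) ≤ ((hessianMat u x)⁻¹).trace :=
    h3.trans (mul_le_of_le_one_right h6 (pow_le_one₀ (norm_nonneg _) hx))
  have h8 := gamB_nonneg hA (innerSL ℝ x)
  set w := σ - breg u 0 x
  set S := ((hessianMat u x)⁻¹).trace
  set γ := gamB u x (innerSL ℝ x) (innerSL ℝ x)
  set ρ := innerSL ℝ x (x - 0)
  set θ := fderiv ℝ (fun y => breg u 0 y) x (x - 0)
  set GM := gamB u x (fderiv ℝ (mu u) x) (fderiv ℝ (mu u) x)
  set Mx := fderiv ℝ (mu u) x (x - 0)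
  clear_value w S γ ρ θ GM Mx
  have h9 : 0 ≤ n / w - 4 * n * a * (ρ / w) / 2 + 4 * a * (n + 1) * (a * γ) - 2 * a * S := by
    rw [h1, h2] at hL
    convert hL using 1
    field_simp
    ring
  have h10 : 0 ≤ 4 * n * a * (ρ / w) / 2 := by positivity
  have h11 : 4 * a * (n + 1) * (a * γ) ≤ 1 * (a * S) := by gcongr
  have h12 : a * S ≤ n / w := by linarith
  rw [le_div_iff₀ hw] at h12
  linarith

end Crest.Agent.R236

end
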