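import Crest.Agent.R236.TW
import Crest.Agent.R236.QSec
import Crest.Agent.R236.Norm

/-!
Global determinant bounds and volumes of sections.
-/

set_option autoImplicit false

open scoped ContDiff RealInnerProductSpace Topology
open MeasureTheory Set Filter
open Crest.GeometryTopology.CoordMetric Crest.GeometryTopology.AffineMaximal

noncomputable section

namespace Crest.Agent.R236

variable {n : ℕ}

variable {u : E n → ℝ} {C c₁ C₁ : ℝ}

theorem tw_sec (hn : 2 ≤ n) (C : ℝ) {c : ℝ} (hc : 0 < c) : ∃ c₀ C₀ : ℝ, 0 < c₀ ∧ 0 < C₀ ∧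
    ∀ u : E n → ℝ, AM univ u → QS u C → ∀ (x₀ : E n) (h : ℝ), 0 < h →
      ∀ T : E n ≃L[ℝ] E n, IsCtr c (sec u x₀ h) x₀ T →
        (∀ x, breg u x x₀ ≤ h / 2 → cdet T ^ 2 * hdet u x ≤ C₀ * h ^ n) ∧
        (∀ x, breg u x₀ x ≤ h / (2 * C) → c₀ * h ^ n ≤ cdet T ^ 2 * hdet u x) := by
  by_cases hC : 1 ≤ C
  swap
  · exact ⟨1, 1, one_pos, one_pos, fun u _ hu => (hC hu.one_le).elim⟩
  obtain ⟨C₀, hC₀, hup⟩ := tw_upper hn ((1 + C) / c)
  obtain ⟨c₀, hc₀, hlow⟩ := tw_lower hn (σ := 1 / C) (by positivity)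
  refine ⟨c₀, C₀, hc₀, hC₀, fun u hu hq x₀ h hh T hT => ?_⟩
  obtain ⟨v, hv⟩ : ∃ v, v = aff u x₀ T (1 / h)
    (-((1 / h) • (fderiv ℝ u x₀).comp (T : E n →L[ℝ] E n))) (-(1 / h * u x₀)) := ⟨_, rfl⟩
  have hat : ∀ x, ContDiffAt ℝ ∞ u x := fun x => hu.toCvx.at (mem_univ x)
  have hvm : AM univ v := by
    have := hu.aff x₀ T (s := 1 / h) (by positivity)
      (-((1 / h) • (fderiv ℝ u x₀).comp (T : E n →L[ℝ] E n))) (-(1 / h * u x₀))
    rw [← hv] at this
    simpa using this
  have hval : ∀ z, v z = 1 / h * breg u (x₀ + T z) x₀ := by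
    intro z
    simp only [hv, aff, breg, add_sub_cancel_left]
    simp
    ring
  have hdv : ∀ z, hdet v z = (1 / h) ^ n * cdet T ^ 2 * hdet u (x₀ + T z) := fun z => by
    rw [hv, hdet_aff (hat _)]
  have hbr : ∀ z, breg v 0 z = 1 / h * breg u x₀ (x₀ + T z) := fun z => by
    rw [hv, breg_aff (hat _)]; simp
  have hsec : ∀ z, breg u (x₀ + T z) x₀ ≤ h → ‖z‖ ≤ 1 := fun z hz => by
    simpa using hT.outer _ hz
  have hle : ∀ z, v z ≤ 1 → breg u (x₀ + T z) x₀ ≤ h := fun z hz => by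
    rwa [hval, one_div, inv_mul_le_iff₀ hh, mul_one] at hz
  have hpow : (1 / h) ^ n * h ^ n = 1 := by rw [← mul_pow, one_div_mul_cancel hh.ne', one_pow]
  have hhn : 0 < h ^ n := by positivity
  constructor
  · intro x hx
    have := hup v hvm ?_ ?_ (T.symm (x - x₀)) ?_
    · rw [hdv] at this
      simp only [ContinuousLinearEquiv.apply_symm_apply, add_sub_cancel] at this
      calc _ = (1 / h) ^ n * cdet T ^ 2 * hdet u x * h ^ n := by
            rw [mul_assoc ((1 / h) ^ n), mul_right_comm, hpow, one_mul]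
        _ ≤ _ := mul_le_mul_of_nonneg_right this hhn.le
    · refine (isCompact_closedBall (0 : E n) 1).of_isClosed_subset
        (isClosed_le (continuousOn_univ.1 hvm.toCvx.continuousOn) continuous_const) fun z hz => ?_
      simpa using hsec z (hle z hz)
    · intro z hz
      have h1 := norm_adj_gradient_le hq hc hT (x := x₀ + T z) (hle z hz)
      refine ContinuousLinearMap.opNorm_le_bound _ (by positivity) fun q => ?_
      have h2 : fderiv ℝ v z q =
          1 / h * ⟪adj T (gradient u (x₀ + T z) - gradient u x₀), q⟫ := by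
        rw [hv, fderiv_aff (hat _), qs_inner_adj]
        simp
        ring
      rw [h2, norm_mul, Real.norm_of_nonneg (by positivity)]
      have h3 := norm_inner_le_norm (𝕜 := ℝ) (adj T (gradient u (x₀ + T z) - gradient u x₀)) q
      have h4 : ‖adj T (gradient u (x₀ + T z) - gradient u x₀)‖ ≤ (1 + C) * h / c := by
        rw [le_div_iff₀ hc]; linarith
      calc _ ≤ 1 / h * ((1 + C) * h / c * ‖q‖) := by
            refine mul_le_mul_of_nonneg_left (h3.trans ?_) (by positivity)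
            gcongr
        _ = _ := by field_simp
    · rw [hval]
      simp only [ContinuousLinearEquiv.apply_symm_apply, add_sub_cancel]
      rw [one_div, inv_mul_le_iff₀ hh]
      linarith
  · intro x hx
    have := hlow v hvm ?_ ?_ (T.symm (x - x₀)) ?_
    · rw [hdv] at this
      simp only [ContinuousLinearEquiv.apply_symm_apply, add_sub_cancel] at this
      calc _ ≤ (1 / h) ^ n * cdet T ^ 2 * hdet u x * h ^ n :=
            mul_le_mul_of_nonneg_right this hhn.le
        _ = _ := by rw [mul_assoc ((1 / h) ^ n), mul_right_comm, hpow, one_mul]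
    · exact fun z => hvm.toCvx.breg_nonneg trivial trivial
    · intro z hz
      refine hsec z ((hq.quasi _ _).trans ?_)
      rw [hbr, one_div, inv_mul_le_iff₀ hh] at hz
      calc _ ≤ C * (h * (1 / C)) := mul_le_mul_of_nonneg_left hz (by linarith)
        _ = h := by field_simp
    · rw [hbr]
      simp only [ContinuousLinearEquiv.apply_symm_apply, add_sub_cancel]
      rw [one_div, inv_mul_le_iff₀ hh]
      refine hx.trans (le_of_eq ?_)
      field_simp

theorem exists_nice (hn : 2 ≤ n) (hu : AM univ u) (hq : QS u C) : ∃ c₁ C₁ : ℝ, Nice u C c₁ C₁ := by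
  have hC := hq.one_le
  obtain ⟨c, hc, -, hsec⟩ := sec_norm n C
  obtain ⟨c₀, C₀, hc₀, hC₀, htw⟩ := tw_sec hn C hc
  have hpos : ∀ x, 0 < hdet u x := fun x => hu.toCvx.hdet_pos trivial
  have key : ∀ x, c₀ * hdet u x ≤ C₀ * hdet u 0 ∧ c₀ * hdet u 0 ≤ C₀ * hdet u x := by
    intro x
    have n1 := hu.toCvx.breg_nonneg (mem_univ x) (mem_univ 0)
    have n2 := hu.toCvx.breg_nonneg (mem_univ 0) (mem_univ x)
    have n3 : 0 ≤ 2 * C * breg u 0 x := by positivity
    obtain ⟨h, hh⟩ : ∃ h, h = 2 * breg u x 0 + 2 * C * breg u 0 x + 1 := ⟨_, rfl⟩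
    have hh0 : 0 < h := by linarith
    obtain ⟨T, hT⟩ := hsec u hq 0 h hh0
    obtain ⟨h1, h2⟩ := htw u hu hq 0 h hh0 T hT
    have a1 := h1 x (by linarith)
    have a2 := h2 x (by rw [le_div_iff₀ (by positivity)]; linarith)
    have a3 := h1 0 (by rw [breg_self]; positivity)
    have a4 := h2 0 (by rw [breg_self]; positivity)
    have hhn : 0 < h ^ n := by positivity
    have b1 := mul_le_mul_of_nonneg_right a1 (hpos 0).le
    have b2 := mul_le_mul_of_nonneg_right a2 (hpos 0).le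
    have b3 := mul_le_mul_of_nonneg_right a3 (hpos x).le
    have b4 := mul_le_mul_of_nonneg_right a4 (hpos x).le
    constructor
    · refine le_of_mul_le_mul_left (a := h ^ n) ?_ hhn
      linarith
    · refine le_of_mul_le_mul_left (a := h ^ n) ?_ hhn
      linarith
  refine ⟨c₀ * hdet u 0 / C₀, C₀ * hdet u 0 / c₀, hu, hq, by have := hpos 0; positivity,
    fun x => ?_, fun x => ?_⟩
  · rw [div_le_iff₀ hC₀]; linarith [(key x).2]
  · rw [le_div_iff₀ hc₀]; linarith [(key x).1]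

theorem Nice.volume_sec (hn : 2 ≤ n) (hu : Nice u C c₁ C₁) : ∃ cV CV : ℝ, 0 < cV ∧ 0 < CV ∧
    ∀ (x₀ : E n) (h : ℝ), 0 < h →
      ENNReal.ofReal (cV * h ^ ((n : ℝ) / 2)) ≤ volume (sec u x₀ h) ∧
      volume (sec u x₀ h) ≤ ENNReal.ofReal (CV * h ^ ((n : ℝ) / 2)) := by
  have hC := hu.qs.one_le
  obtain ⟨c, hc, -, hsec⟩ := sec_norm n C
  obtain ⟨c₀, C₀, hc₀, hC₀, htw⟩ := tw_sec hn C hc
  have hc₁ := hu.pos
  have hC₁ : 0 < C₁ := hc₁.trans_le ((hu.lower 0).trans (hu.upper 0))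
  have hω := omg_pos n
  refine ⟨c ^ n * √(c₀ / C₁) * omg n, √(C₀ / c₁) * omg n, by positivity, by positivity,
    fun x₀ h hh => ?_⟩
  obtain ⟨T, hT⟩ := hsec u hu.qs x₀ h hh
  obtain ⟨h1, h2⟩ := htw u hu.am hu.qs x₀ h hh T hT
  have a3 := h1 x₀ (by rw [breg_self]; positivity)
  have a4 := h2 x₀ (by rw [breg_self]; positivity)
  have hH : (h ^ ((n : ℝ) / 2)) ^ 2 = h ^ n := by
    rw [← Real.rpow_natCast, ← Real.rpow_mul hh.le, ← Real.rpow_natCast]
    congr 1
    push_cast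
    ring
  have hH0 : 0 < h ^ ((n : ℝ) / 2) := by positivity
  generalize h ^ ((n : ℝ) / 2) = H at hH hH0
  rw [← hH] at a3 a4
  have b1 := mul_le_mul_of_nonneg_left (hu.lower x₀) (sq_nonneg (cdet T))
  have b2 := mul_le_mul_of_nonneg_left (hu.upper x₀) (sq_nonneg (cdet T))
  constructor
  · refine le_trans (ENNReal.ofReal_le_ofReal ?_) (le_volume_of_inner hc.le hT.inner)
    have : √(c₀ / C₁) * H ≤ |cdet T| := by
      refine Real.le_sqrt_of_sq_le ?_ |>.trans_eq (Real.sqrt_sq_eq_abs _)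
      rw [mul_pow, Real.sq_sqrt (by positivity), div_mul_eq_mul_div, div_le_iff₀ hC₁]
      linarith
    calc _ = c ^ n * (√(c₀ / C₁) * H) * omg n := by ring
      _ ≤ _ := by gcongr
  · refine (volume_le_of_outer zero_le_one hT.outer).trans (ENNReal.ofReal_le_ofReal ?_)
    have : |cdet T| ≤ √(C₀ / c₁) * H := by
      refine abs_le_of_sq_le_sq' ?_ (by positivity) |> abs_le.2
      rw [mul_pow, Real.sq_sqrt (by positivity), div_mul_eq_mul_div, le_div_iff₀ hc₁]
      linarith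
    calc _ = |cdet T| * omg n := by rw [one_pow, one_mul]
      _ ≤ √(C₀ / c₁) * H * omg n := by gcongr
      _ = _ := by ring

theorem Nice.lintegral_rpow (hn : 2 ≤ n) (hu : Nice u C c₁ C₁) : ∃ K : ℝ, 0 < K ∧
    ∀ (x₀ : E n) (r : ℝ), 0 < r →
      ∫⁻ x, ENNReal.ofReal ((breg u x x₀ + r) ^ (-((n : ℝ) / 2 + 1))) ≤
        ENNReal.ofReal (K / r) := by
  obtain ⟨cV, CV, -, hCV, hV⟩ := hu.volume_sec hn
  obtain ⟨a, ha⟩ : ∃ a : ℝ, a = (n : ℝ) / 2 := ⟨_, rfl⟩
  rw [← ha] at hV ⊢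
  have ha0 : 0 ≤ a := by rw [ha]; positivity
  refine ⟨CV * 2 ^ (a + 1) * 2, by positivity, fun x₀ r hr => ?_⟩
  have hm : ∀ h, MeasurableSet (sec u x₀ h) := fun h =>
    (isCompact_sec hu.am.toCvx x₀ h).isClosed.measurableSet
  have hpt : ∀ x, ENNReal.ofReal ((breg u x x₀ + r) ^ (-(a + 1))) ≤
      ∑' i : ℕ, (sec u x₀ (2 ^ i * r)).indicator
        (fun _ => ENNReal.ofReal ((2 ^ i * r / 2) ^ (-(a + 1)))) x := by
    intro x
    have hb := hu.am.toCvx.breg_nonneg (mem_univ x) (mem_univ x₀)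
    have hex : ∃ i : ℕ, breg u x x₀ ≤ 2 ^ i * r := by
      obtain ⟨i, hi⟩ := pow_unbounded_of_one_lt (breg u x x₀ / r) (one_lt_two (α := ℝ))
      exact ⟨i, ((div_lt_iff₀ hr).1 hi).le⟩
    refine le_trans ?_ (ENNReal.le_tsum (Nat.find hex))
    rw [Set.indicator_of_mem (show x ∈ sec u x₀ _ from Nat.find_spec hex)]
    refine ENNReal.ofReal_le_ofReal (Real.rpow_le_rpow_of_nonpos (by positivity) ?_ (by linarith))
    rcases h : Nat.find hex with _ | i
    · simp only [pow_zero]; linarith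
    · have := Nat.find_min hex (show i < Nat.find hex by omega)
      rw [pow_succ]
      linarith
  refine (lintegral_mono hpt).trans ?_
  rw [lintegral_tsum fun i => (measurable_const.indicator (hm _)).aemeasurable]
  have hsum : HasSum (fun i : ℕ => CV * 2 ^ (a + 1) / r * (1 / 2) ^ i)
      (CV * 2 ^ (a + 1) * 2 / r) := by
    rw [mul_div_right_comm _ 2 r]
    exact hasSum_geometric_two.mul_left (CV * 2 ^ (a + 1) / r)
  rw [← hsum.tsum_eq, ENNReal.ofReal_tsum_of_nonneg (fun i => by positivity) hsum.summable]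
  refine ENNReal.tsum_le_tsum fun i => ?_
  rw [lintegral_indicator_const (hm _)]
  have hri : 0 < 2 ^ i * r := by positivity
  refine (mul_le_mul' le_rfl (hV x₀ _ hri).2).trans ?_
  rw [← ENNReal.ofReal_mul (by positivity)]
  refine ENNReal.ofReal_le_ofReal (le_of_eq ?_)
  rw [Real.div_rpow hri.le (by norm_num), Real.rpow_neg hri.le, Real.rpow_neg (by norm_num),
    Real.rpow_add_one hri.ne', one_div, inv_pow]
  have : 0 < (2 ^ i * r) ^ a := by positivity
  field_simp

/-- `ρ` is pinched -/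
lemma Nice.abs_mu_le (hu : Nice u C c₁ C₁) : ∃ M : ℝ, ∀ x, |mu u x| ≤ M := by
  refine ⟨|Real.log c₁| + |Real.log C₁|, fun x => ?_⟩
  have h1 := Real.log_le_log hu.pos (hu.lower x)
  have h2 := Real.log_le_log (hu.pos.trans_le (hu.lower x)) (hu.upper x)
  have h3 : |Real.log (hdet u x)| ≤ |Real.log c₁| + |Real.log C₁| := by
    rw [abs_le]
    constructor <;> linarith [neg_abs_le (Real.log c₁), le_abs_self (Real.log C₁),
      abs_nonneg (Real.log c₁), abs_nonneg (Real.log C₁)]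
  rw [mu, abs_div, abs_neg]
  refine (div_le_self (abs_nonneg _) ?_).trans h3
  rw [abs_of_nonneg (by positivity)]
  have : (0 : ℝ) ≤ n := by positivity
  linarith

end Crest.Agent.R236

end
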